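import Vale.Agent.P319A.CTU

/-!
Finite algebras over `ZMod p` given by multiplication tables, polynomials over them, and
extensions. Definitions and running times.
-/

namespace Vale.Agent.P319A

open Vale.Agent.Lib.TM List

/-- Elements: coordinate vectors. -/
abbrev Vec : Type := List ℕ

/-- Polynomials, or rows of a matrix. -/
abbrev Pol : Type := List Vec

/-- A modulus and a multiplication table. -/
abbrev Alg : Type := ℕ × List (List Vec)

/-- Reduction modulo `p`. -/
def rd (p x : ℕ) : ℕ := min (x % p) p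

namespace Alg

/-- The characteristic. -/
def p (A : Alg) : ℕ := A.1

/-- The dimension. -/
def d (A : Alg) : ℕ := A.2.length

/-- The product of two basis elements. -/
def e (A : Alg) (i j : ℕ) : Vec := (A.2.getD i []).getD j []

/-- A reduced vector from its coordinates. -/
def tab (A : Alg) (F : ℕ → ℕ) : Vec := (range A.d).map fun k => rd A.p (F k)

/-- Normal form. -/
def nv (A : Alg) (a : Vec) : Vec := A.tab fun k => a.getD k 0

/-- Addition. -/
def add (A : Alg) (a b : Vec) : Vec := A.tab fun k => a.getD k 0 + b.getD k 0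

/-- Subtraction. -/
def sub (A : Alg) (a b : Vec) : Vec := A.tab fun k => a.getD k 0 + (A.p - 1) * b.getD k 0

/-- Negation. -/
def neg (A : Alg) (a : Vec) : Vec := A.sub [] a

/-- Sums. -/
def sum (A : Alg) (l : List Vec) : Vec := A.tab fun k => (l.map fun a => a.getD k 0).sum

/-- The zero test. -/
def isZ (A : Alg) (a : Vec) : Bool := (range A.d).all fun k => a.getD k 0 % A.p == 0

/-- Multiplication. -/
def mul (A : Alg) (a b : Vec) : Vec := A.tab fun k =>
  ((range A.d).map fun i => ((range A.d).map fun j =>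
    a.getD i 0 * b.getD j 0 * (A.e i j).getD k 0).sum).sum

/-- Powers by repeated squaring. -/
def pow (A : Alg) (a : Vec) (n : ℕ) : Vec :=
  n.bits.reverse.foldl (fun x b => bif b then A.mul (A.mul x x) a else A.mul x x) [1]

/-- Products. -/
def prod (A : Alg) (l : List Vec) : Vec := l.foldl A.mul [1]

/-- Inverses in a product of subfields of the field with `Q` elements. -/
def inv (A : Alg) (Q : ℕ) (a : Vec) : Vec := A.pow a (Q - 2)

/-- Size bound for reduced vectors. -/
def vb (A : Alg) : ℕ := A.d * (sz A.p + 1) + 1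

/-- Sum of polynomials. -/
def padd (A : Alg) (P R : Pol) : Pol :=
  (range (max P.length R.length)).map fun a => A.add (P.getD a []) (R.getD a [])

/-- Difference of polynomials. -/
def psub (A : Alg) (P R : Pol) : Pol :=
  (range (max P.length R.length)).map fun a => A.sub (P.getD a []) (R.getD a [])

/-- Product of polynomials. -/
def pmul (A : Alg) (P R : Pol) : Pol :=
  (range (P.length + R.length)).map fun a => A.sum ((range P.length).map fun b =>
    bif decide (b ≤ a) then A.mul (P.getD b []) (R.getD (a - b) []) else [])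

/-- Sum of a list of polynomials. -/
def psum (A : Alg) (l : List Pol) : Pol :=
  (range l.flatten.length).map fun a => A.sum (l.map fun P => P.getD a [])

/-- Scalar multiples. -/
def psm (A : Alg) (c : Vec) (P : Pol) : Pol := P.map (A.mul c)

/-- Evaluation. -/
def peval (A : Alg) (P : Pol) (x : Vec) : Vec :=
  A.sum ((range P.length).map fun a => A.mul (P.getD a []) (A.pow x a))

/-- Normal form of length `N`. -/
def pfix (A : Alg) (N : ℕ) (P : Pol) : Pol := (range N).map fun a => A.nv (P.getD a [])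

/-- One step of long division. -/
def dstep (A : Alg) (u : Pol) (s : Pol × Pol) (x : Vec) : Pol × Pol :=
  ((x :: s.2).getD (u.length - 1) [] :: s.1, (range (u.length - 1)).map fun b =>
    A.sub ((x :: s.2).getD b []) (A.mul ((x :: s.2).getD (u.length - 1) []) (u.getD b [])))

/-- Long division by a monic polynomial. -/
def pdm (A : Alg) (u P : Pol) : Pol × Pol := P.reverse.foldl (A.dstep u) ([], [])

/-- The quotient. -/
def pdiv (A : Alg) (u P : Pol) : Pol := (A.pdm u P).1.take (P.length - (u.length - 1))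

/-- The remainder. -/
def pmod (A : Alg) (u P : Pol) : Pol := A.pfix (u.length - 1) (A.pdm u P).2

/-- Powers modulo a monic polynomial. -/
def ppowm (A : Alg) (u P : Pol) (k : ℕ) : Pol :=
  (range k).foldl (fun R _ => A.pmod u (A.pmul R P)) (A.pmod u [[1]])

/-- The length without leading zeros. -/
def plen (A : Alg) (P : Pol) : ℕ :=
  P.length - first P.length fun k => !A.isZ (P.getD (P.length - 1 - k) [])

/-- The leading coefficient. -/
def plc (A : Alg) (P : Pol) : Vec := P.getD (A.plen P - 1) []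

/-- Division by the leading coefficient; the log is `P` itself. -/
def monicize (A : Alg) (Q : ℕ) (P : Pol) : Pol := A.psm (A.inv Q (A.plc P)) (P.take (A.plen P))

/-- The `a`-th block of coordinates. -/
def chunk (A : Alg) (a : ℕ) (v : Vec) : Vec := (range A.d).map fun i => v.getD (a * A.d + i) 0

/-- An element of an extension of degree `m` as a polynomial. -/
def chunks (A : Alg) (m : ℕ) (v : Vec) : Pol := (range m).map fun a => A.chunk a v

/-- A polynomial as an element of an extension of degree `m`. -/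
def flat (A : Alg) (m : ℕ) (P : Pol) : Vec :=
  (range (m * A.d)).map fun k => rd A.p ((P.getD (k / A.d) []).getD (k % A.d) 0)

/-- The algebra `A[X] / g` for monic `g`. -/
def ext (A : Alg) (g : Pol) : Alg :=
  (A.p, (range ((g.length - 1) * A.d)).map fun I => (range ((g.length - 1) * A.d)).map fun J =>
    A.flat (g.length - 1) (A.pmod g ((range (2 * g.length)).map fun c =>
      bif c == I / A.d + J / A.d then A.e (I % A.d) (J % A.d) else [])))

/-- The class of `X` in `A[X] / g`. -/
def gen (A : Alg) (g : Pol) : Vec := A.flat (g.length - 1) (A.pmod g [[], [1]])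

end Alg

/-- The prime field. -/
def A1 (p : ℕ) : Alg := (p, [[[1]]])

/-- The monomial `X ^ a` as a list of length `N`. -/
def xpow (N a : ℕ) : Pol := (range N).map fun c => bif c == a then [1] else []

/-- Numbers as elements of the prime field. -/
def lift1 (v : List ℕ) : Pol := v.map fun x => [x]

variable {α : Type} [Enc α]

@[fun_prop]
theorem ct_rd {p x : α → ℕ} (hp : CT 0 p) (hx : CT 0 x) : CT 0 fun a => rd (p a) (x a) := by
  unfold rd; fun_prop

@[fun_prop]
theorem ct_A1 {p : α → ℕ} (hp : CT 0 p) : CT 0 fun a => A1 (p a) := by unfold A1; fun_prop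

@[fun_prop]
theorem ct_xpow {N k : α → ℕ} (hN : Un N) (hk : CT 0 k) : CT 0 fun a => xpow (N a) (k a) := by
  unfold xpow; fun_prop

@[fun_prop]
theorem ct_lift1 {v : α → List ℕ} (hv : CT 0 v) : CT 0 fun a => lift1 (v a) := by
  unfold lift1; fun_prop

namespace Alg

variable {A : α → Alg} {x y : α → Vec} {P R u : α → Pol} {i j k Q : α → ℕ}

@[fun_prop]
theorem ct_p (hA : CT 0 A) : CT 0 fun a => (A a).p := by unfold p; fun_prop

@[fun_prop]
theorem un_d (hA : CT 0 A) : Un fun a => (A a).d := by unfold d; fun_prop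

@[fun_prop]
theorem ct_d (hA : CT 0 A) : CT 0 fun a => (A a).d := (un_d hA).1

@[fun_prop]
theorem ct_e (hA : CT 0 A) (hi : CT 0 i) (hj : CT 0 j) : CT 0 fun a => (A a).e (i a) (j a) := by
  unfold e; fun_prop

@[fun_prop]
theorem ct_tab {F : α → ℕ → ℕ} (hA : CT 0 A) (hF : CT 0 fun p : α × ℕ => F p.1 p.2) :
    CT 0 fun a => (A a).tab (F a) := by unfold tab; fun_prop

@[fun_prop]
theorem ct_nv (hA : CT 0 A) (hx : CT 0 x) : CT 0 fun a => (A a).nv (x a) := by
  unfold nv; fun_prop

@[fun_prop]
theorem ct_add (hA : CT 0 A) (hx : CT 0 x) (hy : CT 0 y) :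
    CT 0 fun a => (A a).add (x a) (y a) := by unfold add; fun_prop

@[fun_prop]
theorem ct_sub (hA : CT 0 A) (hx : CT 0 x) (hy : CT 0 y) :
    CT 0 fun a => (A a).sub (x a) (y a) := by unfold sub; fun_prop

@[fun_prop]
theorem ct_neg (hA : CT 0 A) (hx : CT 0 x) : CT 0 fun a => (A a).neg (x a) := by
  unfold neg; fun_prop

@[fun_prop]
theorem ct_sum (hA : CT 0 A) (hP : CT 0 P) : CT 0 fun a => (A a).sum (P a) := by
  unfold sum; fun_prop

@[fun_prop]
theorem ct_isZ (hA : CT 0 A) (hx : CT 0 x) : CT 0 fun a => (A a).isZ (x a) := by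
  unfold isZ; fun_prop

@[fun_prop]
theorem ct_mul (hA : CT 0 A) (hx : CT 0 x) (hy : CT 0 y) :
    CT 0 fun a => (A a).mul (x a) (y a) := by unfold mul; fun_prop

theorem bd_vb (hA : CT 0 A) : Bd 0 fun a => (A a).vb :=
  ((un_d hA).2.mul ((ct_p hA).size.add (Bd.const 1))).add (Bd.const 1)

theorem sz_tab (A : Alg) (F : ℕ → ℕ) : sz (A.tab F) ≤ A.vb := by
  have h := sz_list_le (l := A.tab F) (B := sz A.p) fun x hx => by
    obtain ⟨k, -, rfl⟩ := List.mem_map.mp hx
    exact sz_mono (Nat.min_le_right _ _)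
  simpa [tab, vb] using h

theorem sz_mul (A : Alg) (a b : Vec) : sz (A.mul a b) ≤ A.vb := A.sz_tab _

theorem sz_nv (A : Alg) (a : Vec) : sz (A.nv a) ≤ A.vb := A.sz_tab _

/-- Lists of reduced vectors. -/
theorem sz_map_le {β γ : Type} [Enc γ] (l : List β) (F : β → γ) {B : ℕ} (h : ∀ x, sz (F x) ≤ B) :
    sz (l.map F) ≤ l.length * (B + 1) + 1 := by
  simpa using sz_list_le (l := l.map F) (B := B) fun x hx => by
    obtain ⟨k, -, rfl⟩ := List.mem_map.mp hx
    exact h k

@[fun_prop]
theorem ct_pow (hA : CT 0 A) (hx : CT 0 x) (hk : CT 0 k) :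
    CT 0 fun a => (A a).pow (x a) (k a) := by
  unfold pow
  refine CT.foldl (g := fun a z b => bif b then (A a).mul ((A a).mul z z) (x a)
    else (A a).mul z z) (G := fun p => (A p.1).vb) (by fun_prop) (by fun_prop) (by fun_prop)
    (bd_vb (by fun_prop)) fun a s b => ?_
  cases b
  · exact (sz_mul _ _ _).trans (Nat.le_add_left _ _)
  · exact (sz_mul _ _ _).trans (Nat.le_add_left _ _)

@[fun_prop]
theorem ct_prod (hA : CT 0 A) (hP : CT 0 P) : CT 0 fun a => (A a).prod (P a) :=
  CT.foldl (g := fun a z b => (A a).mul z b) (G := fun p => (A p.1).vb) (by fun_prop)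
    (by fun_prop) hP (bd_vb (by fun_prop)) fun _ _ _ => (sz_mul _ _ _).trans (Nat.le_add_left _ _)

@[fun_prop]
theorem ct_inv (hA : CT 0 A) (hQ : CT 0 Q) (hx : CT 0 x) :
    CT 0 fun a => (A a).inv (Q a) (x a) := by unfold inv; fun_prop

@[fun_prop]
theorem ct_padd (hA : CT 0 A) (hP : CT 0 P) (hR : CT 0 R) :
    CT 0 fun a => (A a).padd (P a) (R a) := by unfold padd; fun_prop

@[fun_prop]
theorem ct_psub (hA : CT 0 A) (hP : CT 0 P) (hR : CT 0 R) :
    CT 0 fun a => (A a).psub (P a) (R a) := by unfold psub; fun_prop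

@[fun_prop]
theorem ct_pmul (hA : CT 0 A) (hP : CT 0 P) (hR : CT 0 R) :
    CT 0 fun a => (A a).pmul (P a) (R a) := by unfold pmul; fun_prop

@[fun_prop]
theorem ct_psum {l : α → List Pol} (hA : CT 0 A) (hl : CT 0 l) :
    CT 0 fun a => (A a).psum (l a) := by unfold psum; fun_prop

@[fun_prop]
theorem ct_psm (hA : CT 0 A) (hx : CT 0 x) (hP : CT 0 P) :
    CT 0 fun a => (A a).psm (x a) (P a) := by unfold psm; fun_prop

@[fun_prop]
theorem ct_peval (hA : CT 0 A) (hP : CT 0 P) (hx : CT 0 x) :
    CT 0 fun a => (A a).peval (P a) (x a) := by unfold peval; fun_prop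

@[fun_prop]
theorem ct_pfix (hA : CT 0 A) (hk : Un k) (hP : CT 0 P) :
    CT 0 fun a => (A a).pfix (k a) (P a) := by unfold pfix; fun_prop

theorem sz_pfix (A : Alg) (N : ℕ) (P : Pol) : sz (A.pfix N P) ≤ N * (A.vb + 1) + 1 := by
  simpa [pfix] using sz_map_le (range N) (fun a => A.nv (P.getD a [])) fun _ => A.sz_nv _

theorem sz_getD_le {β : Type} [Enc β] (l : List (List β)) (k : ℕ) : sz (l.getD k []) ≤ sz l := by
  rw [List.getD_eq_getElem?_getD]
  cases h : l[k]? with
  | none => exact sz_pos l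
  | some x => exact (sz_mem (List.mem_of_getElem? h)).le

@[fun_prop]
theorem ct_pdm (hA : CT 0 A) (hu : CT 0 u) (hP : CT 0 P) :
    CT 0 fun a => (A a).pdm (u a) (P a) := by
  unfold pdm
  refine CT.foldl (g := fun a s x => (A a).dstep (u a) s x)
    (G := fun p => sz p.2 + ((u p.1).length * ((A p.1).vb + 1) + 1) + 2)
    (by unfold dstep; fun_prop) (by fun_prop) (by fun_prop)
    (((CT.size (e := 0) (by fun_prop)).add (((CT.bd_length (e := 0) (by fun_prop)).mul
      ((bd_vb (by fun_prop)).add (Bd.const 1))).add (Bd.const 1))).add (Bd.const 2))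
    fun a s x => ?_
  have h1 := sz_getD_le (x :: s.2) ((u a).length - 1)
  have h2 := sz_map_le (range ((u a).length - 1)) (fun b => (A a).sub ((x :: s.2).getD b [])
    ((A a).mul ((x :: s.2).getD ((u a).length - 1) []) ((u a).getD b []))) fun _ => sz_tab _ _
  have h3 := Nat.mul_le_mul_right ((A a).vb + 1) (Nat.sub_le (u a).length 1)
  simp only [dstep, sz_pair, sz_cons, sz_prod s, length_range] at *
  omega

@[fun_prop]
theorem ct_pdiv (hA : CT 0 A) (hu : CT 0 u) (hP : CT 0 P) :
    CT 0 fun a => (A a).pdiv (u a) (P a) := by unfold pdiv; fun_prop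

@[fun_prop]
theorem ct_pmod (hA : CT 0 A) (hu : CT 0 u) (hP : CT 0 P) :
    CT 0 fun a => (A a).pmod (u a) (P a) := by unfold pmod; fun_prop

theorem sz_pmod (A : Alg) (u P : Pol) : sz (A.pmod u P) ≤ u.length * (A.vb + 1) + 1 :=
  (A.sz_pfix _ _).trans (by gcongr; exact Nat.sub_le _ _)

@[fun_prop]
theorem ct_ppowm (hA : CT 0 A) (hu : CT 0 u) (hP : CT 0 P) (hk : Un k) :
    CT 0 fun a => (A a).ppowm (u a) (P a) (k a) :=
  CT.foldl (g := fun a R (_ : ℕ) => (A a).pmod (u a) ((A a).pmul R (P a)))
    (G := fun p => (u p.1).length * ((A p.1).vb + 1) + 1) (by fun_prop) (by fun_prop)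
    (by fun_prop) (((CT.bd_length (e := 0) (by fun_prop)).mul
      ((bd_vb (by fun_prop)).add (Bd.const 1))).add (Bd.const 1))
    fun _ _ _ => (sz_pmod _ _ _).trans (Nat.le_add_left _ _)

@[fun_prop]
theorem ct_plen (hA : CT 0 A) (hP : CT 0 P) : CT 0 fun a => (A a).plen (P a) := by
  unfold plen; fun_prop

@[fun_prop]
theorem ct_plc (hA : CT 0 A) (hP : CT 0 P) : CT 0 fun a => (A a).plc (P a) := by
  unfold plc; fun_prop

@[fun_prop]
theorem ct_monicize (hA : CT 0 A) (hQ : CT 0 Q) (hP : CT 0 P) :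
    CT 0 fun a => (A a).monicize (Q a) (P a) := by unfold monicize; fun_prop

@[fun_prop]
theorem ct_chunk (hA : CT 0 A) (hk : CT 0 k) (hx : CT 0 x) :
    CT 0 fun a => (A a).chunk (k a) (x a) := by unfold chunk; fun_prop

@[fun_prop]
theorem ct_chunks (hA : CT 0 A) (hk : Un k) (hx : CT 0 x) :
    CT 0 fun a => (A a).chunks (k a) (x a) := by unfold chunks; fun_prop

@[fun_prop]
theorem ct_flat (hA : CT 0 A) (hk : Un k) (hP : CT 0 P) :
    CT 0 fun a => (A a).flat (k a) (P a) := by unfold flat; fun_prop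

@[fun_prop]
theorem ct_ext (hA : CT 0 A) (hP : CT 0 P) : CT 0 fun a => (A a).ext (P a) := by
  unfold ext; fun_prop

@[fun_prop]
theorem ct_gen (hA : CT 0 A) (hP : CT 0 P) : CT 0 fun a => (A a).gen (P a) := by
  unfold gen; fun_prop

end Alg

end Vale.Agent.P319A
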