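import Vale.Agent.P319A.CAlg

/-!
Gaussian elimination with logged zero tests, first dependencies, roots and norms.
Definitions and running times.
-/

namespace Vale.Agent.P319A

open Vale.Agent.Lib.TM List

/-- A number `c` with `q * c ≡ 1` modulo `w`. -/
def cinv (q w : ℕ) : ℕ := (1 + first q (fun k => (1 + k * w) % q == 0) * w) / q

/-- The exponent of `q` in `N`, for `N < 2 ^ B`. -/
def vq (B q N : ℕ) : ℕ := (range B).countP fun k => N % q ^ min (k + 1) B == 0

namespace Alg

/-- The row `x - c y`. -/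
def raxpy (A : Alg) (c : Vec) (x y : Pol) : Pol :=
  (range x.length).map fun k => A.sub (x.getD k []) (A.mul c (y.getD k []))

/-- Reduction by the stored rows. -/
def red (A : Alg) (st : List (ℕ × Pol)) (x : Pol) : Pol :=
  st.foldl (fun x kv => A.raxpy (x.getD kv.1 []) x kv.2) x

/-- The first nonzero position below `w`, or `w`. -/
def piv (A : Alg) (w : ℕ) (y : Pol) : ℕ := first w fun k => !A.isZ (y.getD k [])

/-- Insertion of a row. -/
def ins (A : Alg) (Q w : ℕ) (st : List (ℕ × Pol)) (x : Pol) : List (ℕ × Pol) × List Vec :=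
  (bif decide (A.piv w (A.red st x) < w) then st ++ [(A.piv w (A.red st x),
      A.psm (A.inv Q ((A.red st x).getD (A.piv w (A.red st x)) [])) (A.red st x))] else st,
    (A.red st x).take w)

/-- The echelon form of the rows, each extended by a unit vector. -/
def ech (A : Alg) (Q w : ℕ) (rows : List Pol) : List (ℕ × Pol) × List Vec :=
  foldLog (fun st j => A.ins Q w st
    (((range w).map fun k => (rows.getD j []).getD k []) ++ xpow rows.length j)) []
    (range rows.length)

/-- The reduced target. -/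
def rtgt (A : Alg) (Q : ℕ) (rows : List Pol) (tgt : Pol) : Pol :=
  A.red (A.ech Q tgt.length rows).1 (tgt ++ rows.map fun _ => [])

/-- Is the target a combination of the rows? -/
def solvable (A : Alg) (Q : ℕ) (rows : List Pol) (tgt : Pol) : Bool :=
  A.piv tgt.length (A.rtgt Q rows tgt) == tgt.length

/-- The coefficients of such a combination. -/
def solve (A : Alg) (Q : ℕ) (rows : List Pol) (tgt : Pol) : Pol :=
  (range rows.length).map fun j => A.neg ((A.rtgt Q rows tgt).getD (tgt.length + j) [])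

/-- The log of the elimination. -/
def slog (A : Alg) (Q : ℕ) (rows : List Pol) (tgt : Pol) : List Vec :=
  (A.ech Q tgt.length rows).2 ++ (A.rtgt Q rows tgt).take tgt.length

/-- The index of the first vector of `seq` depending on `base` and the previous vectors. -/
def depIdx (A : Alg) (Q : ℕ) (base seq : List Pol) : ℕ :=
  first seq.length fun δ => A.solvable Q (seq.take δ ++ base) ((seq.getD δ []).map A.neg)

/-- The monic relation. -/
def dep (A : Alg) (Q : ℕ) (base seq : List Pol) : Pol :=
  (A.solve Q (seq.take (A.depIdx Q base seq) ++ base)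
    ((seq.getD (A.depIdx Q base seq) []).map A.neg)).take (A.depIdx Q base seq) ++ [[1]]

/-- The log of `dep`. -/
def dlog (A : Alg) (Q : ℕ) (base seq : List Pol) : List Vec :=
  (range seq.length).flatMap fun δ => A.slog Q (seq.take δ ++ base) ((seq.getD δ []).map A.neg)

/-- The monic polynomial `s` over the prime field of least degree with `s(θ) w = 0`. -/
def annih (A : Alg) (θ w : Vec) (N : ℕ) : Pol :=
  (A1 A.p).dep A.p [] ((range (N + 1)).map fun a => lift1 (A.mul (A.pow θ a) w))

/-- One step of the root extraction. -/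
def ammStep (A : Alg) (Q q : ℕ) (s a : Vec) (V i : ℕ) (x : Vec) : Vec :=
  A.mul x (A.sum ((range q).map fun c => A.mul (A.mul (A.inv Q [q]) (A.sum ((range q).map fun l =>
    A.pow (A.mul (A.pow (A.mul (A.pow x q) (A.inv Q a)) (q ^ (V - 2 - i)))
      (A.pow s ((Q - 1) / q * c))) l)))
    (A.pow s ((Q - 1) / q ^ V * q ^ min i V * c))))

/-- A `q`-th root of `a`, given a `q`-th power nonresidue `s`. -/
def amm (A : Alg) (Q q : ℕ) (s a : Vec) : Vec :=
  (range (vq Q.size q (Q - 1) - 1)).foldl (fun x i => A.ammStep Q q s a (vq Q.size q (Q - 1)) i x)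
    (A.pow a (cinv q ((Q - 1) / q ^ vq Q.size q (Q - 1))))

/-- The elementary symmetric functions from the power sums. -/
def newtL (A : Alg) (n : ℕ) (ps : Pol) : Pol :=
  (range n).foldl (fun es k => es ++ [A.mul (A.pow [k + 1] (A.p - 2)) (A.sum ((range n).map fun j =>
    bif decide (j ≤ k) then A.mul (A.pow (A.neg [1]) j)
      (A.mul (es.getD (k - j) []) (ps.getD (j + 1) [])) else []))]) [[1]]

/-- The product from the power sums. -/
def newt (A : Alg) (n : ℕ) (ps : Pol) : Vec := (A.newtL n ps).getD n []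

end Alg

variable {α : Type} [Enc α]

@[fun_prop]
theorem ct_cinv {q w : α → ℕ} (hq : Un q) (hw : CT 0 w) : CT 0 fun a => cinv (q a) (w a) := by
  unfold cinv; fun_prop

@[fun_prop]
theorem un_vq {B q N : α → ℕ} (hB : Un B) (hq : CT 0 q) (hN : CT 0 N) :
    Un fun a => vq (B a) (q a) (N a) := by unfold vq; fun_prop

@[fun_prop]
theorem ct_vq {B q N : α → ℕ} (hB : Un B) (hq : CT 0 q) (hN : CT 0 N) :
    CT 0 fun a => vq (B a) (q a) (N a) := (un_vq hB hq hN).1

namespace Alg

variable {A : α → Alg} {x y s : α → Vec} {P R : α → Pol} {w q Q : α → ℕ}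
  {st : α → List (ℕ × Pol)} {rows base : α → List Pol}

@[fun_prop]
theorem ct_raxpy (hA : CT 0 A) (hx : CT 0 x) (hP : CT 0 P) (hR : CT 0 R) :
    CT 0 fun a => (A a).raxpy (x a) (P a) (R a) := by unfold raxpy; fun_prop

theorem length_raxpy (A : Alg) (c : Vec) (x y : Pol) : (A.raxpy c x y).length = x.length := by
  simp [raxpy]

theorem length_red (A : Alg) (st : List (ℕ × Pol)) (x : Pol) : (A.red st x).length = x.length := by
  induction st generalizing x with
  | nil => rfl
  | cons kv st ih => exact (ih _).trans (length_raxpy _ _ _ _)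

@[fun_prop]
theorem ct_red (hA : CT 0 A) (hst : CT 0 st) (hP : CT 0 P) :
    CT 0 fun a => (A a).red (st a) (P a) :=
  CT.foldl_inv (g := fun a (x : Pol) (kv : ℕ × Pol) => (A a).raxpy (x.getD kv.1 []) x kv.2)
    (B := fun a => sz (P a) + ((P a).length * ((A a).vb + 1) + 1)) (by fun_prop) hP hst
    (hP.size.add ((hP.bd_length.mul ((bd_vb hA).add (Bd.const 1))).add (Bd.const 1)))
    (fun a x _ => x.length = (P a).length ∧
      sz x ≤ sz (P a) + ((P a).length * ((A a).vb + 1) + 1))
    (fun _ => ⟨rfl, Nat.le_add_right _ _⟩)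
    (fun a x kv _ h => ⟨(length_raxpy _ _ _ _).trans h.1, by
      have := sz_map_le (range x.length) (fun k => (A a).sub (x.getD k [])
        ((A a).mul (x.getD kv.1 []) (kv.2.getD k []))) fun _ => sz_tab _ _
      rw [length_range, h.1] at this
      rw [raxpy, h.1]
      exact this.trans (Nat.le_add_left _ _)⟩) fun _ _ _ h => h.2

@[fun_prop]
theorem un_piv (hA : CT 0 A) (hw : Un w) (hP : CT 0 P) : Un fun a => (A a).piv (w a) (P a) := by
  unfold piv; fun_prop

@[fun_prop]
theorem ct_piv (hA : CT 0 A) (hw : Un w) (hP : CT 0 P) : CT 0 fun a => (A a).piv (w a) (P a) :=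
  (un_piv hA hw hP).1

@[fun_prop]
theorem ct_ins (hA : CT 0 A) (hQ : CT 0 Q) (hw : Un w) (hst : CT 0 st) (hP : CT 0 P) :
    CT 0 fun a => (A a).ins (Q a) (w a) (st a) (P a) := by unfold ins; fun_prop

theorem sz_psm (A : Alg) (c : Vec) (P : Pol) : sz (A.psm c P) ≤ P.length * (A.vb + 1) + 1 :=
  sz_map_le _ _ fun _ => A.sz_mul _ _

theorem sz_ins (A : Alg) (Q w : ℕ) (st : List (ℕ × Pol)) (x : Pol) :
    sz (A.ins Q w st x).1 ≤ sz st + (sz w + (x.length * (A.vb + 1) + 1) + 2) := by
  unfold ins
  cases decide (A.piv w (A.red st x) < w)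
  · simp
  · have h1 := sz_append st [(A.piv w (A.red st x),
      A.psm (A.inv Q ((A.red st x).getD (A.piv w (A.red st x)) [])) (A.red st x))]
    have h2 := A.sz_psm (A.inv Q ((A.red st x).getD (A.piv w (A.red st x)) [])) (A.red st x)
    have h3 : sz (A.piv w (A.red st x)) ≤ sz w := sz_mono (first_le _ _)
    rw [length_red] at h2
    simp only [sz_cons, sz_pair, sz_nil, cond_true] at *
    omega

@[fun_prop]
theorem ct_ech (hA : CT 0 A) (hQ : CT 0 Q) (hw : Un w) (hr : CT 0 rows) :
    CT 0 fun a => (A a).ech (Q a) (w a) (rows a) :=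
  ct_foldLog (g := fun a st j => (A a).ins (Q a) (w a) st
    (((range (w a)).map fun k => ((rows a).getD j []).getD k []) ++ xpow (rows a).length j))
    (G := fun p => sz (w p.1) + ((w p.1 + (rows p.1).length) * ((A p.1).vb + 1) + 1) + 2)
    (by fun_prop) (by fun_prop) (by fun_prop)
    (((CT.size (e := 0) (by fun_prop)).add (((show Un fun p : α × ℕ => w p.1 + (rows p.1).length
      by fun_prop).2.mul ((bd_vb (by fun_prop)).add (Bd.const 1))).add (Bd.const 1))).add
      (Bd.const 2))
    fun a st j => by simpa [xpow] using (A a).sz_ins (Q a) (w a) st (((range (w a)).map fun k =>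
      ((rows a).getD j []).getD k []) ++ xpow (rows a).length j)

@[fun_prop]
theorem ct_rtgt (hA : CT 0 A) (hQ : CT 0 Q) (hr : CT 0 rows) (hP : CT 0 P) :
    CT 0 fun a => (A a).rtgt (Q a) (rows a) (P a) := by unfold rtgt; fun_prop

@[fun_prop]
theorem ct_solvable (hA : CT 0 A) (hQ : CT 0 Q) (hr : CT 0 rows) (hP : CT 0 P) :
    CT 0 fun a => (A a).solvable (Q a) (rows a) (P a) := by unfold solvable; fun_prop

@[fun_prop]
theorem ct_solve (hA : CT 0 A) (hQ : CT 0 Q) (hr : CT 0 rows) (hP : CT 0 P) :
    CT 0 fun a => (A a).solve (Q a) (rows a) (P a) := by unfold solve; fun_prop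

@[fun_prop]
theorem ct_slog (hA : CT 0 A) (hQ : CT 0 Q) (hr : CT 0 rows) (hP : CT 0 P) :
    CT 0 fun a => (A a).slog (Q a) (rows a) (P a) := by unfold slog; fun_prop

@[fun_prop]
theorem ct_depIdx (hA : CT 0 A) (hQ : CT 0 Q) (hb : CT 0 base) (hr : CT 0 rows) :
    CT 0 fun a => (A a).depIdx (Q a) (base a) (rows a) := by unfold depIdx; fun_prop

@[fun_prop]
theorem ct_dep (hA : CT 0 A) (hQ : CT 0 Q) (hb : CT 0 base) (hr : CT 0 rows) :
    CT 0 fun a => (A a).dep (Q a) (base a) (rows a) := by unfold dep; fun_prop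

@[fun_prop]
theorem ct_dlog (hA : CT 0 A) (hQ : CT 0 Q) (hb : CT 0 base) (hr : CT 0 rows) :
    CT 0 fun a => (A a).dlog (Q a) (base a) (rows a) := by unfold dlog; fun_prop

@[fun_prop]
theorem ct_annih (hA : CT 0 A) (hx : CT 0 x) (hy : CT 0 y) (hw : Un w) :
    CT 0 fun a => (A a).annih (x a) (y a) (w a) := by unfold annih; fun_prop

@[fun_prop]
theorem ct_amm (hA : CT 0 A) (hQ : CT 0 Q) (hq : Un q) (hs : CT 0 s) (hx : CT 0 x) :
    CT 0 fun a => (A a).amm (Q a) (q a) (s a) (x a) :=
  CT.foldl (g := fun a z i => (A a).ammStep (Q a) (q a) (s a) (x a)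
    (vq (Q a).size (q a) (Q a - 1)) i z) (G := fun p => (A p.1).vb)
    (by unfold ammStep; fun_prop) (by fun_prop) (by fun_prop) (bd_vb (by fun_prop))
    fun _ _ _ => (sz_mul _ _ _).trans (Nat.le_add_left _ _)

@[fun_prop]
theorem ct_newt (hA : CT 0 A) (hw : Un w) (hP : CT 0 P) :
    CT 0 fun a => (A a).newt (w a) (P a) := by
  have h : CT 0 fun a => (A a).newtL (w a) (P a) :=
    CT.foldl (g := fun a (es : Pol) k => es ++ [(A a).mul ((A a).pow [k + 1] ((A a).p - 2))
      ((A a).sum ((range (w a)).map fun j => bif decide (j ≤ k) then (A a).mul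
        ((A a).pow ((A a).neg [1]) j) ((A a).mul (es.getD (k - j) []) ((P a).getD (j + 1) []))
        else []))]) (G := fun p => (A p.1).vb + 1) (by fun_prop) (by fun_prop) (by fun_prop)
      ((bd_vb (by fun_prop)).add (Bd.const 1)) fun a es k => by
        generalize (A a).pow [k + 1] ((A a).p - 2) = u
        generalize (A a).sum _ = v
        have h1 := sz_append es [(A a).mul u v]
        have h2 := (A a).sz_mul u v
        simp only [sz_cons, sz_nil] at h1 ⊢
        omega
  unfold newt; fun_prop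

end Alg

end Vale.Agent.P319A
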