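import Vale.Agent.P319A.CRound

/-!
The outer layers: fields of constants, Berlekamp reduction, the table of nonresidues, and the
factoring algorithm. Definitions and running times.
-/

namespace Vale.Agent.P319A

open Vale.Agent.Lib.TM List

/-- An entry of the table: an irreducible polynomial, a root of unity and a nonresidue. -/
abbrev Ent : Type := Pol × Vec × Vec

/-- Modular powers. -/
def pw (l a e : ℕ) : ℕ := ((A1 l).pow [a] e).headD 0

/-- The degree `q ^ (v + 1)` of the second extension, where `q ^ v` exactly divides `n`. -/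
def qt (q n : ℕ) : ℕ := min (q ^ (vq n q n + 1)) (n * n)

/-- The polynomial `X ^ m - ν`. -/
def kum (A : Alg) (m : ℕ) (ν : Vec) : Pol :=
  (range (m + 1)).map fun a => bif a == m then [1] else bif a == 0 then A.neg ν else []

/-- The parameters of the splitting algorithm. -/
def mkPar (p q : ℕ) (E : Ent) (f : Pol) : Par :=
  (((A1 p).ext E.1).ext (kum ((A1 p).ext E.1) (qt q (f.length - 1)) E.2.2),
    p ^ ((E.1.length - 1) * qt q (f.length - 1)), q, E.2.1,
    ((A1 p).ext E.1).gen (kum ((A1 p).ext E.1) (qt q (f.length - 1)) E.2.2), f)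

/-- A linear factor by exhaustive search. -/
def brute (p : ℕ) (f : Pol) : Pol :=
  [(A1 p).neg [first (min p (20 * (f.length - 1) ^ 5)) fun a => (A1 p).isZ ((A1 p).peval f [a])],
    [1]]

/-- The least prime factor. -/
def mf (n : ℕ) : ℕ := first (n + 1) fun k => decide (2 ≤ k) && n % k == 0

/-- A proper factor of a split squarefree polynomial. -/
def split (p : ℕ) (tab : List Ent) (f : Pol) : Pol :=
  bif decide (p < 20 * (f.length - 1) ^ 5) then brute p f
  else (mkPar p (mf (f.length - 1)) (tab.getD (mf (f.length - 1)) ([], [], [])) f).core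

/-- The radical. -/
def radi (p : ℕ) (f : Pol) : Pol :=
  ((A1 p).ext f).annih (((A1 p).ext f).pow ((A1 p).gen f) (p ^ (f.length - 1))) [1] (f.length - 1)

/-- The first relation between the `θ ^ (a p) - θ ^ a`. -/
def berl (p : ℕ) (f : Pol) : Pol :=
  (A1 p).dep p [] ((range (f.length - 2)).map fun a => lift1 (((A1 p).ext f).sub
    (((A1 p).ext f).pow ((A1 p).gen f) ((a + 1) * p)) (((A1 p).ext f).pow ((A1 p).gen f) (a + 1))))

/-- The element of the Berlekamp algebra. -/
def belt (p : ℕ) (f : Pol) : Vec := ((A1 p).ext f).peval ([] :: berl p f) ((A1 p).gen f)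

/-- Its minimal polynomial. -/
def bmin (p : ℕ) (f : Pol) : Pol := ((A1 p).ext f).annih (belt p f) [1] (f.length - 1)

/-- The zero divisor obtained from a factor of the minimal polynomial. -/
def bzd (p : ℕ) (tab : List Ent) (f : Pol) : Vec :=
  ((A1 p).ext f).peval (split p tab (bmin p f)) (belt p f)

/-- A proper monic factor, or the empty list for irreducible `f`. -/
def findFac (p : ℕ) (tab : List Ent) (f : Pol) : Pol :=
  bif decide ((radi p f).length < f.length) then radi p f
  else bif decide ((berl p f).length < f.length - 1) then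
    ((A1 p).ext f).annih ((A1 p).gen f) (bzd p tab f) (f.length - 1)
  else []

/-- One refinement of a factorization. -/
def refine1 (p : ℕ) (tab : List Ent) (N : ℕ) (L : List Pol) : List Pol :=
  ((L.flatMap fun g => bif (findFac p tab g).isEmpty then [g]
    else [findFac p tab g, (A1 p).pdiv (findFac p tab g) g]).take N).map fun g =>
      (g.take (N + 1)).map (A1 p).nv

/-- The irreducible factors of a monic polynomial. -/
def factor (p : ℕ) (tab : List Ent) (f : Pol) : List Pol :=
  (range f.length).foldl (fun L _ => refine1 p tab (f.length - 1) L) [f]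

/-- The auxiliary prime. -/
def auxP (B p q : ℕ) : ℕ :=
  first (B + 1) fun l => decide (2 ≤ l) && (range B).all (fun a => decide (a < 2) ||
    decide (l ≤ a) || !(l % a == 0)) && !(l == p) && (l - 1) % q == 0 &&
    !(pw l p ((l - 1) / q) == 1)

/-- The discrete logarithm of `a ^ ((l - 1) / q)` to the base `p ^ ((l - 1) / q)`. -/
def ind (p q l a : ℕ) : ℕ := first q fun k => pw l p ((l - 1) / q * k) == pw l a ((l - 1) / q)

/-- The `q`-th power of the Gauss sum, as a product of Jacobi sums. -/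
def jac (A : Alg) (ζ : Vec) (p q l : ℕ) : Vec :=
  A.mul [l] (A.prod ((range (q - 2)).map fun j => A.sum ((range l).map fun x =>
    bif decide (2 ≤ x) then A.pow ζ (ind p q l x + (j + 1) * ind p q l (l + 1 - x)) else [])))

/-- The least quadratic nonresidue. -/
def qnr (B p : ℕ) : ℕ := first (B + 1) fun a => !(a % p == 0) && !(pw p a ((p - 1) / 2) == 1)

/-- The entry for the prime two. -/
def entry2 (B p : ℕ) : Ent :=
  bif p % 4 == 1 then ([[0], [1]], [p - 1], [qnr B p % p])
  else ([[1], [0], [1]], [p - 1], [pw p (qnr B p - 1) ((p + 1) / 4), 1])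

/-- An irreducible factor of the cyclotomic polynomial. -/
def cyc (p : ℕ) (tab : List Ent) (q : ℕ) : Pol := (factor p tab ((range q).map fun _ => [1])).headD []

/-- The entry for an odd prime. -/
def entryO (B p : ℕ) (tab : List Ent) (q : ℕ) : Ent :=
  (cyc p tab q, (A1 p).gen (cyc p tab q),
    jac ((A1 p).ext (cyc p tab q)) ((A1 p).gen (cyc p tab q)) p q (auxP B p q))

/-- Normal form of an entry. -/
def efix (p N : ℕ) (E : Ent) : Ent :=
  ((E.1.take (N + 2)).map (A1 p).nv, (E.2.1.take (N + 2)).map (rd p), (E.2.2.take (N + 2)).map (rd p))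

/-- The entry for `q`. -/
def entry (C p N : ℕ) (tab : List Ent) (q : ℕ) : Ent :=
  efix p N (bif q == 2 then entry2 (p.size ^ C) p else entryO ((q * p.size) ^ C) p tab q)

/-- The table for all `q ≤ N`. -/
def table (C p N : ℕ) : List Ent :=
  (range (N + 1)).foldl (fun tab q => tab ++ [entry C p N tab (min q N)]) []

/-- The factoring algorithm: the leading coefficient and the monic irreducible factors. -/
def alg (C : ℕ) (x : ℕ × List ℕ) : ℕ × List (List ℕ) :=
  (((A1 x.1).plc (lift1 x.2)).headD 0 % x.1,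
    (factor x.1 (table C x.1 x.2.length) ((A1 x.1).monicize x.1 (lift1 x.2))).map fun g =>
      g.map fun v => v.headD 0)

variable {α : Type} [Enc α] {p q l m n B : α → ℕ} {f : α → Pol} {tab : α → List Ent}
  {E : α → Ent} {A : α → Alg} {v : α → Vec}

@[fun_prop]
theorem ct_pw (hl : CT 0 l) (hp : CT 0 p) (hm : CT 0 m) : CT 0 fun a => pw (l a) (p a) (m a) := by
  unfold pw; fun_prop

@[fun_prop]
theorem un_qt (hq : CT 0 q) (hn : Un n) : Un fun a => qt (q a) (n a) := by
  have := hn.1
  unfold qt; fun_prop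

@[fun_prop]
theorem ct_kum (hA : CT 0 A) (hm : Un m) (hv : CT 0 v) : CT 0 fun a => kum (A a) (m a) (v a) := by
  unfold kum; fun_prop

@[fun_prop]
theorem ct_mkPar (hp : CT 0 p) (hq : CT 0 q) (hE : CT 0 E) (hf : CT 0 f) :
    CT 0 fun a => mkPar (p a) (q a) (E a) (f a) := by unfold mkPar; fun_prop

@[fun_prop]
theorem ct_brute (hp : CT 0 p) (hf : CT 0 f) : CT 0 fun a => brute (p a) (f a) := by
  unfold brute; fun_prop

@[fun_prop]
theorem ct_mf (hn : Un n) : CT 0 fun a => mf (n a) := by unfold mf; fun_prop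

@[fun_prop]
theorem ct_split (hp : CT 0 p) (ht : CT 0 tab) (hf : CT 0 f) :
    CT 0 fun a => split (p a) (tab a) (f a) := by unfold split; fun_prop

@[fun_prop]
theorem ct_radi (hp : CT 0 p) (hf : CT 0 f) : CT 0 fun a => radi (p a) (f a) := by
  unfold radi; fun_prop

@[fun_prop]
theorem ct_berl (hp : CT 0 p) (hf : CT 0 f) : CT 0 fun a => berl (p a) (f a) := by
  unfold berl; fun_prop

@[fun_prop]
theorem ct_belt (hp : CT 0 p) (hf : CT 0 f) : CT 0 fun a => belt (p a) (f a) := by
  unfold belt; fun_prop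

@[fun_prop]
theorem ct_bmin (hp : CT 0 p) (hf : CT 0 f) : CT 0 fun a => bmin (p a) (f a) := by
  unfold bmin; fun_prop

@[fun_prop]
theorem ct_bzd (hp : CT 0 p) (ht : CT 0 tab) (hf : CT 0 f) :
    CT 0 fun a => bzd (p a) (tab a) (f a) := by unfold bzd; fun_prop

@[fun_prop]
theorem ct_findFac (hp : CT 0 p) (ht : CT 0 tab) (hf : CT 0 f) :
    CT 0 fun a => findFac (p a) (tab a) (f a) :=
  CT.cond (by fun_prop) (ct_radi hp hf) (CT.cond (by fun_prop) (Alg.ct_annih (by fun_prop)
    (by fun_prop) (ct_bzd hp ht hf) (by fun_prop)) (CT.const _))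

@[fun_prop]
theorem ct_refine1 {L : α → List Pol} (hp : CT 0 p) (ht : CT 0 tab) (hn : CT 0 n) (hL : CT 0 L) :
    CT 0 fun a => refine1 (p a) (tab a) (n a) (L a) := by unfold refine1; fun_prop

theorem sz_shape (p N : ℕ) (g : Pol) :
    sz ((g.take N).map (A1 p).nv) ≤ N * ((A1 p).vb + 1) + 1 :=
  (Alg.sz_map_le _ _ fun _ => (A1 p).sz_nv _).trans (by gcongr; exact List.length_take_le _ _)

@[fun_prop]
theorem ct_factor (hp : CT 0 p) (ht : CT 0 tab) (hf : CT 0 f) :
    CT 0 fun a => factor (p a) (tab a) (f a) := by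
  have hn : Un fun x : α × ℕ => (f x.1).length - 1 := by fun_prop
  refine CT.foldl (g := fun a L (_ : ℕ) => refine1 (p a) (tab a) ((f a).length - 1) L)
    (G := fun x => ((f x.1).length - 1) *
      (((f x.1).length - 1 + 1) * ((A1 (p x.1)).vb + 1) + 1 + 1) + 1)
    (by fun_prop) (by fun_prop) (by fun_prop)
    ((hn.2.mul ((((hn.2.add (Bd.const 1)).mul ((Alg.bd_vb (by fun_prop)).add (Bd.const 1))).add
      (Bd.const 1)).add (Bd.const 1))).add (Bd.const 1)) fun a L _ => ?_
  refine le_trans ?_ (Nat.le_add_left _ _)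
  exact (Alg.sz_map_le _ _ fun _ => sz_shape _ _ _).trans
    (by gcongr; exact List.length_take_le _ _)

@[fun_prop]
theorem un_auxP (hB : Un B) (hp : CT 0 p) (hq : CT 0 q) : Un fun a => auxP (B a) (p a) (q a) := by
  unfold auxP; fun_prop

@[fun_prop]
theorem ct_ind (hp : CT 0 p) (hq : Un q) (hl : CT 0 l) (hm : CT 0 m) :
    CT 0 fun a => ind (p a) (q a) (l a) (m a) := by unfold ind; fun_prop

@[fun_prop]
theorem ct_jac (hA : CT 0 A) (hv : CT 0 v) (hp : CT 0 p) (hq : Un q) (hl : Un l) :
    CT 0 fun a => jac (A a) (v a) (p a) (q a) (l a) := by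
  have := hl.1
  unfold jac; fun_prop

@[fun_prop]
theorem ct_qnr (hB : Un B) (hp : CT 0 p) : CT 0 fun a => qnr (B a) (p a) := by
  unfold qnr; fun_prop

@[fun_prop]
theorem ct_entry2 (hB : Un B) (hp : CT 0 p) : CT 0 fun a => entry2 (B a) (p a) := by
  unfold entry2; fun_prop

@[fun_prop]
theorem ct_cyc (hp : CT 0 p) (ht : CT 0 tab) (hq : Un q) :
    CT 0 fun a => cyc (p a) (tab a) (q a) := by unfold cyc; fun_prop

@[fun_prop]
theorem ct_entryO (hB : Un B) (hp : CT 0 p) (ht : CT 0 tab) (hq : Un q) :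
    CT 0 fun a => entryO (B a) (p a) (tab a) (q a) := by
  have := hq.1
  unfold entryO; fun_prop

@[fun_prop]
theorem ct_efix (hp : CT 0 p) (hn : CT 0 n) (hE : CT 0 E) :
    CT 0 fun a => efix (p a) (n a) (E a) := by unfold efix; fun_prop

@[fun_prop]
theorem ct_entry (C : ℕ) (hp : CT 0 p) (hn : CT 0 n) (ht : CT 0 tab) (hq : Un q) :
    CT 0 fun a => entry C (p a) (n a) (tab a) (q a) := by
  have := hq.1
  unfold entry; fun_prop

theorem sz_efix (p N : ℕ) (E : Ent) : sz (efix p N E) ≤ (N + 2) * ((A1 p).vb + 1) + 1 +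
    (((N + 2) * (sz p + 1) + 1) + ((N + 2) * (sz p + 1) + 1) + 1) + 1 := by
  have h : ∀ w : Vec, sz ((w.take (N + 2)).map (rd p)) ≤ (N + 2) * (sz p + 1) + 1 := fun w =>
    (Alg.sz_map_le _ _ fun _ => sz_mono (Nat.min_le_right _ _)).trans
      (by gcongr; exact List.length_take_le _ _)
  simp only [efix, sz_pair]
  gcongr
  · exact sz_shape _ _ _
  · exact h _
  · exact h _

@[fun_prop]
theorem ct_table (C : ℕ) (hp : CT 0 p) (hn : Un n) : CT 0 fun a => table C (p a) (n a) := by
  have h0 := hn.1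
  have h1 : Bd 0 fun x : α × ℕ => n x.1 + 2 := (show Un fun x : α × ℕ => n x.1 + 2 by fun_prop).2
  have h2 : Bd 0 fun x : α × ℕ => (n x.1 + 2) * (sz (p x.1) + 1) + 1 :=
    (h1.mul ((CT.size (e := 0) (by fun_prop)).add (Bd.const 1))).add (Bd.const 1)
  refine CT.foldl (g := fun a (tab : List Ent) q => tab ++ [entry C (p a) (n a) tab (min q (n a))])
    (by fun_prop) (by fun_prop) (by fun_prop)
    ((((((h1.mul ((Alg.bd_vb (A := fun x : α × ℕ => A1 (p x.1)) (by fun_prop)).add
      (Bd.const 1))).add (Bd.const 1)).add ((h2.add h2).add (Bd.const 1))).add (Bd.const 1))).add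
      (Bd.const 1)) fun a tab q => ?_
  have h3 := sz_append tab [entry C (p a) (n a) tab (min q (n a))]
  have h4 : sz (entry C (p a) (n a) tab (min q (n a))) ≤ _ := sz_efix _ _ _
  simp only [sz_cons, sz_nil] at h3 ⊢
  omega

theorem ct_alg (C : ℕ) : CT 0 (alg C) := by unfold alg; fun_prop

end Vale.Agent.P319A
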