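import Vale.Agent.P319A.CLin

/-!
Parameters of the splitting algorithm, elements of the coordinate ring, and Laurent series.
Definitions and running times.
-/

namespace Vale.Agent.P319A

open Vale.Agent.Lib.TM Vale.Agent.P049 List

/-- The field `K`, its order, the prime `q`, the root of unity, the nonresidue, and `f`. -/
abbrev Par : Type := Alg × ℕ × ℕ × Vec × Vec × Pol

/-- Elements of the coordinate ring: lists of coordinates. -/
abbrev OE : Type := List Pol

/-- Laurent series: the degree and the coefficients from the top. -/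
abbrev LE : Type := ℤ × Vec

namespace Par

/-- The field of constants. -/
def AK (X : Par) : Alg := X.1

/-- Its order. -/
def Q (X : Par) : ℕ := X.2.1

/-- The polynomial. -/
def f (X : Par) : Pol := X.2.2.2.2.2

/-- Its degree. -/
def n (X : Par) : ℕ := X.f.length - 1

/-- The prime. -/
def q (X : Par) : ℕ := min X.2.2.1 X.n

/-- The root of unity. -/
def ζ (X : Par) : Vec := X.2.2.2.1

/-- The nonresidue. -/
def s (X : Par) : Vec := X.2.2.2.2.1

/-- The quotient `n / q`. -/
def n1 (X : Par) : ℕ := X.n / X.q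

/-- The characteristic. -/
def p (X : Par) : ℕ := X.AK.p

/-- The algebra `K[θ] / f`. -/
def AB (X : Par) : Alg := X.AK.ext X.f

/-- The universal root. -/
def th (X : Par) : Vec := X.AK.gen X.f

/-- The algebra `K[θ, θ'] / (f, f)`. -/
def AC (X : Par) : Alg := X.AB.ext X.f

/-- The second universal root. -/
def th' (X : Par) : Vec := X.AB.gen X.f

/-- Bound for the degrees of the unknowns. -/
def D (X : Par) : ℕ := 5 * X.n ^ 5

/-- The top of the window of expansions. -/
def M (X : Par) : ℕ := 6 * X.n ^ 5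

/-- The relative precision. -/
def P (X : Par) : ℕ := 7 * X.n ^ 5

/-- The length of the window. -/
def P1 (X : Par) : ℕ := 20 * X.n ^ 5

/-- Truncated power series. -/
def AS (X : Par) : Alg := X.AB.ext (xpow (X.P1 + 1) X.P1)

/-- The variable of the series. -/
def t (X : Par) : Vec := X.AB.gen (xpow (X.P1 + 1) X.P1)

/-- The series `η`. -/
def η (X : Par) : Vec := X.AS.pow (X.AB.flat X.P1 X.f.reverse) (cinv X.q X.p)

/-- The value `f'(θ)`. -/
def fd (X : Par) : Vec :=
  X.AB.peval ((range X.n).map fun a => X.AK.mul [a + 1] (X.f.getD (a + 1) [])) X.th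

/-- The trace to the constants. -/
def trc (X : Par) (b : Vec) : Vec := X.AK.chunk (X.n - 1) (X.AB.mul b X.fd)

/-- The trace of a series. -/
def strc (X : Par) (v : Vec) : Vec := X.AB.flat X.P1 ((X.AB.chunks X.P1 v).map X.trc)

/-- The norm of a series. -/
def snorm (X : Par) (v : Vec) : Vec :=
  X.AS.newt X.n ((range (X.n + 1)).map fun k => X.strc (X.AS.pow v k))

/-- Product in the coordinate ring. -/
def omul (X : Par) (b b' : OE) : OE :=
  (range X.q).map fun k => X.AB.psum ((range X.q).map fun l =>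
    bif decide (l ≤ k) then X.AB.pmul (b.getD l []) (b'.getD (k - l) [])
    else X.AB.pmul X.f (X.AB.pmul (b.getD l []) (b'.getD (k + X.q - l) [])))

/-- The automorphisms. -/
def osig (X : Par) (j : ℕ) (b : OE) : OE :=
  (range X.q).map fun l => X.AB.psm (X.AB.pow X.ζ (j * l)) (b.getD l [])

/-- Sums. -/
def osum (X : Par) (l : List OE) : OE :=
  (range X.q).map fun k => X.AB.psum (l.map fun b => b.getD k [])

/-- Differences. -/
def osub (X : Par) (b b' : OE) : OE :=
  (range X.q).map fun k => X.AB.psub (b.getD k []) (b'.getD k [])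

/-- Multiplication by a polynomial. -/
def opm (X : Par) (R : Pol) (b : OE) : OE := (range X.q).map fun k => X.AB.pmul R (b.getD k [])

/-- Coordinatewise remainder. -/
def omod (X : Par) (u : Pol) (b : OE) : OE := (range X.q).map fun k => X.AB.pmod u (b.getD k [])

/-- Coordinatewise quotient. -/
def odiv (X : Par) (u : Pol) (b : OE) : OE := (range X.q).map fun k => X.AB.pdiv u (b.getD k [])

/-- Normal form. -/
def ofix (X : Par) (N : ℕ) (b : OE) : OE := (range X.q).map fun k => X.AB.pfix N (b.getD k [])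

/-- The monomial `x ^ a y ^ l`. -/
def omono (X : Par) (N l a : ℕ) : OE := (range X.q).map fun k => bif k == l then xpow N a else []

/-- All coefficients of `x ^ a y ^ l` with `a < m`. -/
def ocs (X : Par) (m : ℕ) (b : OE) : Pol :=
  (range (X.q * m)).map fun k => (b.getD (k / m) []).getD (k % m) []

/-- The norm, for elements of small degree. -/
def onrm (X : Par) (b : OE) : Pol :=
  ((range X.q).foldl (fun R j => X.ofix (2 * X.n ^ 2 + 1) (X.omul R (X.osig j b))) [[[1]]]).getD
    0 []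

/-- The expansion `t ^ M ι k b`. -/
def ser (X : Par) (k : ℕ) (b : OE) : Vec :=
  X.AS.sum ((range X.q).flatMap fun l => (range (X.M + 1)).map fun a =>
    X.AS.mul (X.AB.nv ((b.getD l []).getD a [])) (X.AS.mul (X.AS.pow X.ζ (k * l))
      (X.AS.mul (X.AS.pow X.η l) (X.AS.pow X.t (X.M - l * X.n1 - a)))))

/-- The coefficients of the expansion; also the log of `lser`. -/
def sers (X : Par) (k : ℕ) (b : OE) : Pol := X.AB.chunks X.P1 (X.ser k b)

/-- The normalised expansion. -/
def lser (X : Par) (k : ℕ) (b : OE) : LE :=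
  ((X.M : ℤ) - (X.AB.piv X.P1 (X.sers k b) : ℕ),
    (X.ser k b).drop (X.AB.piv X.P1 (X.sers k b) * X.AB.d))

/-- Product of series. -/
def lmul (X : Par) (x y : LE) : LE := (x.1 + y.1, X.AS.mul x.2 y.2)

/-- Inverse of a series. -/
def linv (X : Par) (x : LE) : LE := (-x.1, X.AS.pow x.2 (X.p * (X.Q - 1) - 1))

/-- Product of a list of series. -/
def lprod (X : Par) (l : List LE) : LE := ((l.map fun x => x.1).sum, X.AS.prod (l.map fun x => x.2))

/-- Norm of a series. -/
def lnorm (X : Par) (x : LE) : LE := ((X.n : ℤ) * x.1, X.snorm x.2)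

/-- The `q`-th root with leading coefficient one. -/
def lroot (X : Par) (x : LE) : LE :=
  (x.1 / (X.q : ℕ), X.AS.pow (X.AS.mul x.2 (X.AB.nv (X.AB.inv X.Q (X.AB.chunk 0 x.2))))
    (cinv X.q X.p))

/-- Constants. -/
def lconst (X : Par) (c : Vec) : LE := (0, X.AB.nv c)

/-- The value at the universal ramification point, from the expansions. -/
def val0 (X : Par) (xs : List LE) : Vec :=
  X.AB.mul (X.AB.inv X.Q [X.q]) (X.AB.sum (xs.flatMap fun x => (range X.P).map fun c =>
    bif decide (c < (x.1 + 1).toNat) then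
      X.AB.mul (X.AB.chunk c x.2) (X.AB.pow X.th (x.1.toNat - c)) else []))

variable {α : Type} [Enc α] {X : α → Par} {v : α → Vec} {b b' : α → OE} {R : α → Pol}
  {j k N : α → ℕ} {x y : α → LE}

@[fun_prop]
theorem ct_AK (hX : CT 0 X) : CT 0 fun a => (X a).AK := by unfold AK; fun_prop

@[fun_prop]
theorem ct_Q (hX : CT 0 X) : CT 0 fun a => (X a).Q := by unfold Q; fun_prop

@[fun_prop]
theorem ct_f (hX : CT 0 X) : CT 0 fun a => (X a).f := by unfold f; fun_prop

@[fun_prop]
theorem un_n (hX : CT 0 X) : Un fun a => (X a).n := by unfold n; fun_prop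

@[fun_prop]
theorem ct_n (hX : CT 0 X) : CT 0 fun a => (X a).n := (un_n hX).1

@[fun_prop]
theorem un_q (hX : CT 0 X) : Un fun a => (X a).q := by unfold q; fun_prop

@[fun_prop]
theorem ct_q (hX : CT 0 X) : CT 0 fun a => (X a).q := (un_q hX).1

@[fun_prop]
theorem ct_ζ (hX : CT 0 X) : CT 0 fun a => (X a).ζ := by unfold ζ; fun_prop

@[fun_prop]
theorem ct_s (hX : CT 0 X) : CT 0 fun a => (X a).s := by unfold s; fun_prop

@[fun_prop]
theorem ct_n1 (hX : CT 0 X) : CT 0 fun a => (X a).n1 := by unfold n1; fun_prop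

@[fun_prop]
theorem ct_p (hX : CT 0 X) : CT 0 fun a => (X a).p := by unfold p; fun_prop

@[fun_prop]
theorem ct_AB (hX : CT 0 X) : CT 0 fun a => (X a).AB := by unfold AB; fun_prop

@[fun_prop]
theorem ct_th (hX : CT 0 X) : CT 0 fun a => (X a).th := by unfold th; fun_prop

@[fun_prop]
theorem ct_AC (hX : CT 0 X) : CT 0 fun a => (X a).AC := by unfold AC; fun_prop

@[fun_prop]
theorem ct_th' (hX : CT 0 X) : CT 0 fun a => (X a).th' := by unfold th'; fun_prop

@[fun_prop]
theorem un_D (hX : CT 0 X) : Un fun a => (X a).D := by unfold D; fun_prop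

@[fun_prop]
theorem ct_D (hX : CT 0 X) : CT 0 fun a => (X a).D := (un_D hX).1

@[fun_prop]
theorem un_M (hX : CT 0 X) : Un fun a => (X a).M := by unfold M; fun_prop

@[fun_prop]
theorem ct_M (hX : CT 0 X) : CT 0 fun a => (X a).M := (un_M hX).1

@[fun_prop]
theorem un_P (hX : CT 0 X) : Un fun a => (X a).P := by unfold P; fun_prop

@[fun_prop]
theorem un_P1 (hX : CT 0 X) : Un fun a => (X a).P1 := by unfold P1; fun_prop

@[fun_prop]
theorem ct_P1 (hX : CT 0 X) : CT 0 fun a => (X a).P1 := (un_P1 hX).1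

@[fun_prop]
theorem ct_AS (hX : CT 0 X) : CT 0 fun a => (X a).AS := by unfold AS; fun_prop

@[fun_prop]
theorem ct_t (hX : CT 0 X) : CT 0 fun a => (X a).t := by unfold t; fun_prop

@[fun_prop]
theorem ct_η (hX : CT 0 X) : CT 0 fun a => (X a).η := by unfold η; fun_prop

@[fun_prop]
theorem ct_fd (hX : CT 0 X) : CT 0 fun a => (X a).fd := by unfold fd; fun_prop

@[fun_prop]
theorem ct_trc (hX : CT 0 X) (hv : CT 0 v) : CT 0 fun a => (X a).trc (v a) := by
  unfold trc; fun_prop

@[fun_prop]
theorem ct_strc (hX : CT 0 X) (hv : CT 0 v) : CT 0 fun a => (X a).strc (v a) := by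
  unfold strc; fun_prop

@[fun_prop]
theorem ct_snorm (hX : CT 0 X) (hv : CT 0 v) : CT 0 fun a => (X a).snorm (v a) := by
  unfold snorm; fun_prop

@[fun_prop]
theorem ct_omul (hX : CT 0 X) (hb : CT 0 b) (hb' : CT 0 b') :
    CT 0 fun a => (X a).omul (b a) (b' a) := by unfold omul; fun_prop

@[fun_prop]
theorem ct_osig (hX : CT 0 X) (hj : CT 0 j) (hb : CT 0 b) :
    CT 0 fun a => (X a).osig (j a) (b a) := by unfold osig; fun_prop

@[fun_prop]
theorem ct_osum {l : α → List OE} (hX : CT 0 X) (hl : CT 0 l) :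
    CT 0 fun a => (X a).osum (l a) := by unfold osum; fun_prop

@[fun_prop]
theorem ct_osub (hX : CT 0 X) (hb : CT 0 b) (hb' : CT 0 b') :
    CT 0 fun a => (X a).osub (b a) (b' a) := by unfold osub; fun_prop

@[fun_prop]
theorem ct_opm (hX : CT 0 X) (hR : CT 0 R) (hb : CT 0 b) :
    CT 0 fun a => (X a).opm (R a) (b a) := by unfold opm; fun_prop

@[fun_prop]
theorem ct_omod (hX : CT 0 X) (hR : CT 0 R) (hb : CT 0 b) :
    CT 0 fun a => (X a).omod (R a) (b a) := by unfold omod; fun_prop

@[fun_prop]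
theorem ct_odiv (hX : CT 0 X) (hR : CT 0 R) (hb : CT 0 b) :
    CT 0 fun a => (X a).odiv (R a) (b a) := by unfold odiv; fun_prop

@[fun_prop]
theorem ct_ofix (hX : CT 0 X) (hN : Un N) (hb : CT 0 b) :
    CT 0 fun a => (X a).ofix (N a) (b a) := by unfold ofix; fun_prop

@[fun_prop]
theorem ct_omono (hX : CT 0 X) (hN : Un N) (hj : CT 0 j) (hk : CT 0 k) :
    CT 0 fun a => (X a).omono (N a) (j a) (k a) := by unfold omono; fun_prop

@[fun_prop]
theorem ct_ocs (hX : CT 0 X) (hN : Un N) (hb : CT 0 b) :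
    CT 0 fun a => (X a).ocs (N a) (b a) := by
  have := hN.1
  unfold ocs; fun_prop

theorem sz_ofix (X : Par) (N : ℕ) (b : OE) :
    sz (X.ofix N b) ≤ X.q * (N * (X.AB.vb + 1) + 1 + 1) + 1 := by
  simpa [ofix] using Alg.sz_map_le (range X.q) (fun k => X.AB.pfix N (b.getD k []))
    fun _ => Alg.sz_pfix _ _ _

theorem sz_omod (X : Par) (u : Pol) (b : OE) :
    sz (X.omod u b) ≤ X.q * (u.length * (X.AB.vb + 1) + 1 + 1) + 1 := by
  simpa [omod] using Alg.sz_map_le (range X.q) (fun k => X.AB.pmod u (b.getD k []))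
    fun _ => Alg.sz_pmod _ _ _

theorem bd_oe (hX : CT 0 X) (hN : Un N) :
    Bd 0 fun a => (X a).q * (N a * ((X a).AB.vb + 1) + 1 + 1) + 1 :=
  ((un_q hX).2.mul (((hN.2.mul ((Alg.bd_vb (ct_AB hX)).add (Bd.const 1))).add (Bd.const 1)).add
    (Bd.const 1))).add (Bd.const 1)

@[fun_prop]
theorem ct_onrm (hX : CT 0 X) (hb : CT 0 b) : CT 0 fun a => (X a).onrm (b a) := by
  have h : CT 0 fun a => (range (X a).q).foldl (fun R j => (X a).ofix (2 * (X a).n ^ 2 + 1)
      ((X a).omul R ((X a).osig j (b a)))) [[[1]]] :=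
    CT.foldl (g := fun a R j => (X a).ofix (2 * (X a).n ^ 2 + 1)
      ((X a).omul R ((X a).osig j (b a)))) (by fun_prop) (by fun_prop) (by fun_prop)
      (bd_oe (X := fun p : α × ℕ => X p.1) (N := fun p => 2 * (X p.1).n ^ 2 + 1) (by fun_prop)
        (by fun_prop)) fun _ _ _ => (sz_ofix _ _ _).trans (Nat.le_add_left _ _)
  unfold onrm; fun_prop

@[fun_prop]
theorem ct_ser (hX : CT 0 X) (hk : CT 0 k) (hb : CT 0 b) :
    CT 0 fun a => (X a).ser (k a) (b a) := by unfold ser; fun_prop

@[fun_prop]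
theorem ct_sers (hX : CT 0 X) (hk : CT 0 k) (hb : CT 0 b) :
    CT 0 fun a => (X a).sers (k a) (b a) := by unfold sers; fun_prop

@[fun_prop]
theorem ct_lser (hX : CT 0 X) (hk : CT 0 k) (hb : CT 0 b) :
    CT 0 fun a => (X a).lser (k a) (b a) := by unfold lser; fun_prop

@[fun_prop]
theorem ct_lmul (hX : CT 0 X) (hx : CT 0 x) (hy : CT 0 y) :
    CT 0 fun a => (X a).lmul (x a) (y a) := by unfold lmul; fun_prop

@[fun_prop]
theorem ct_linv (hX : CT 0 X) (hx : CT 0 x) : CT 0 fun a => (X a).linv (x a) := by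
  unfold linv; fun_prop

@[fun_prop]
theorem ct_lprod {l : α → List LE} (hX : CT 0 X) (hl : CT 0 l) :
    CT 0 fun a => (X a).lprod (l a) := by unfold lprod; fun_prop

@[fun_prop]
theorem ct_lnorm (hX : CT 0 X) (hx : CT 0 x) : CT 0 fun a => (X a).lnorm (x a) := by
  unfold lnorm; fun_prop

@[fun_prop]
theorem ct_lroot (hX : CT 0 X) (hx : CT 0 x) : CT 0 fun a => (X a).lroot (x a) := by
  unfold lroot; fun_prop

@[fun_prop]
theorem ct_lconst (hX : CT 0 X) (hv : CT 0 v) : CT 0 fun a => (X a).lconst (v a) := by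
  unfold lconst; fun_prop

@[fun_prop]
theorem ct_val0 {l : α → List LE} (hX : CT 0 X) (hl : CT 0 l) :
    CT 0 fun a => (X a).val0 (l a) := by unfold val0; fun_prop

end Par

end Vale.Agent.P319A
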