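import Vale.Agent.P319A.CPar

/-!
One round of the splitting algorithm, and the main loop. Definitions and running times.
-/

namespace Vale.Agent.P319A

open Vale.Agent.Lib.TM Vale.Agent.P049 List

/-- The state: the norm `u`, generators of the ideal modulo `u`, expansions of `W`. -/
abbrev St : Type := Pol × List OE × List LE

namespace Par

/-- A maximal independent sublist modulo `μ`, with its log. -/
def obasisL (X : Par) (μ : Pol) (l : List OE) : List OE × List Vec :=
  foldLog (fun (L : List OE) x =>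
    (bif X.AB.solvable X.Q (L.map (X.ocs (μ.length - 1))) (X.ocs (μ.length - 1) (X.omod μ x))
      then L else L ++ [X.omod μ x],
    X.AB.slog X.Q (L.map (X.ocs (μ.length - 1))) (X.ocs (μ.length - 1) (X.omod μ x)))) [] l

/-- Few generators of the same ideal modulo `μ`. -/
def obasis (X : Par) (μ : Pol) (l : List OE) : List OE :=
  ((X.obasisL μ l).1.take (X.q * (μ.length - 1))).map (X.omod μ)

/-- Products of generators. -/
def gmul (X : Par) (G H : List OE) : List OE :=
  G.flatMap fun γ => H.map fun γ' => X.omul γ (X.osig 1 γ')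

/-- Generators of the products of `i ≤ q` conjugates modulo `μ`, with the log. -/
def ipows (X : Par) (μ : Pol) (G : List OE) : List (List OE) × List Vec :=
  foldLog (fun (L : List (List OE)) i => (L ++ [X.obasis μ (X.gmul G (L.getD i []))],
    (X.obasisL μ (X.gmul G (L.getD i []))).2)) [[[[[1]]]]] (range X.q)

/-- The monic norm of `β`. -/
def nu (X : Par) (β : OE) : Pol := X.AB.monicize X.Q (X.onrm β)

/-- A spanning set of the norm ideal modulo `ν`. -/
def pbase (X : Par) (ν : Pol) (A : List OE) : List Pol :=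
  ((X.ipows ν A).1.getD X.q []).flatMap fun γ => (range (X.q * (ν.length - 1))).map fun k =>
    X.ocs (ν.length - 1) (X.omod ν
      (X.omul (X.omono ν.length (k / (ν.length - 1)) (k % (ν.length - 1))) γ))

/-- The elements `x ^ δ f ^ (q deg ν)` modulo `ν`. -/
def pseq (X : Par) (ν : Pol) : List Pol :=
  (range ν.length).map fun δ => X.ocs (ν.length - 1) (X.omod ν
    [X.AB.pmul (xpow ν.length δ) (X.AB.ppowm ν X.f (X.q * (ν.length - 1)))])

/-- The norm of the part prime to `f`. -/
def postU (X : Par) (β : OE) (A : List OE) : Pol :=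
  ((X.AB.dep X.Q (X.pbase (X.nu β) A) (X.pseq (X.nu β))).take (X.n ^ 2 + 1)).map X.AB.nv

/-- Generators of the part prime to `f`. -/
def postG (X : Par) (β : OE) (A : List OE) : List OE := X.obasis (X.postU β A) A

/-- The log of these computations. -/
def postL (X : Par) (β : OE) (A : List OE) : List Vec :=
  X.onrm β ++ (X.ipows (X.nu β) A).2 ++ X.AB.dlog X.Q (X.pbase (X.nu β) A) (X.pseq (X.nu β)) ++
    (X.obasisL (X.postU β A) A).2

/-- The constant `u(θ) ^ (q - 1)`. -/
def cc (X : Par) (u : Pol) : Vec := X.AB.pow (X.AB.peval u X.th) (X.q - 1)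

/-- The root `r` of `c u` modulo `f`. -/
def rr (X : Par) (u : Pol) : Pol :=
  X.AB.chunks X.n (X.AC.amm X.Q X.q X.s
    (X.AC.mul (X.AB.nv (X.cc u)) (X.AC.peval (u.map X.AB.nv) X.th')))

/-- The twists. -/
def tau (X : Par) (st : St) (j : ℕ) : ℤ :=
  bif decide (j % X.q + 1 < X.q) then (st.2.2.getD (j % X.q) (0, [])).1 / (X.n : ℕ)
  else ((st.1.length - 1 : ℕ) : ℤ) -
    ((range (X.q - 1)).map fun l => (st.2.2.getD l (0, [])).1 / (X.n : ℕ)).sum

/-- The number of vanishing coefficients. -/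
def zz (X : Par) (st : St) (i j : ℕ) : ℕ :=
  ((X.M : ℤ) - ((X.n : ℤ) + ((st.1.length - 1 : ℕ) : ℤ) -
    ((range X.q).map fun l => bif decide (l < i) then X.tau st (j + l) else 0).sum -
    bif j == 0 then 0 else 1)).toNat

/-- Integrality away from `f`. -/
def c1 (X : Par) (st : St) (b : List OE) : Pol :=
  (range X.q).flatMap fun i => ((X.ipows st.1 st.2.1).1.getD i []).flatMap fun γ =>
    X.ocs (st.1.length - 1) (X.omod st.1 (X.omul (b.getD i []) γ))

/-- Integrality at `f`. -/
def c2 (X : Par) (st : St) (b : List OE) : Pol :=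
  (range X.q).flatMap fun j => X.ocs X.n (X.omod X.f (X.omul (X.omono 1 j 0)
    (X.osum ((range X.q).map fun i => X.opm (X.AB.psm (X.AB.pow X.ζ (i * j))
      (X.AB.ppowm X.f (X.rr st.1) (min i X.q))) (b.getD i [])))))

/-- The conditions at infinity. -/
def c3 (X : Par) (st : St) (b : List OE) : Pol :=
  (range X.q).flatMap fun i => (range X.q).flatMap fun j =>
    (X.sers j (b.getD i [])).take (X.zz st i j)

/-- The first system; its first equation is the normalisation. -/
def conds1 (X : Par) (st : St) (b : List OE) : Pol :=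
  (X.sers 0 (b.getD 0 [])).getD (X.M - (X.n + (st.1.length - 1))) [] ::
    (X.c1 st b ++ X.c2 st b ++ X.c3 st b)

/-- The product in the cyclic algebra. -/
def ocv (X : Par) (w : Pol) (d b : List OE) (k : ℕ) : OE :=
  X.osum ((range X.q).map fun i =>
    bif decide (i ≤ k) then X.omul (d.getD i []) (X.osig i (b.getD (k - i) []))
    else X.opm w (X.omul (d.getD i []) (X.osig i (b.getD (k + X.q - i) []))))

/-- The equation `d b = b`. -/
def c4 (X : Par) (st : St) (d b : List OE) : Pol :=
  (range X.q).flatMap fun k => X.ocs (12 * X.n ^ 5)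
    (X.osub (X.ocv (X.AB.psm (X.cc st.1) st.1) d b k) (X.opm (X.AB.pmul X.f st.1) (b.getD k [])))

/-- The monomial tuples. -/
def mon (X : Par) (J : ℕ) : List OE :=
  (range X.q).map fun i => bif i == J / (X.q * (X.D + 1)) then
    X.omono (X.D + 1) (J / (X.D + 1) % X.q) (J % (X.D + 1)) else []

/-- The tuple with given coefficients. -/
def tup (X : Par) (c : Pol) : List OE :=
  (range X.q).map fun i => (range X.q).map fun l => (range (X.D + 1)).map fun a =>
    c.getD ((i * X.q + l) * (X.D + 1) + a) []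

/-- The target `1, 0, …, 0` with the length of `r`. -/
def tgt (r : Pol) : Pol := [1] :: r.tail.map fun _ => []

/-- The matrix of the first system. -/
def rows1 (X : Par) (st : St) : List Pol :=
  (range (X.q * X.q * (X.D + 1))).map fun J => X.conds1 st (X.mon J)

/-- The solution of the first system. -/
def sol1 (X : Par) (st : St) : List OE :=
  X.tup (X.AB.solve X.Q (X.rows1 st) (tgt (X.conds1 st [])))

/-- The second system. -/
def conds2 (X : Par) (st : St) (b : List OE) : Pol := X.conds1 st b ++ X.c4 st (X.sol1 st) b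

/-- The matrix of the second system. -/
def rows2 (X : Par) (st : St) : List Pol :=
  (range (X.q * X.q * (X.D + 1))).map fun J => X.conds2 st (X.mon J)

/-- The solution of the second system. -/
def sol2 (X : Par) (st : St) : List OE :=
  X.tup (X.AB.solve X.Q (X.rows2 st) (tgt (X.conds2 st [])))

/-- The log of the two systems. -/
def solL (X : Par) (st : St) : List Vec :=
  (X.ipows st.1 st.2.1).2 ++ X.AB.slog X.Q (X.rows1 st) (tgt (X.conds1 st [])) ++
    X.AB.slog X.Q (X.rows2 st) (tgt (X.conds2 st []))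

/-- The denominator `β`. -/
def dβ (X : Par) (st : St) : OE := X.odiv st.1 ((X.sol2 st).getD 0 [])

/-- The numerator. -/
def da (X : Par) (st : St) : OE := X.opm [X.cc st.1] (X.osig 1 ((X.sol2 st).getD (X.q - 1) []))

/-- Generators of the new ideal. -/
def dA (X : Par) (st : St) : List OE :=
  (range X.q).flatMap fun i => (X.sol2 st).getD i [] ::
    ((X.ipows st.1 st.2.1).1.getD i []).map fun γ => X.odiv st.1 (X.omul ((X.sol2 st).getD i []) γ)

/-- The expansions of `Gh`. -/
def gser (X : Par) (u : Pol) (a β : OE) : List LE :=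
  (range X.q).map fun k => X.lnorm (X.lmul (X.lser 0 [u]) (X.lmul (X.lser k a) (X.linv (X.lser k β))))

/-- The expansion of `U`. -/
def user (X : Par) (u : Pol) : LE := X.lnorm (X.lser 0 [u])

/-- The log of these expansions. -/
def serL (X : Par) (u : Pol) (a β : OE) : List Vec :=
  X.sers 0 [u] ++ (range X.q).flatMap fun k => X.sers k a ++ X.sers k β

/-- The value of `W U / Gh` at the universal point. -/
def zv (X : Par) (ws gs : List LE) (U : LE) : Vec :=
  X.AB.mul (X.AB.mul (X.val0 ws) (X.val0 ((range X.q).map fun _ => U))) (X.AB.inv X.Q (X.val0 gs))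

/-- The test whether this value is constant. -/
def globL (X : Par) (ws gs : List LE) (U : LE) : List Vec :=
  (range X.q).map fun a => X.AB.sub (X.zv ws gs U) (X.AB.mul (X.AK.nv (X.AK.amm X.Q X.q X.s
    (X.AK.chunk 0 (X.AB.pow (X.zv ws gs U) X.q)))) (X.AB.pow X.ζ a))

/-- The products of the quotients of consecutive expansions. -/
def pref (X : Par) (ws gs : List LE) (U : LE) (j : ℕ) : LE :=
  X.lprod (((range X.q).map fun l => X.lmul (X.lmul (ws.getD l (0, [])) U)
    (X.linv (X.lmul (X.lconst (X.zv ws gs U)) (gs.getD l (0, []))))).take j)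

/-- Normal form of a series. -/
def lfix (X : Par) (x : LE) : LE := (iclamp (3 * X.n ^ 5) x.1, X.AS.nv x.2)

/-- The expansions of the new `W`. -/
def glob (X : Par) (ws gs : List LE) (U : LE) : List LE :=
  (range X.q).map fun j => X.lfix (X.lmul (X.lroot (X.lmul U
    (X.lprod ((range X.q).map (X.pref ws gs U))))) (X.linv (X.pref ws gs U j)))

/-- One round. -/
def round (X : Par) (st : St) : St × List Vec :=
  ((X.postU (X.dβ st) (X.dA st), X.postG (X.dβ st) (X.dA st),
      X.glob st.2.2 (X.gser (X.postU (X.dβ st) (X.dA st)) (X.da st) (X.dβ st))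
        (X.user (X.postU (X.dβ st) (X.dA st)))),
    X.solL st ++ X.postL (X.dβ st) (X.dA st) ++
      X.serL (X.postU (X.dβ st) (X.dA st)) (X.da st) (X.dβ st) ++
      X.globL st.2.2 (X.gser (X.postU (X.dβ st) (X.dA st)) (X.da st) (X.dβ st))
        (X.user (X.postU (X.dβ st) (X.dA st))))

/-- The element `(x - θ) ^ n - y`. -/
def h0 (X : Par) : OE :=
  [X.AB.ppowm (xpow (X.n + 2) (X.n + 1)) [X.AB.neg X.th, [1]] X.n, [X.AB.neg [1]]]

/-- The initial state. -/
def init (X : Par) : St :=
  (X.postU X.h0 [X.h0], X.postG X.h0 [X.h0], (range X.q).map fun k =>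
    X.lfix (X.lmul (X.lnorm (X.lser k X.h0)) (X.linv (X.lser k [[], [[1]]]))))

/-- The initial log. -/
def initL (X : Par) : List Vec :=
  X.postL X.h0 [X.h0] ++ (range X.q).flatMap fun k => X.sers k X.h0 ++ X.sers k [[], [[1]]]

/-- The number of rounds. -/
def rounds (X : Par) : ℕ := vq X.n X.q X.n * (X.q - 1) + 1

/-- All logs. -/
def logs (X : Par) : List Vec :=
  X.initL ++ (foldLog (fun st (_ : ℕ) => X.round st) X.init (range X.rounds)).2

/-- A proper factor of `f`. -/
def core (X : Par) : Pol :=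
  ((X.logs.map fun w => X.AB.annih X.th w X.n).filter fun s =>
    decide (2 ≤ s.length) && decide (s.length ≤ X.n)).headD []

variable {α : Type} [Enc α] {X : α → Par} {v : α → Vec} {b b' : α → OE} {R : α → Pol}
  {i j k : α → ℕ} {x : α → LE} {G H : α → List OE} {st : α → St} {ws gs : α → List LE}

@[fun_prop]
theorem ct_obasisL (hX : CT 0 X) (hR : CT 0 R) (hG : CT 0 G) :
    CT 0 fun a => (X a).obasisL (R a) (G a) :=
  ct_foldLog (g := fun a (L : List OE) x =>
    (bif (X a).AB.solvable (X a).Q (L.map ((X a).ocs ((R a).length - 1)))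
      ((X a).ocs ((R a).length - 1) ((X a).omod (R a) x)) then L else L ++ [(X a).omod (R a) x],
    (X a).AB.slog (X a).Q (L.map ((X a).ocs ((R a).length - 1)))
      ((X a).ocs ((R a).length - 1) ((X a).omod (R a) x))))
    (by fun_prop) (by fun_prop) hG
    ((bd_oe (X := fun p : α × OE => X p.1) (N := fun p => (R p.1).length) (by fun_prop)
      (by fun_prop)).add (Bd.const 1)) fun a L x => by
      have h1 := sz_append L [(X a).omod (R a) x]
      have h2 := (X a).sz_omod (R a) x
      generalize (X a).AB.solvable _ _ _ = c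
      cases c
      · simp only [sz_cons, sz_nil, cond_false] at h1 ⊢
        omega
      · simp

@[fun_prop]
theorem ct_obasis (hX : CT 0 X) (hR : CT 0 R) (hG : CT 0 G) :
    CT 0 fun a => (X a).obasis (R a) (G a) := by unfold obasis; fun_prop

/-- Size bound for lists of generators. -/
def gb (X : Par) (N : ℕ) : ℕ := X.q * N * (X.q * (N * (X.AB.vb + 1) + 1 + 1) + 1 + 1) + 1

theorem bd_gb (hX : CT 0 X) (hN : Un k) : Bd 0 fun a => (X a).gb (k a) :=
  (((un_q hX).2.mul hN.2).mul ((bd_oe hX hN).add (Bd.const 1))).add (Bd.const 1)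

theorem sz_obasis (X : Par) (μ : Pol) (l : List OE) {N : ℕ} (h : μ.length ≤ N) :
    sz (X.obasis μ l) ≤ X.gb N := by
  refine (Alg.sz_map_le _ _ fun _ => X.sz_omod μ _).trans ?_
  have h1 : ((X.obasisL μ l).1.take (X.q * (μ.length - 1))).length ≤ X.q * N :=
    (List.length_take_le _ _).trans (Nat.mul_le_mul_left _ (by omega))
  unfold gb
  gcongr

@[fun_prop]
theorem ct_gmul (hX : CT 0 X) (hG : CT 0 G) (hH : CT 0 H) :
    CT 0 fun a => (X a).gmul (G a) (H a) := by unfold gmul; fun_prop

@[fun_prop]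
theorem ct_ipows (hX : CT 0 X) (hR : CT 0 R) (hG : CT 0 G) :
    CT 0 fun a => (X a).ipows (R a) (G a) :=
  ct_foldLog (g := fun a (L : List (List OE)) i =>
    (L ++ [(X a).obasis (R a) ((X a).gmul (G a) (L.getD i []))],
    ((X a).obasisL (R a) ((X a).gmul (G a) (L.getD i []))).2))
    (by fun_prop) (by fun_prop) (by fun_prop)
    ((bd_gb (X := fun p : α × ℕ => X p.1) (k := fun p => (R p.1).length) (by fun_prop)
      (by fun_prop)).add (Bd.const 1)) fun a L i => by
      have h1 := sz_append L [(X a).obasis (R a) ((X a).gmul (G a) (L.getD i []))]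
      have h2 := (X a).sz_obasis (R a) ((X a).gmul (G a) (L.getD i [])) le_rfl
      simp only [sz_cons, sz_nil] at h1 ⊢
      omega

@[fun_prop]
theorem ct_nu (hX : CT 0 X) (hb : CT 0 b) : CT 0 fun a => (X a).nu (b a) := by
  unfold nu; fun_prop

@[fun_prop]
theorem ct_pbase (hX : CT 0 X) (hR : CT 0 R) (hG : CT 0 G) :
    CT 0 fun a => (X a).pbase (R a) (G a) := by unfold pbase; fun_prop

@[fun_prop]
theorem ct_pseq (hX : CT 0 X) (hR : CT 0 R) : CT 0 fun a => (X a).pseq (R a) := by
  unfold pseq; fun_prop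

@[fun_prop]
theorem ct_postU (hX : CT 0 X) (hb : CT 0 b) (hG : CT 0 G) :
    CT 0 fun a => (X a).postU (b a) (G a) := by unfold postU; fun_prop

@[fun_prop]
theorem ct_postG (hX : CT 0 X) (hb : CT 0 b) (hG : CT 0 G) :
    CT 0 fun a => (X a).postG (b a) (G a) := by unfold postG; fun_prop

@[fun_prop]
theorem ct_postL (hX : CT 0 X) (hb : CT 0 b) (hG : CT 0 G) :
    CT 0 fun a => (X a).postL (b a) (G a) := by unfold postL; fun_prop

@[fun_prop]
theorem ct_cc (hX : CT 0 X) (hR : CT 0 R) : CT 0 fun a => (X a).cc (R a) := by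
  unfold cc; fun_prop

@[fun_prop]
theorem ct_rr (hX : CT 0 X) (hR : CT 0 R) : CT 0 fun a => (X a).rr (R a) := by
  unfold rr; fun_prop

@[fun_prop]
theorem ct_tau (hX : CT 0 X) (hs : CT 0 st) (hj : CT 0 j) :
    CT 0 fun a => (X a).tau (st a) (j a) := by unfold tau; fun_prop

@[fun_prop]
theorem ct_zz (hX : CT 0 X) (hs : CT 0 st) (hi : CT 0 i) (hj : CT 0 j) :
    CT 0 fun a => (X a).zz (st a) (i a) (j a) := by unfold zz; fun_prop

@[fun_prop]
theorem ct_c1 (hX : CT 0 X) (hs : CT 0 st) (hG : CT 0 G) :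
    CT 0 fun a => (X a).c1 (st a) (G a) := by unfold c1; fun_prop

@[fun_prop]
theorem ct_c2 (hX : CT 0 X) (hs : CT 0 st) (hG : CT 0 G) :
    CT 0 fun a => (X a).c2 (st a) (G a) := by unfold c2; fun_prop

@[fun_prop]
theorem ct_c3 (hX : CT 0 X) (hs : CT 0 st) (hG : CT 0 G) :
    CT 0 fun a => (X a).c3 (st a) (G a) := by unfold c3; fun_prop

@[fun_prop]
theorem ct_conds1 (hX : CT 0 X) (hs : CT 0 st) (hG : CT 0 G) :
    CT 0 fun a => (X a).conds1 (st a) (G a) := by unfold conds1; fun_prop

@[fun_prop]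
theorem ct_ocv (hX : CT 0 X) (hR : CT 0 R) (hG : CT 0 G) (hH : CT 0 H) (hk : CT 0 k) :
    CT 0 fun a => (X a).ocv (R a) (G a) (H a) (k a) := by unfold ocv; fun_prop

@[fun_prop]
theorem ct_c4 (hX : CT 0 X) (hs : CT 0 st) (hG : CT 0 G) (hH : CT 0 H) :
    CT 0 fun a => (X a).c4 (st a) (G a) (H a) := by unfold c4; fun_prop

@[fun_prop]
theorem ct_mon (hX : CT 0 X) (hj : CT 0 j) : CT 0 fun a => (X a).mon (j a) := by
  unfold mon; fun_prop

@[fun_prop]
theorem ct_tup (hX : CT 0 X) (hR : CT 0 R) : CT 0 fun a => (X a).tup (R a) := by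
  unfold tup; fun_prop

@[fun_prop]
theorem ct_tgt (hR : CT 0 R) : CT 0 fun a => tgt (R a) := by unfold tgt; fun_prop

@[fun_prop]
theorem ct_rows1 (hX : CT 0 X) (hs : CT 0 st) : CT 0 fun a => (X a).rows1 (st a) := by
  unfold rows1; fun_prop

@[fun_prop]
theorem ct_sol1 (hX : CT 0 X) (hs : CT 0 st) : CT 0 fun a => (X a).sol1 (st a) := by
  unfold sol1; fun_prop

@[fun_prop]
theorem ct_conds2 (hX : CT 0 X) (hs : CT 0 st) (hG : CT 0 G) :
    CT 0 fun a => (X a).conds2 (st a) (G a) := by unfold conds2; fun_prop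

@[fun_prop]
theorem ct_rows2 (hX : CT 0 X) (hs : CT 0 st) : CT 0 fun a => (X a).rows2 (st a) := by
  unfold rows2; fun_prop

@[fun_prop]
theorem ct_sol2 (hX : CT 0 X) (hs : CT 0 st) : CT 0 fun a => (X a).sol2 (st a) := by
  unfold sol2; fun_prop

@[fun_prop]
theorem ct_solL (hX : CT 0 X) (hs : CT 0 st) : CT 0 fun a => (X a).solL (st a) := by
  unfold solL; fun_prop

@[fun_prop]
theorem ct_dβ (hX : CT 0 X) (hs : CT 0 st) : CT 0 fun a => (X a).dβ (st a) := by
  unfold dβ; fun_prop

@[fun_prop]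
theorem ct_da (hX : CT 0 X) (hs : CT 0 st) : CT 0 fun a => (X a).da (st a) := by
  unfold da; fun_prop

@[fun_prop]
theorem ct_dA (hX : CT 0 X) (hs : CT 0 st) : CT 0 fun a => (X a).dA (st a) := by
  unfold dA; fun_prop

@[fun_prop]
theorem ct_gser (hX : CT 0 X) (hR : CT 0 R) (hb : CT 0 b) (hb' : CT 0 b') :
    CT 0 fun a => (X a).gser (R a) (b a) (b' a) := by unfold gser; fun_prop

@[fun_prop]
theorem ct_user (hX : CT 0 X) (hR : CT 0 R) : CT 0 fun a => (X a).user (R a) := by
  unfold user; fun_prop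

@[fun_prop]
theorem ct_serL (hX : CT 0 X) (hR : CT 0 R) (hb : CT 0 b) (hb' : CT 0 b') :
    CT 0 fun a => (X a).serL (R a) (b a) (b' a) := by unfold serL; fun_prop

@[fun_prop]
theorem ct_zv (hX : CT 0 X) (hw : CT 0 ws) (hg : CT 0 gs) (hx : CT 0 x) :
    CT 0 fun a => (X a).zv (ws a) (gs a) (x a) := by unfold zv; fun_prop

@[fun_prop]
theorem ct_globL (hX : CT 0 X) (hw : CT 0 ws) (hg : CT 0 gs) (hx : CT 0 x) :
    CT 0 fun a => (X a).globL (ws a) (gs a) (x a) := by unfold globL; fun_prop

@[fun_prop]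
theorem ct_pref (hX : CT 0 X) (hw : CT 0 ws) (hg : CT 0 gs) (hx : CT 0 x) (hj : CT 0 j) :
    CT 0 fun a => (X a).pref (ws a) (gs a) (x a) (j a) := by unfold pref; fun_prop

@[fun_prop]
theorem ct_lfix (hX : CT 0 X) (hx : CT 0 x) : CT 0 fun a => (X a).lfix (x a) := by
  unfold lfix; fun_prop

@[fun_prop]
theorem ct_glob (hX : CT 0 X) (hw : CT 0 ws) (hg : CT 0 gs) (hx : CT 0 x) :
    CT 0 fun a => (X a).glob (ws a) (gs a) (x a) := by unfold glob; fun_prop

@[fun_prop]
theorem ct_round (hX : CT 0 X) (hs : CT 0 st) : CT 0 fun a => (X a).round (st a) := by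
  unfold round; fun_prop

@[fun_prop]
theorem ct_h0 (hX : CT 0 X) : CT 0 fun a => (X a).h0 := by unfold h0; fun_prop

@[fun_prop]
theorem ct_init (hX : CT 0 X) : CT 0 fun a => (X a).init := by unfold init; fun_prop

@[fun_prop]
theorem ct_initL (hX : CT 0 X) : CT 0 fun a => (X a).initL := by unfold initL; fun_prop

@[fun_prop]
theorem un_rounds (hX : CT 0 X) : Un fun a => (X a).rounds := by unfold rounds; fun_prop

theorem sz_round (X : Par) (st : St) : sz (X.round st).1 ≤
    (X.n ^ 2 + 1) * (X.AB.vb + 1) + 1 + (X.gb (X.n ^ 2 + 1) +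
      (X.q * (sz (3 * X.n ^ 5) + 6 + X.AS.vb + 1 + 1) + 1) + 1) + 1 := by
  have h0 : ∀ β A, (X.postU β A).length ≤ X.n ^ 2 + 1 := fun β A => by
    simp [postU]
  have h1 : ∀ β A, sz (X.postU β A) ≤ (X.n ^ 2 + 1) * (X.AB.vb + 1) + 1 := fun β A =>
    (Alg.sz_map_le _ _ fun _ => X.AB.sz_nv _).trans (by gcongr; exact List.length_take_le _ _)
  have h2 : ∀ x, sz (X.lfix x) ≤ sz (3 * X.n ^ 5) + 6 + X.AS.vb + 1 := fun x => by
    have := sz_iclamp (3 * X.n ^ 5) x.1
    have := X.AS.sz_nv x.2
    simp only [lfix, sz_pair]; omega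
  have h3 : ∀ ws gs U, sz (X.glob ws gs U) ≤
      X.q * (sz (3 * X.n ^ 5) + 6 + X.AS.vb + 1 + 1) + 1 := fun ws gs U => by
    simpa [glob] using Alg.sz_map_le (range X.q) _ fun j => h2 (X.lmul (X.lroot (X.lmul U
      (X.lprod ((range X.q).map (X.pref ws gs U))))) (X.linv (X.pref ws gs U j)))
  simp only [round, sz_pair]
  gcongr
  · exact h1 _ _
  · exact X.sz_obasis _ _ (h0 _ _)
  · exact h3 _ _ _

@[fun_prop]
theorem ct_logs (hX : CT 0 X) : CT 0 fun a => (X a).logs := by
  have hY : CT 0 fun p : α × ℕ => X p.1 := by fun_prop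
  have hn : Un fun p : α × ℕ => (X p.1).n ^ 2 + 1 := by fun_prop
  have h : CT 0 fun a => foldLog (fun st (_ : ℕ) => (X a).round st) (X a).init
      (range (X a).rounds) :=
    ct_foldLog (g := fun a st (_ : ℕ) => (X a).round st) (by fun_prop) (by fun_prop) (by fun_prop)
      ((((hn.2.mul ((Alg.bd_vb (ct_AB hY)).add (Bd.const 1))).add (Bd.const 1)).add
        (((bd_gb hY hn).add (((un_q hY).2.mul (((((CT.size (e := 0)
          (f := fun p : α × ℕ => 3 * (X p.1).n ^ 5) (by fun_prop)).add (Bd.const 6)).add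
          (Alg.bd_vb (ct_AS hY))).add (Bd.const 1)).add (Bd.const 1))).add (Bd.const 1))).add
          (Bd.const 1))).add (Bd.const 1))
      fun a st _ => ((X a).sz_round st).trans (Nat.le_add_left _ _)
  unfold logs; fun_prop

@[fun_prop]
theorem ct_core (hX : CT 0 X) : CT 0 fun a => (X a).core := by unfold core; fun_prop

end Par

end Vale.Agent.P319A
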