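import Vale.Agent.P049.QCT

/-!
Polynomially bounded numbers, folds with logs, and integer arithmetic in polynomial time.
-/

namespace Vale.Agent.P319A

open Vale.Agent.Lib.TM Vale.Agent.P049

variable {α β γ σ : Type} [Enc α] [Enc β] [Enc γ] [Enc σ]

/-- Computable in polynomial time and polynomially bounded. -/
@[fun_prop]
def Un (n : α → ℕ) : Prop := CT 0 n ∧ Bd 0 n

@[fun_prop]
theorem Un.const (c : ℕ) : Un fun _ : α => c := ⟨CT.const c, Bd.const c⟩

@[fun_prop]
theorem Un.comp {n : β → ℕ} {g : α → β} (h : Un n) (hg : CT 0 g) : Un fun a => n (g a) :=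
  ⟨h.1.comp hg, h.2.comp hg.size⟩

@[fun_prop]
theorem Un.add {m n : α → ℕ} (h : Un m) (h' : Un n) : Un fun a => m a + n a :=
  ⟨h.1.add h'.1, h.2.add h'.2⟩

@[fun_prop]
theorem Un.mul {m n : α → ℕ} (h : Un m) (h' : Un n) : Un fun a => m a * n a :=
  ⟨h.1.mul h'.1, h.2.mul h'.2⟩

@[fun_prop]
theorem Un.sub {m n : α → ℕ} (h : Un m) (h' : CT 0 n) : Un fun a => m a - n a :=
  ⟨h.1.sub h', h.2.of_le fun _ => Nat.sub_le _ _⟩

@[fun_prop]
theorem Un.div {m n : α → ℕ} (h : Un m) (h' : CT 0 n) : Un fun a => m a / n a :=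
  ⟨h.1.div h', h.2.of_le fun _ => Nat.div_le_self _ _⟩

@[fun_prop]
theorem Un.max {m n : α → ℕ} (h : Un m) (h' : Un n) : Un fun a => max (m a) (n a) :=
  ⟨h.1.max h'.1, (h.2.add h'.2).of_le fun _ => by omega⟩

/-- The minimum is bounded by its second argument. -/
@[fun_prop]
theorem Un.min {m n : α → ℕ} (h : CT 0 m) (h' : Un n) : Un fun a => min (m a) (n a) :=
  ⟨h.min h'.1, h'.2.of_le fun _ => Nat.min_le_right _ _⟩

@[fun_prop]
theorem Un.length {l : α → List β} (h : CT 0 l) : Un fun a => (l a).length :=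
  ⟨h.length, h.bd_length⟩

@[fun_prop]
theorem Un.size {n : α → ℕ} (h : CT 0 n) : Un fun a => (n a).size := ⟨h.natSize, h.bd_size⟩

@[fun_prop]
theorem Un.countP {f : α → β → Bool} {l : α → List β} (hf : CT 0 fun p : α × β => f p.1 p.2)
    (hl : CT 0 l) : Un fun a => (l a).countP (f a) :=
  ⟨CT.countP hf hl, hl.bd_length.of_le fun _ => List.countP_le_length⟩

@[fun_prop]
theorem Un.pow {n : α → ℕ} (h : Un n) (c : ℕ) : Un fun a => n a ^ c := by
  induction c with
  | zero => simpa using Un.const 1
  | succ c ih => simpa [pow_succ] using ih.mul h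

@[fun_prop]
theorem Un.ct {n : α → ℕ} (h : Un n) : CT 0 n := h.1

@[fun_prop]
theorem Un.range {n : α → ℕ} (h : Un n) : CT 0 fun a => List.range (n a) := h.1.range h.2

@[fun_prop]
theorem ct_pow {m n : α → ℕ} (hm : CT 0 m) (hn : Un n) : CT 0 fun a => m a ^ n a :=
  hm.pow hn.1 hn.2

@[fun_prop]
theorem ct_take {l : α → List β} {n : α → ℕ} (hn : CT 0 n) (hl : CT 0 l) :
    CT 0 fun a => (l a).take (n a) :=
  ((hl.length.sub hn).drop hl.reverse).reverse.of_eq fun a => by
    rw [List.drop_reverse, List.reverse_reverse]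
    rcases le_total (n a) (l a).length with h | h
    · congr 1; omega
    · rw [Nat.sub_eq_zero_of_le h, List.take_of_length_le h]; simp

/-- The first element of `range N` with a property, or `N`. -/
def first (N : ℕ) (f : ℕ → Bool) : ℕ := min (((List.range N).filter f).headD N) N

@[fun_prop]
theorem Un.first {N : α → ℕ} {f : α → ℕ → Bool} (hN : Un N)
    (hf : CT 0 fun p : α × ℕ => f p.1 p.2) : Un fun a => first (N a) (f a) := by
  unfold P319A.first; fun_prop

@[fun_prop]
theorem ct_first {N : α → ℕ} {f : α → ℕ → Bool} (hN : Un N)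
    (hf : CT 0 fun p : α × ℕ => f p.1 p.2) : CT 0 fun a => first (N a) (f a) := (hN.first hf).1

theorem first_le (N : ℕ) (f : ℕ → Bool) : first N f ≤ N := Nat.min_le_right _ _

theorem first_spec (N : ℕ) (f : ℕ → Bool) :
    (first N f < N → f (first N f) = true) ∧ ∀ k < first N f, f k = false := by
  induction N with
  | zero => simp [first]
  | succ N ih =>
    unfold first at ih ⊢
    rw [List.range_succ, List.filter_append]
    cases h : (List.range N).filter f with
    | nil =>
      have h1 : ∀ k < N, f k = false := fun k hk => by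
        simpa using List.filter_eq_nil_iff.mp h k (List.mem_range.mpr hk)
      cases h2 : f N with
      | true => simpa [h2] using h1
      | false =>
        simp only [h2, List.filter_cons, List.filter_nil, List.nil_append, List.headD_nil,
          Bool.false_eq_true, if_false, min_self, lt_irrefl, false_imp_iff, true_and]
        intro k hk
        rcases Nat.lt_succ_iff_lt_or_eq.mp hk with h3 | rfl
        · exact h1 k h3
        · exact h2
    | cons x l =>
      have hx : x < N := by
        have : x ∈ (List.range N).filter f := by simp [h]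
        exact List.mem_range.mp (List.mem_of_mem_filter this)
      rw [h] at ih
      simp only [List.headD_cons, List.cons_append, min_eq_left hx.le,
        min_eq_left (Nat.le_succ_of_le hx.le)] at ih ⊢
      exact ⟨fun _ => ih.1 hx, ih.2⟩

theorem first_le_of {N k : ℕ} {f : ℕ → Bool} (h : f k = true) : first N f ≤ k := by
  by_contra h'
  rw [(first_spec N f).2 k (by omega)] at h
  exact Bool.false_ne_true h

theorem first_true {N k : ℕ} {f : ℕ → Bool} (hk : k < N) (h : f k = true) :
    f (first N f) = true := (first_spec N f).1 ((first_le_of h).trans_lt hk)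

/-- Folds that also collect a log. -/
def foldLog {σ β γ : Type} (g : σ → β → σ × List γ) (s : σ) (l : List β) : σ × List γ :=
  l.foldl (fun t x => ((g t.1 x).1, t.2 ++ (g t.1 x).2)) (s, [])

/-- Folds with a log whose states grow additively. -/
theorem ct_foldLog {g : α → σ → β → σ × List γ} {init : α → σ} {l : α → List β} {G : α × β → ℕ}
    (hg : CT 0 fun p : α × σ × β => g p.1 p.2.1 p.2.2) (hi : CT 0 init) (hl : CT 0 l)
    (hG : Bd 0 G) (h : ∀ a s x, sz (g a s x).1 ≤ sz s + G (a, x)) :
    CT 0 fun a => foldLog (g a) (init a) (l a) := by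
  obtain ⟨T, hT, hT'⟩ := hG.bound ((Bd.self.add hl.size).add (Bd.const 1))
  have hS : Bd 0 fun a => sz (init a) + sz (l a) * T a := hi.size.add (hl.size.mul hT)
  obtain ⟨U, hU, hU'⟩ := hg.snd.size.bound (((Bd.self.add hS).add hl.size).add (Bd.const 2))
  unfold foldLog
  refine CT.foldl_inv (g := fun a (t : σ × List γ) x => ((g a t.1 x).1, t.2 ++ (g a t.1 x).2))
    (B := fun a => sz (init a) + sz (l a) * T a + (1 + sz (l a) * U a) + 1) ?_ (by fun_prop) hl
    ((hS.add ((Bd.const 1).add (hl.size.mul hU))).add (Bd.const 1))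
    (fun a t r => sz r ≤ sz (l a) ∧ sz t.1 + sz r * T a ≤ sz (init a) + sz (l a) * T a ∧
      sz t.2 + sz r * U a ≤ 1 + sz (l a) * U a)
    (fun a => ⟨le_rfl, le_rfl, by simp⟩) (fun a t x r ⟨h1, h2, h3⟩ => ?_) (fun a t r h => ?_)
  · have h4 : CT 0 fun p : α × (σ × List γ) × β => g p.1 p.2.1.1 p.2.2 :=
      hg.comp (g := fun p : α × (σ × List γ) × β => (p.1, p.2.1.1, p.2.2)) (by fun_prop)
    fun_prop
  · simp only [sz_cons] at h1 h2 h3
    have h4 := hT' a (a, x) (by simp; omega)
    have h5 := h a t.1 x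
    have h6 := hU' a (a, t.1, x) (by
      simp only [sz_pair]; nlinarith [Nat.zero_le ((sz x + sz r + 1) * T a)])
    have h7 := sz_append t.2 (g a t.1 x).2
    simp only at h6
    refine ⟨by omega, ?_, ?_⟩
    · nlinarith [Nat.zero_le (sz x * T a)]
    · nlinarith [Nat.zero_le (sz x * U a)]
  · rw [sz_prod]
    have := Nat.zero_le (sz r * T a)
    have := Nat.zero_le (sz r * U a)
    omega

theorem foldLog_append {σ β γ : Type} (g : σ → β → σ × List γ) (s : σ) (l : List β) (x : β) :
    foldLog g s (l ++ [x]) =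
      ((g (foldLog g s l).1 x).1, (foldLog g s l).2 ++ (g (foldLog g s l).1 x).2) := by
  simp [foldLog]

/-- Induction along a fold with a log all of whose entries are good. -/
theorem foldLog_range {σ γ : Type} (g : σ → ℕ → σ × List γ) (s : σ) (G : γ → Prop)
    (P : ℕ → σ → Prop) (h0 : P 0 s) (N : ℕ)
    (hs : ∀ k < N, ∀ t, P k t → (∀ x ∈ (g t k).2, G x) → P (k + 1) (g t k).1)
    (hG : ∀ x ∈ (foldLog g s (List.range N)).2, G x) : P N (foldLog g s (List.range N)).1 := by
  induction N with
  | zero => exact h0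
  | succ N ih =>
    rw [List.range_succ, foldLog_append] at hG ⊢
    exact hs N (Nat.lt_succ_self N) _ (ih (fun k hk => hs k (by omega))
      fun x hx => hG x (List.mem_append_left _ hx)) fun x hx => hG x (List.mem_append_right _ hx)

attribute [fun_prop] ct_toNat ct_intCast ct_iadd ct_imul

@[fun_prop]
theorem ct_ineg {z : α → ℤ} (hz : CT 0 z) : CT 0 fun a => -z a :=
  (ct_imul (CT.const (-1)) hz).of_eq fun a => by simp

@[fun_prop]
theorem ct_isub {z w : α → ℤ} (hz : CT 0 z) (hw : CT 0 w) : CT 0 fun a => z a - w a :=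
  (ct_iadd hz (ct_ineg hw)).of_eq fun a => by simp [sub_eq_add_neg]

@[fun_prop]
theorem ct_idiv {z : α → ℤ} {n : α → ℕ} (hz : CT 0 z) (hn : CT 0 n) :
    CT 0 fun a => z a / (n a : ℤ) := by
  have h : CT 0 fun a => (((z a + (z a).natAbs * n a).toNat / n a : ℕ) : ℤ) -
      ((bif n a == 0 then 0 else (z a).natAbs : ℕ) : ℤ) := by fun_prop
  refine h.of_eq fun a => ?_
  rcases Nat.eq_zero_or_pos (n a) with h0 | h0
  · simp [h0]
  · have h1 : (0 : ℤ) ≤ z a + (z a).natAbs * n a := by
      have h2 : (1 : ℤ) ≤ n a := by exact_mod_cast h0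
      have h3 : -z a ≤ (z a).natAbs := by omega
      nlinarith [Int.natCast_nonneg (z a).natAbs]
    have h2 : (n a == 0) = false := by simpa using h0.ne'
    rw [h2, Int.natCast_div, Int.toNat_of_nonneg h1,
      Int.add_mul_ediv_right _ _ (by exact_mod_cast h0.ne')]
    simp

theorem sz_int (z : ℤ) : sz z = sz z.natAbs + 6 := by
  change sz (decide (z < 0), z.natAbs) = _
  simp; omega

theorem sz_iadd_le (z w : ℤ) : sz (z + w) ≤ sz z + sz w := by
  have h1 := sz_mono (Int.natAbs_add_le z w)
  have h2 := sz_add_le z.natAbs w.natAbs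
  simp only [sz_int]; omega

@[fun_prop]
theorem ct_isum {l : α → List ℤ} (hl : CT 0 l) : CT 0 fun a => (l a).sum :=
  (CT.foldl (g := fun _ (s : ℤ) x => s + x) (init := fun _ => 0) (G := fun p => sz p)
    (by fun_prop) (by fun_prop) hl Bd.self fun a s x => by
      have := sz_iadd_le s x; simp only [sz_pair]; omega).of_eq fun a => by
    rw [List.sum_eq_foldl]

/-- Clamping an integer. -/
def iclamp (B : ℕ) (z : ℤ) : ℤ := bif decide (z.natAbs ≤ B) then z else 0

@[fun_prop]
theorem ct_iclamp {B : α → ℕ} {z : α → ℤ} (hB : CT 0 B) (hz : CT 0 z) :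
    CT 0 fun a => iclamp (B a) (z a) := by unfold iclamp; fun_prop

theorem iclamp_eq {B : ℕ} {z : ℤ} (h : |z| ≤ B) : iclamp B z = z := by
  have : z.natAbs ≤ B := by rw [← Int.natCast_natAbs] at h; exact_mod_cast h
  simp [iclamp, this]

theorem sz_iclamp (B : ℕ) (z : ℤ) : sz (iclamp B z) ≤ sz B + 6 := by
  unfold iclamp
  by_cases h : z.natAbs ≤ B
  · simpa [h, sz_int] using sz_mono h
  · simpa [h, sz_int] using sz_mono (Nat.zero_le B)

end Vale.Agent.P319A
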