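import Vale.Agent.P319A.MDefs

/-!
Elementary algebra of the coordinate ring: coordinates, the automorphisms, norms.
-/

open Polynomial Finset

namespace Vale.Agent.P319A.Crv

variable {K : Type} [Field K] (D : Crv K)

theorem q_ne : (D.q : K) ≠ 0 := by
  have : NeZero D.q := ⟨D.hq.ne_zero⟩
  exact D.hζ.neZero'.ne

theorem two_le_q : 2 ≤ D.q := D.hq.two_le

theorem q_pos : 0 < D.q := D.hq.pos

theorem q_le_n : D.q ≤ D.n := by
  rw [D.hn]; exact Nat.le_mul_of_pos_right _ D.hn1

theorem n1_lt_n : D.n1 < D.n := by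
  have h1 := D.two_le_q
  have h2 := D.hn1
  rw [D.hn]; nlinarith

theorem ζ_ne : D.ζ ≠ 0 := D.hζ.ne_zero D.hq.ne_zero

theorem cva_geom {x : K} {q : ℕ} {p : Prop} [Decidable p] (h : x ^ q = 1) (hp : x = 1 ↔ p) :
    ∑ j ∈ range q, x ^ j = if p then (q : K) else 0 := by
  split_ifs with h1
  · simp [hp.2 h1]
  · have h2 := mul_geom_sum x q
    rw [h, sub_self] at h2
    exact (mul_eq_zero.1 h2).resolve_left (sub_ne_zero.2 (mt hp.1 h1))

theorem sum_ζ (l : ℕ) : ∑ j ∈ range D.q, D.ζ ^ (j * l) = if D.q ∣ l then (D.q : K) else 0 := by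
  simp only [mul_comm _ l, pow_mul]
  exact cva_geom (by rw [← pow_mul, mul_comm, pow_mul, D.hζ.pow_eq_one, one_pow])
    (D.hζ.pow_eq_one_iff_dvd l)

/-- Orthogonality: for `i, l < q`. -/
theorem sum_ζ_inv {i l : ℕ} (hi : i < D.q) (hl : l < D.q) :
    ∑ j ∈ range D.q, D.ζ⁻¹ ^ (j * l) * D.ζ ^ (j * i) = if i = l then (D.q : K) else 0 := by
  simp only [mul_comm _ l, mul_comm _ i, pow_mul, ← mul_pow]
  refine cva_geom ?_ ?_
  · rw [mul_pow, ← pow_mul, ← pow_mul, mul_comm l, mul_comm i, pow_mul, pow_mul, inv_pow,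
      D.hζ.pow_eq_one, inv_one, one_pow, one_pow, mul_one]
  · rw [inv_pow, inv_mul_eq_one₀ (pow_ne_zero _ D.ζ_ne)]
    exact ⟨fun h => (D.hζ.pow_inj hl hi h).symm, fun h => by rw [h]⟩

theorem f_monic : D.f.Monic := monic_prod_of_monic _ _ fun _ _ => monic_X_sub_C _

theorem f_natDegree : D.f.natDegree = D.n := by
  rw [f, natDegree_prod_of_monic _ _ fun _ _ => monic_X_sub_C _]
  simp

theorem f_eval (k : Fin D.n) : D.f.eval (D.e k) = 0 := by
  rw [f, eval_prod]
  exact Finset.prod_eq_zero (Finset.mem_univ k) (by simp)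

theorem f_dvd_iff {P : K[X]} : D.f ∣ P ↔ ∀ k, P.eval (D.e k) = 0 := by
  refine ⟨?_, fun h => ?_⟩
  · rintro ⟨Q, rfl⟩ k
    rw [eval_mul, f_eval, zero_mul]
  · exact Fintype.prod_dvd_of_coprime (pairwise_coprime_X_sub_C D.he) fun k =>
      dvd_iff_isRoot.2 (h k)

theorem cop_iff {P : K[X]} : IsCoprime P D.f ↔ ∀ k, P.eval (D.e k) ≠ 0 := by
  rw [f, IsCoprime.prod_right_iff]
  simp only [Finset.mem_univ, true_imp_iff]
  refine forall_congr' fun k => ?_
  rw [isCoprime_comm, (irreducible_X_sub_C _).coprime_iff_not_dvd, dvd_iff_isRoot]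
  rfl

theorem f_squarefree : Squarefree D.f :=
  (separable_prod_X_sub_C_iff.2 D.he).squarefree

@[simp] theorem s_zero (b : D.O) : D.s 0 b = b := by
  have h : D.s 0 = RingHom.id _ := D.hom_ext (fun P => by simp) (by simp [s_y])
  rw [h, RingHom.id_apply]

theorem s_s (i j : ℕ) (b : D.O) : D.s i (D.s j b) = D.s (i + j) b := by
  have h : (D.s i).comp (D.s j) = D.s (i + j) := D.hom_ext (fun P => by simp) (by
    rw [RingHom.comp_apply, s_y, map_mul, s_of, s_y, s_y, pow_add, C_mul, map_mul]; ring)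
  exact RingHom.congr_fun h b

theorem s_add_q (j : ℕ) : D.s (j + D.q) = D.s j :=
  D.hom_ext (fun P => by simp) (by rw [s_y, s_y, pow_add, D.hζ.pow_eq_one, mul_one])

theorem s_q (b : D.O) : D.s D.q b = b := by
  have h := D.s_add_q 0
  rw [zero_add] at h
  rw [h, s_zero]

theorem s_mod (j : ℕ) : D.s (j % D.q) = D.s j :=
  D.hom_ext (fun P => by simp) (by rw [s_y, s_y, ← pow_eq_pow_mod _ D.hζ.pow_eq_one])

theorem s_bijective (j : ℕ) : Function.Bijective (D.s j) := by
  have h : ∀ b, D.s (j * (D.q - 1) + j) b = b := fun b => by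
    have h1 : j * (D.q - 1) + j = j * D.q := by
      rw [← Nat.mul_succ, Nat.succ_eq_add_one, Nat.sub_add_cancel D.q_pos]
    rw [h1, ← s_mod, Nat.mul_mod_left, s_zero]
  exact Function.bijective_iff_has_inverse.2 ⟨D.s (j * (D.q - 1)),
    fun b => by rw [s_s, h], fun b => by rw [s_s, add_comm, h]⟩

/-- The generator of the Galois group as a ring isomorphism. -/
noncomputable def σ : D.O ≃+* D.O := RingEquiv.ofBijective (D.s 1) (D.s_bijective 1)

theorem σ_apply (b : D.O) : D.σ b = D.s 1 b := rfl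

theorem smul_eq (c : K) (b : D.O) : c • b = D.of (C c) * b := Algebra.smul_def c b

theorem smul_eq' (P : K[X]) (b : D.O) : P • b = D.of P * b := Algebra.smul_def P b

theorem co_of_mul (l : ℕ) (P : K[X]) (b : D.O) : D.co l (D.of P * b) = P * D.co l b := by
  rw [← smul_eq', map_smul, smul_eq_mul]

theorem cva_F_degree : D.F.degree = D.q := degree_X_pow_sub_C D.q_pos _

theorem cva_lt (b : D.O) : (AdjoinRoot.modByMonicHom D.F_monic b).degree < D.q := by
  obtain ⟨P, rfl⟩ := AdjoinRoot.mk_surjective b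
  rw [AdjoinRoot.modByMonicHom_mk, ← cva_F_degree]
  exact degree_modByMonic_lt _ D.F_monic

theorem cva_mk (c : ℕ → K[X]) : AdjoinRoot.mk D.F (∑ m ∈ range D.q, monomial m (c m)) =
    ∑ m ∈ range D.q, D.of (c m) * D.y ^ m := by
  simp only [map_sum, ← C_mul_X_pow_eq_monomial, map_mul, map_pow, AdjoinRoot.mk_X]
  rfl

theorem co_ge {l : ℕ} (hl : D.q ≤ l) (b : D.O) : D.co l b = 0 :=
  coeff_eq_zero_of_degree_lt ((D.cva_lt b).trans_le (by exact_mod_cast hl))

theorem sum_co (b : D.O) : ∑ l ∈ range D.q, D.of (D.co l b) * D.y ^ l = b := by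
  rw [← cva_mk]
  refine Eq.trans ?_ (AdjoinRoot.mk_leftInverse D.F_monic b)
  congr 1
  ext1 l
  simp only [finsetSum_coeff, coeff_monomial, Finset.sum_ite_eq', Finset.mem_range]
  split_ifs with h
  · rfl
  · exact (D.co_ge (not_lt.1 h) b).symm

theorem co_sum (c : ℕ → K[X]) {l : ℕ} (hl : l < D.q) :
    D.co l (∑ m ∈ range D.q, D.of (c m) * D.y ^ m) = c l := by
  have h : (∑ m ∈ range D.q, monomial m (c m)).degree < D.F.degree := by
    rw [cva_F_degree, degree_lt_iff_coeff_zero]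
    intro m hm
    simp only [finsetSum_coeff, coeff_monomial, Finset.sum_ite_eq', Finset.mem_range]
    exact if_neg (not_lt.2 hm)
  rw [← cva_mk, co, LinearMap.comp_apply, AdjoinRoot.modByMonicHom_mk,
    (modByMonic_eq_self_iff D.F_monic).2 h, lcoeff_apply]
  simp only [finsetSum_coeff, coeff_monomial, Finset.sum_ite_eq', Finset.mem_range]
  exact if_pos hl

theorem co_ext {b b' : D.O} (h : ∀ l < D.q, D.co l b = D.co l b') : b = b' := by
  rw [← D.sum_co b, ← D.sum_co b']
  exact Finset.sum_congr rfl fun l hl => by rw [h l (Finset.mem_range.1 hl)]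

theorem co_y_pow (l : ℕ) {m : ℕ} (hm : m < D.q) :
    D.co l (D.y ^ m) = if l = m then 1 else 0 := by
  rcases lt_or_ge l D.q with hl | hl
  · rw [← D.co_sum (fun i => if i = m then 1 else 0) hl]
    congr 1
    rw [Finset.sum_eq_single m (fun i _ hi => by simp [hi]) (by simp [hm])]
    simp
  · rw [D.co_ge hl, if_neg (by omega)]

theorem co_of (l : ℕ) (P : K[X]) : D.co l (D.of P) = if l = 0 then P else 0 := by
  have h := D.co_of_mul l P (D.y ^ 0)
  rw [D.co_y_pow l D.q_pos, pow_zero, mul_one] at h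
  rw [h]
  split_ifs <;> simp

theorem of_injective : Function.Injective D.of := fun P Q h => by
  simpa [co_of] using congrArg (D.co 0) h

theorem co_s (l j : ℕ) (b : D.O) : D.co l (D.s j b) = C (D.ζ ^ (j * l)) * D.co l b := by
  rcases lt_or_ge l D.q with hl | hl
  · rw [← D.co_sum (fun m => C (D.ζ ^ (j * m)) * D.co m b) hl]
    congr 1
    conv_lhs => rw [← D.sum_co b, map_sum]
    refine Finset.sum_congr rfl fun m _ => ?_
    rw [map_mul, map_pow, s_of, s_y, pow_mul, C_pow (a := D.ζ ^ j), map_mul, map_pow D.of, mul_pow]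
    ring
  · rw [D.co_ge hl, D.co_ge hl, mul_zero]

theorem cva_co_add {k l m : ℕ} (hk : k < D.q) (hl : l < D.q) (hm : m < D.q) :
    D.co k (D.y ^ (l + m)) =
      if l ≤ k then (if m = k - l then 1 else 0) else (if m = k + D.q - l then D.f else 0) := by
  rcases lt_or_ge (l + m) D.q with h | h
  · rw [D.co_y_pow k h]
    split_ifs <;> first | rfl | omega
  · obtain ⟨r, hr⟩ := Nat.exists_eq_add_of_le h
    rw [hr, pow_add, y_pow, co_of_mul, D.co_y_pow k (by omega)]
    split_ifs <;> first | omega | simp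

theorem co_mul {k : ℕ} (hk : k < D.q) (b b' : D.O) : D.co k (b * b') =
    ∑ l ∈ range D.q, if l ≤ k then D.co l b * D.co (k - l) b'
      else D.f * (D.co l b * D.co (k + D.q - l) b') := by
  conv_lhs => rw [← D.sum_co b, ← D.sum_co b', Finset.sum_mul_sum, map_sum]
  refine Finset.sum_congr rfl fun l hl => ?_
  rw [Finset.mem_range] at hl
  have h : ∀ m ∈ range D.q, D.co k (D.of (D.co l b) * D.y ^ l * (D.of (D.co m b') * D.y ^ m)) =
      D.co l b * D.co m b' * if l ≤ k then (if m = k - l then 1 else 0)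
        else (if m = k + D.q - l then D.f else 0) := fun m hm => by
    rw [← D.cva_co_add hk hl (Finset.mem_range.1 hm), ← co_of_mul, map_mul D.of, pow_add,
      mul_mul_mul_comm]
  rw [map_sum, Finset.sum_congr rfl h]
  split_ifs with h1
  · simp only [mul_ite, mul_one, mul_zero, Finset.sum_ite_eq', Finset.mem_range]
    rw [if_pos (by omega)]
  · simp only [mul_ite, mul_zero, Finset.sum_ite_eq', Finset.mem_range]
    rw [if_pos (by omega), mul_comm]

theorem of_dvd_iff {P : K[X]} {b : D.O} : D.of P ∣ b ↔ ∀ l < D.q, P ∣ D.co l b := by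
  refine ⟨?_, fun h => ?_⟩
  · rintro ⟨c, rfl⟩ l _
    rw [co_of_mul]
    exact dvd_mul_right _ _
  · rw [← D.sum_co b]
    exact Finset.dvd_sum fun l hl =>
      (map_dvd D.of (h l (Finset.mem_range.1 hl))).mul_right _

theorem of_dvd_of {P Q : K[X]} : D.of P ∣ D.of Q ↔ P ∣ Q :=
  ⟨fun h => by simpa [co_of] using D.of_dvd_iff.1 h 0 D.q_pos, map_dvd D.of⟩

/-- Cancelling a factor prime to the modulus. -/
theorem of_dvd_of_cop {P Q : K[X]} (h : IsCoprime P Q) {b : D.O} (hb : D.of P ∣ D.of Q * b) :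
    D.of P ∣ b := (h.map D.of).dvd_of_dvd_mul_left hb

/-- Discrete Fourier inversion. -/
theorem dft (b : D.O) {l : ℕ} (hl : l < D.q) :
    D.of (C (D.q : K)) * (D.of (D.co l b) * D.y ^ l) =
      ∑ j ∈ range D.q, D.of (C (D.ζ⁻¹ ^ (j * l))) * D.s j b := by
  refine D.co_ext fun k hk => ?_
  simp only [map_sum, co_of_mul, co_s, ← mul_assoc, ← C_mul]
  rw [← Finset.sum_mul, ← map_sum, D.sum_ζ_inv hk hl, mul_assoc, co_of_mul, co_of_mul,
    D.co_y_pow k hl]
  split_ifs with h
  · rw [h, mul_one]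
  · simp

theorem of_co_zero {b : D.O} (h : D.s 1 b = b) : D.of (D.co 0 b) = b := by
  refine D.co_ext fun l hl => ?_
  rw [co_of]
  split_ifs with h0
  · rw [h0]
  · have h1 := D.co_s l 1 b
    rw [h, one_mul] at h1
    have h2 : (C (D.ζ ^ l) - 1) * D.co l b = 0 := by rw [sub_mul, ← h1, one_mul, sub_self]
    refine ((mul_eq_zero.1 h2).resolve_left fun h3 => ?_).symm
    rw [sub_eq_zero, ← C_1, C_inj] at h3
    exact D.hζ.pow_ne_one_of_pos_of_lt h0 hl h3

/-- The cofactor of `b` in its norm, before the identification of the norm. -/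
theorem cva_cof (b : D.O) :
    b * ∏ j ∈ range (D.q - 1), D.s (j + 1) b = ∏ j ∈ range D.q, D.s j b := by
  conv_rhs => rw [← Nat.sub_add_cancel D.q_pos, Finset.prod_range_succ', s_zero, mul_comm]

theorem of_nrm (b : D.O) : D.of (D.nrm b) = ∏ j ∈ range D.q, D.s j b := by
  refine D.of_co_zero ?_
  rw [map_prod]
  conv_lhs => rw [← Nat.sub_add_cancel D.q_pos, Finset.prod_range_succ]
  simp only [s_s, add_comm 1]
  rw [Nat.sub_add_cancel D.q_pos, s_q, mul_comm, cva_cof]

theorem nrm_mul (b b' : D.O) : D.nrm (b * b') = D.nrm b * D.nrm b' :=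
  D.of_injective (by simp only [map_mul, of_nrm, Finset.prod_mul_distrib])

theorem nrm_of (P : K[X]) : D.nrm (D.of P) = P ^ D.q :=
  D.of_injective (by simp [of_nrm])

theorem nrm_s (j : ℕ) (b : D.O) : D.nrm (D.s j b) = D.nrm b :=
  D.of_injective (by
    rw [← D.s_of j (D.nrm b), of_nrm, of_nrm, map_prod]
    simp only [s_s, add_comm j])

theorem nrm_prod {ι : Type} (t : Finset ι) (b : ι → D.O) :
    D.nrm (∏ i ∈ t, b i) = ∏ i ∈ t, D.nrm (b i) :=
  D.of_injective (by
    simp only [map_prod, of_nrm]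
    exact Finset.prod_comm)

theorem nrm_y : D.nrm D.y = C (∏ j ∈ range D.q, D.ζ ^ j) * D.f :=
  D.of_injective (by
    simp only [of_nrm, s_y, Finset.prod_mul_distrib, map_mul, map_prod, Finset.prod_const,
      Finset.card_range, y_pow])

/-- The cofactor of `b` in its norm. -/
theorem mul_cof (b : D.O) : b * ∏ j ∈ range (D.q - 1), D.s (j + 1) b = D.of (D.nrm b) := by
  rw [cva_cof, of_nrm]

theorem ev_s (k : Fin D.n) (j : ℕ) (b : D.O) : D.ev k (D.s j b) = D.ev k b := by
  have h : (D.ev k).comp (D.s j) = D.ev k := D.hom_ext (fun P => by simp) (by simp [s_y])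
  exact RingHom.congr_fun h b

theorem ev_eq (k : Fin D.n) (b : D.O) : D.ev k b = (D.co 0 b).eval (D.e k) := by
  conv_lhs => rw [← D.sum_co b, map_sum]
  rw [Finset.sum_eq_single 0 (fun l _ hl => by simp [hl]) (by simp [D.hq.ne_zero])]
  simp

theorem eval_nrm (k : Fin D.n) (b : D.O) : (D.nrm b).eval (D.e k) = D.ev k b ^ D.q := by
  rw [← ev_of, of_nrm, map_prod]
  simp [ev_s]

theorem ev_ne_of_mem {u : K[X]} (hu : IsCoprime u D.f) {W : D.O}
    (h : D.of u ∈ Ideal.span {W}) (k : Fin D.n) : D.ev k W ≠ 0 := by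
  obtain ⟨c, hc⟩ := Ideal.mem_span_singleton.1 h
  intro h0
  refine D.cop_iff.1 hu k ?_
  rw [← ev_of, hc, map_mul, h0, zero_mul]

variable {D}

theorem CoLe.mono {b : D.O} {m m' : ℕ} (h : D.CoLe b m) (hm : m ≤ m') : D.CoLe b m' :=
  fun l => (h l).trans hm

theorem CoLe.zero (m : ℕ) : D.CoLe 0 m := fun l => by simp

theorem CoLe.add {b b' : D.O} {m : ℕ} (h : D.CoLe b m) (h' : D.CoLe b' m) :
    D.CoLe (b + b') m := fun l => by
  rw [map_add]
  exact (natDegree_add_le _ _).trans (max_le (h l) (h' l))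

theorem CoLe.sub {b b' : D.O} {m : ℕ} (h : D.CoLe b m) (h' : D.CoLe b' m) :
    D.CoLe (b - b') m := fun l => by
  rw [map_sub]
  exact (natDegree_sub_le _ _).trans (max_le (h l) (h' l))

theorem CoLe.sum {ι : Type} {t : Finset ι} {b : ι → D.O} {m : ℕ} (h : ∀ i ∈ t, D.CoLe (b i) m) :
    D.CoLe (∑ i ∈ t, b i) m :=
  Finset.sum_induction b (fun x => D.CoLe x m) (fun _ _ => CoLe.add) (CoLe.zero m) h

theorem CoLe.mul {b b' : D.O} {m m' : ℕ} (h : D.CoLe b m) (h' : D.CoLe b' m') :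
    D.CoLe (b * b') (m + m' + D.n) := fun k => by
  rcases lt_or_ge k D.q with hk | hk
  · rw [D.co_mul hk]
    refine natDegree_sum_le_of_forall_le _ _ fun l _ => ?_
    have h1 : ∀ i, (D.co l b * D.co i b').natDegree ≤ m + m' := fun i =>
      natDegree_mul_le.trans (add_le_add (h l) (h' i))
    split_ifs
    · exact (h1 _).trans (Nat.le_add_right _ _)
    · refine natDegree_mul_le.trans ?_
      rw [f_natDegree, add_comm]
      exact Nat.add_le_add_right (h1 _) _
  · simp [D.co_ge hk]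

theorem CoLe.s {b : D.O} {m : ℕ} (h : D.CoLe b m) (j : ℕ) : D.CoLe (D.s j b) m := fun l => by
  rw [co_s]
  exact (natDegree_C_mul_le _ _).trans (h l)

theorem CoLe.of_mul {b : D.O} {m : ℕ} (h : D.CoLe b m) (P : K[X]) :
    D.CoLe (D.of P * b) (P.natDegree + m) := fun l => by
  rw [co_of_mul]
  exact natDegree_mul_le.trans (Nat.add_le_add_left (h l) _)

theorem CoLe.of (P : K[X]) : D.CoLe (D.of P) P.natDegree := fun l => by
  rw [co_of]
  split_ifs <;> simp

end Vale.Agent.P319A.Crv
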