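import Vale.Agent.P319A.CurveA

/-!
The coordinate ring is a Dedekind domain.
-/

open Polynomial Finset

namespace Vale.Agent.P319A.Crv

variable {K : Type} [Field K] (D : Crv K)

/-- Eisenstein at `X - C (e 0)`, or Gauss and `X_pow_sub_C_irreducible_of_prime`. -/
theorem F_prime : Prime D.F := by
  let k : Fin D.n := ⟨0, D.q_pos.trans_le D.q_le_n⟩
  have hp : Prime (X - C (D.e k)) := prime_X_sub_C _
  have hd : X - C (D.e k) ∣ D.f := dvd_iff_isRoot.2 (D.f_eval k)
  have hP : (Ideal.span {X - C (D.e k)}).IsPrime := (Ideal.span_singleton_prime hp.ne_zero).2 hp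
  have h0 : D.F.coeff 0 = -D.f := by
    rw [F, coeff_sub, coeff_X_pow, coeff_C_zero, if_neg D.hq.ne_zero.symm, zero_sub]
  refine (irreducible_of_eisenstein_criterion hP ?_ ?_ ?_ ?_ D.F_monic.isPrimitive).prime
  · rw [D.F_monic.leadingCoeff]
    exact (Ideal.ne_top_iff_one _).1 hP.ne_top
  · intro m hm
    rw [cva_F_degree, Nat.cast_lt] at hm
    rcases eq_or_ne m 0 with rfl | h
    · rw [h0]
      exact neg_mem (Ideal.mem_span_singleton.2 hd)
    · rw [F, coeff_sub, coeff_X_pow, coeff_C, if_neg hm.ne, if_neg h, sub_zero]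
      exact zero_mem _
  · rw [cva_F_degree]
    exact_mod_cast D.q_pos
  · rw [h0, Ideal.span_singleton_pow, Ideal.mem_span_singleton, dvd_neg, sq]
    exact fun h => hp.not_isUnit (D.f_squarefree _ h)

instance : IsDomain D.O := AdjoinRoot.isDomain_of_prime D.F_prime

theorem of_ne {P : K[X]} (h : P ≠ 0) : D.of P ≠ 0 :=
  (map_ne_zero_iff _ D.of_injective).2 h

theorem y_ne : D.y ≠ 0 := fun h => D.of_ne D.f_monic.ne_zero (by
  rw [← y_pow, h, zero_pow D.hq.ne_zero])

theorem s_ne (j : ℕ) {b : D.O} (h : b ≠ 0) : D.s j b ≠ 0 :=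
  (map_ne_zero_iff _ (D.s_bijective j).1).2 h

theorem nrm_ne {b : D.O} (h : b ≠ 0) : D.nrm b ≠ 0 := fun h0 => by
  have h1 := D.of_nrm b
  rw [h0, map_zero] at h1
  exact Finset.prod_ne_zero_iff.2 (fun j _ => D.s_ne j h) h1.symm

theorem cvb_pow {f p z : K[X]} (hf : Squarefree f) (hp : Prime p) (k l : ℕ)
    (h : p ^ (k + l) ∣ f ^ l * z) : p ^ k ∣ z := by
  induction l with
  | zero => simpa using h
  | succ l ih =>
    rw [pow_succ' f, mul_assoc, ← add_assoc] at h
    exact ih (Squarefree.pow_dvd_of_squarefree_of_pow_succ_dvd_mul_right hf hp h)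

theorem cvb_dvd {f s c : K[X]} (hf : Squarefree f) (hs : s ≠ 0) {q l : ℕ} (hl : l < q)
    (h : s ^ q ∣ c ^ q * f ^ l) : s ∣ c := by
  obtain ⟨s', c', d, h1, rfl, rfl⟩ := UniqueFactorizationMonoid.exists_reduced_factors s hs c
  rw [mul_pow, mul_pow, mul_assoc,
    mul_dvd_mul_iff_left (pow_ne_zero _ (left_ne_zero_of_mul hs))] at h
  refine mul_dvd_mul_left _ (IsUnit.dvd (by_contra fun hu => ?_))
  obtain ⟨p, hp, hps⟩ := WfDvdMonoid.exists_irreducible_factor hu (right_ne_zero_of_mul hs)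
  obtain ⟨k, rfl⟩ := Nat.exists_eq_add_of_lt hl
  have h2 : p ^ (k + 1 + l) ∣ f ^ l * c' ^ (l + k + 1) := by
    rw [mul_comm, show k + 1 + l = l + k + 1 by ring]
    exact (pow_dvd_pow_of_dvd hps _).trans h
  have h3 := (dvd_pow_self p k.succ_ne_zero).trans (cvb_pow hf hp.prime _ _ h2)
  exact hp.not_isUnit (h1 hps (hp.prime.dvd_of_dvd_pow h3))

instance : Module.Finite K[X] D.O := D.F_monic.finite_adjoinRoot

theorem cvb_int {P s : K[X]} (hs : s ≠ 0) {x : FractionRing D.O} (hx : IsIntegral D.O x)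
    (h : algebraMap D.O _ (D.of s) * x = algebraMap D.O _ (D.of P)) : s ∣ P := by
  have hi : Function.Injective (Algebra.ofId K[X] (FractionRing D.O)) :=
    (IsFractionRing.injective D.O (FractionRing D.O)).comp D.of_injective
  let g : FractionRing K[X] →ₐ[K[X]] FractionRing D.O := IsFractionRing.liftAlgHom hi
  have hs' : algebraMap K[X] (FractionRing K[X]) s ≠ 0 :=
    (map_ne_zero_iff _ (IsFractionRing.injective _ _)).2 hs
  have hs'' : algebraMap D.O (FractionRing D.O) (D.of s) ≠ 0 :=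
    (map_ne_zero_iff _ (IsFractionRing.injective _ _)).2 (D.of_ne hs)
  have h1 : g (algebraMap K[X] _ P / algebraMap K[X] _ s) = x := by
    rw [map_div₀, g.commutes, g.commutes]
    exact (div_eq_iff hs'').2 (h.symm.trans (mul_comm _ _))
  have h2 : IsIntegral K[X] x := isIntegral_trans x hx
  rw [← h1, isIntegral_algHom_iff g g.injective] at h2
  obtain ⟨c, hc⟩ := IsIntegrallyClosed.isIntegral_iff.1 h2
  rw [eq_div_iff hs', ← map_mul] at hc
  exact Dvd.intro_left c (IsFractionRing.injective _ _ hc)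

theorem cvb_closed {x : FractionRing D.O} (hx : IsIntegral D.O x) :
    ∃ c, algebraMap D.O (FractionRing D.O) c = x := by
  have hi := IsFractionRing.injective D.O (FractionRing D.O)
  obtain ⟨a₀, b, hb, rfl⟩ := IsFractionRing.div_surjective (A := D.O) x
  have hb0 : b ≠ 0 := nonZeroDivisors.ne_zero hb
  set x := algebraMap D.O (FractionRing D.O) a₀ / algebraMap D.O _ b with hxd
  obtain ⟨a, s, hs, ha⟩ : ∃ a s, s ≠ 0 ∧
      algebraMap D.O _ (D.of s) * x = algebraMap D.O (FractionRing D.O) a := by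
    refine ⟨a₀ * ∏ j ∈ range (D.q - 1), D.s (j + 1) b, D.nrm b, D.nrm_ne hb0, ?_⟩
    have h1 := (map_ne_zero_iff _ hi).2 hb0
    rw [← mul_cof, hxd, map_mul, map_mul]
    field_simp
  have hs' := (map_ne_zero_iff _ hi).2 (D.of_ne hs)
  have h1 : ∀ j, ∃ z, IsIntegral D.O z ∧
      algebraMap D.O _ (D.of s) * z = algebraMap D.O (FractionRing D.O) (D.s j a) := fun j => by
    have hj : Function.Injective ((algebraMap D.O (FractionRing D.O)).comp (D.s j)) :=
      hi.comp (D.s_bijective j).1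
    let ψ : FractionRing D.O →+* FractionRing D.O := IsFractionRing.lift hj
    have hψ : ∀ c, ψ (algebraMap D.O _ c) = algebraMap D.O _ (D.s j c) := fun c =>
      IsFractionRing.lift_algebraMap hj c
    refine ⟨ψ x, hx.map_of_comp_eq (D.s j) ψ (RingHom.ext fun c => (hψ c).symm), ?_⟩
    rw [← hψ, ← ha, map_mul, hψ, s_of]
  choose z z1 z2 using h1
  have h2 : D.of s ∣ a := D.of_dvd_iff.2 fun l hl => by
    let w := ∑ j ∈ range D.q, algebraMap D.O _ (D.of (C (D.ζ⁻¹ ^ (j * l)))) * z j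
    have w1 : IsIntegral D.O w := IsIntegral.sum _ fun j _ => isIntegral_algebraMap.mul (z1 j)
    have w2 : algebraMap D.O _ (D.of s) * w =
        algebraMap D.O _ (D.of (C (D.q : K) * D.co l a) * D.y ^ l) := by
      rw [map_mul D.of, mul_assoc, D.dft a hl, map_sum, Finset.mul_sum]
      exact Finset.sum_congr rfl fun j _ => by rw [map_mul, ← z2, mul_left_comm]
    have w3 := D.cvb_int (P := (C (D.q : K) * D.co l a) ^ D.q * D.f ^ l) (pow_ne_zero D.q hs)
      (w1.pow D.q) (by
        rw [map_pow, map_pow, ← mul_pow, w2, ← map_pow, mul_pow, ← pow_mul, mul_comm l, pow_mul,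
          y_pow, map_mul D.of (_ ^ _), map_pow, map_pow])
    exact ((isUnit_C.2 D.q_ne.isUnit).dvd_mul_left).1 (cvb_dvd D.f_squarefree hs hl w3)
  obtain ⟨c, rfl⟩ := h2
  rw [map_mul] at ha
  exact ⟨c, (mul_left_cancel₀ hs' ha).symm⟩

/-- If `s ∣ a` fails but `a / s` is integral, take eigencomponents `co l a * y ^ l / s`
(`dft`), whose `q`-th powers `(co l a) ^ q f ^ l / s ^ q` are integral over `K[X]`, hence
polynomials; `f` squarefree and `l < q` give `s ∣ co l a`. -/
instance : IsIntegrallyClosed D.O :=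
  (isIntegrallyClosed_iff (FractionRing D.O)).2 D.cvb_closed

/-- Noetherian (finite over `K[X]`), dimension at most one (integral over `K[X]`). -/
instance : IsDedekindDomain D.O :=
  (isDedekindDomain_iff D.O (FractionRing D.O)).2 ⟨inferInstance, inferInstance,
    Ring.DimensionLEOne.of_isIntegral K[X] D.O, D.cvb_closed⟩

/-- Associated polynomials in `O` differ by a constant. -/
theorem of_span_eq {P Q : K[X]} (h : Ideal.span {D.of P} = Ideal.span {D.of Q}) :
    ∃ c : K, c ≠ 0 ∧ P = C c * Q := by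
  have h1 := Ideal.span_singleton_eq_span_singleton.1 h
  obtain ⟨u, hu⟩ := associated_of_dvd_dvd (D.of_dvd_of.1 h1.dvd') (D.of_dvd_of.1 h1.dvd)
  obtain ⟨c, hc, h2⟩ := Polynomial.isUnit_iff.1 u.isUnit
  exact ⟨c, hc.ne_zero, by rw [h2, ← hu, mul_comm]⟩

end Vale.Agent.P319A.Crv
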