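import Vale.Agent.P319A.LBasic

/-!
Duality at infinity: a vector of the lattice and a vector of the dual lattice with matching
leading terms.
-/

open Polynomial Finset LaurentSeries

namespace Vale.Agent.P319A

variable {K : Type} [Field K]

theorem dua_one (ψ : K⸨X⸩ →ₗ[K] K) (m : ℤ) (h : ∀ z, Dg z m → ψ z = 0) {Y : K⸨X⸩}
    (hY : Dg Y (-m - 2)) (hc : ∀ k, Y.coeff k = ψ (HahnSeries.single (1 - k) 1)) (z : K⸨X⸩) :
    ψ z = (z * Y).coeff 1 := by
  have h1 : ∀ N : ℕ, ∀ w, Dg w (m + N) → ψ w = (w * Y).coeff 1 := fun N => by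
    induction N with
    | zero =>
      intro w hw
      rw [h w (hw.mono (by simp)), hw.mul hY 1 (by push_cast; omega)]
    | succ N ih =>
      intro w hw
      have h2 : Dg (w - HahnSeries.single (-(m + (N + 1 : ℕ))) (w.coeff (-(m + (N + 1 : ℕ)))))
          (m + N) := by
        have h3 := (hw.sub ((Dg.single (-(m + (N + 1 : ℕ)))
          (w.coeff (-(m + (N + 1 : ℕ))))).mono (neg_neg _).le)).pred (by simp)
        exact h3.mono (by push_cast; omega)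
      have h3 := ih _ h2
      rw [map_sub, sub_mul, HahnSeries.coeff_sub, HahnSeries.coeff_single_mul, hc,
        sub_sub_cancel, ← smul_eq_mul (w.coeff _), ← map_smul, ← HahnSeries.C_mul_eq_smul,
        HahnSeries.C_apply, HahnSeries.single_mul_single, zero_add, mul_one] at h3
      exact sub_left_injective h3
  exact h1 (dg z - m).toNat z ((Dg_dg z).mono (by omega))

/-- A linear functional on `ι → K⸨X⸩` killing a tail is a residue pairing:
`(Y j).coeff k = φ (Pi.single j (single (1 - k) 1))`. -/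
theorem exists_pairing {ι : Type} [Fintype ι] [DecidableEq ι] (φ : (ι → K⸨X⸩) →ₗ[K] K)
    (m : ι → ℤ) (h : ∀ z : ι → K⸨X⸩, (∀ j, Dg (z j) (m j)) → φ z = 0) :
    ∃ Y : ι → K⸨X⸩, (∀ j, Dg (Y j) (-m j - 2)) ∧
      (∀ j k, (Y j).coeff k = φ (Pi.single j (HahnSeries.single (1 - k) 1))) ∧
      ∀ z, φ z = (∑ j, z j * Y j).coeff 1 := by
  have h1 : ∀ j w, Dg w (m j) → φ (Pi.single j w) = 0 := fun j w hw => h _ fun i => by
    rcases eq_or_ne i j with rfl | hij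
    · rwa [Pi.single_eq_same]
    · rw [Pi.single_eq_of_ne hij]; exact Dg.zero _
  have h2 : ∀ j k, k < m j + 2 → φ (Pi.single j (HahnSeries.single (1 - k) 1)) = 0 :=
    fun j k hk => h1 j _ ((Dg.single _ _).mono (by omega))
  let Y : ι → K⸨X⸩ := fun j => HahnSeries.ofSuppBddBelow
    (fun k => φ (Pi.single j (HahnSeries.single (1 - k) 1)))
    ⟨m j + 2, fun k hk => not_lt.1 fun h3 => hk (h2 j k h3)⟩
  have h3 : ∀ j, Dg (Y j) (-m j - 2) := fun j k hk => h2 j k (by omega)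
  refine ⟨Y, h3, fun j k => rfl, fun z => ?_⟩
  conv_lhs => rw [← Finset.univ_sum_single z, map_sum]
  rw [HahnSeries.coeff_sum]
  exact Finset.sum_congr rfl fun j _ =>
    dua_one (φ.comp (LinearMap.single K (fun _ => K⸨X⸩) j)) (m j) (h1 j) (h3 j) (fun _ => rfl) _

theorem dua_sep {V : Type} [AddCommGroup V] [Module K V] (W : Submodule K V) {x : V}
    (hx : x ∉ W) : ∃ f : V →ₗ[K] K, f x ≠ 0 ∧ W.map f = ⊥ :=
  W.exists_dual_map_eq_bot_of_notMem hx inferInstance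

namespace Crv

variable (D : Crv K)

/-- Weight at most `m`. -/
def Wt (κ : ℕ → ℤ) (m : ℤ) (α : D.L) : Prop := ∀ j < D.q, Dg (D.ιL j α) (m - κ j)

/-- Weight at most `m`, attained only at the first point at infinity. -/
def Wt' (κ : ℕ → ℤ) (m : ℤ) (α : D.L) : Prop :=
  ∀ j < D.q, Dg (D.ιL j α) (m - κ j - if j = 0 then 0 else 1)

/-- Elements with a common denominator and very negative weight vanish. -/
theorem exists_wt_zero (κ : ℕ → ℤ) {s : K[X]} (hs : s ≠ 0) : ∃ m₀ : ℤ, ∀ α : D.L,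
    (∃ o, D.am (D.of s) * α = D.am o) → D.Wt κ m₀ α → α = 0 := by
  refine ⟨-(s.natDegree : ℤ) - 1 - ∑ j ∈ range D.q, |κ j|, ?_⟩
  rintro α ⟨o, ho⟩ h
  have h1 : o = 0 := D.eq_zero_of_Dg fun j hj => by
    rw [← ιL_am, ← ho, map_mul, ιL_am, ι_of]
    refine ((Dg_xi s).mul (h j hj)).mono ?_
    have h2 := Finset.single_le_sum (f := fun j => |κ j|) (fun i _ => abs_nonneg (κ i))
      (Finset.mem_range.2 hj)
    have h3 := neg_abs_le (κ j)
    omega
  rw [h1, map_zero] at ho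
  exact (mul_eq_zero.1 ho).resolve_left (D.am_ne (D.of_ne hs))

theorem dua_yj (j : ℕ) : D.yj j = HahnSeries.C (D.ζ ^ j) * D.yj 0 := by
  rw [yj, yj, pow_zero, map_one (HahnSeries.C : K →+* K⸨X⸩), one_mul]

theorem dua_yj_ne : D.yj 0 ≠ 0 := by
  rw [← ι_y]; exact D.ι_ne 0 D.y_ne

theorem dua_inv (Y : Fin D.q → K⸨X⸩) (P : ℕ → K[X])
    (hP : ∀ l, xi (P l) = ∑ i : Fin D.q, D.yj i ^ l * Y i) (j : Fin D.q) :
    ∑ l ∈ range D.q, xi (P l) * (D.yj j)⁻¹ ^ l = HahnSeries.C (D.q : K) * Y j := by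
  simp only [hP, Finset.sum_mul]
  rw [Finset.sum_comm]
  have h1 : ∀ i : Fin D.q, ∑ l ∈ range D.q, D.yj i ^ l * Y i * (D.yj j)⁻¹ ^ l =
      if i = j then HahnSeries.C (D.q : K) * Y j else 0 := fun i => by
    have h2 : ∀ l, D.yj i ^ l * Y i * (D.yj j)⁻¹ ^ l =
        HahnSeries.C (D.ζ⁻¹ ^ (l * (j : ℕ)) * D.ζ ^ (l * (i : ℕ))) * Y i := fun l => by
      have h3 := D.dua_yj_ne
      rw [D.dua_yj i, D.dua_yj j, mul_inv, ← map_inv₀, mul_pow, mul_pow, ← map_pow, ← map_pow,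
        ← inv_pow, ← pow_mul, ← pow_mul, mul_comm (i : ℕ), mul_comm (j : ℕ), map_mul, inv_pow
        (D.yj 0)]
      field_simp
    simp only [h2, ← Finset.sum_mul, ← map_sum, D.sum_ζ_inv i.2 j.2, Fin.val_inj]
    split_ifs with h
    · rw [h]
    · rw [map_zero, zero_mul]
  simp only [h1, Finset.sum_ite_eq', Finset.mem_univ, if_true]

theorem dua_C (j : ℕ) (c : K) : D.ιL j (D.am (D.of (C c))) = HahnSeries.C c := by
  rw [ιL_am, ι_of, xi_C]

/-- If no vector of `M` has leading term `e₀` at level `m`, a dual vector exists at level `m + 1`;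
it is `β = (1 / q) ∑ l, P l * y⁻¹ ^ l` where `xi (P l) = ∑ j, ι j (y ^ l) * Y j`. -/
theorem dual_of_not (M : Submodule D.O D.L) (h1 : (1 : D.L) ∈ M) (κ : ℕ → ℤ) (m : ℤ)
    (h : ¬ ∃ α ∈ M, D.Wt' κ m α ∧ (D.ιL 0 α).coeff (-(m - κ 0)) = 1) :
    ∃ β : D.L, (∀ x ∈ M, ∃ P, D.tr (x * β) = D.am (D.of P)) ∧
      (∃ o, D.am (D.of D.f) * β = D.am o) ∧ (∀ j < D.q, Dg (D.ιL j β) (κ j - (m + 1))) ∧
      (D.ιL 0 β).coeff (-(κ 0 - (m + 1))) = 1 := by
  have hmul : ∀ (b : D.O), ∀ x ∈ M, D.am b * x ∈ M := fun b x hx => by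
    rw [← smul_L]; exact M.smul_mem b hx
  let z0 : Fin D.q := ⟨0, D.q_pos⟩
  let W : Submodule K (Fin D.q → K⸨X⸩) :=
    { carrier := {z | ∃ α ∈ M, ∀ j : Fin D.q, Dg (z j - D.ιL j α) (m - κ j - 1)}
      add_mem' := by
        rintro z w ⟨α, hα, hz⟩ ⟨β, hβ, hw⟩
        refine ⟨α + β, M.add_mem hα hβ, fun j => ?_⟩
        rw [map_add, Pi.add_apply, add_sub_add_comm]
        exact (hz j).add (hw j)
      zero_mem' := ⟨0, M.zero_mem, fun j => by simpa using Dg.zero _⟩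
      smul_mem' := by
        rintro c z ⟨α, hα, hz⟩
        refine ⟨D.am (D.of (C c)) * α, hmul _ _ hα, fun j => ?_⟩
        rw [map_mul, dua_C, Pi.smul_apply, ← HahnSeries.C_mul_eq_smul, ← mul_sub]
        exact (hz j).C_mul c }
  have he : (Pi.single z0 (HahnSeries.single (-(m - κ 0)) 1) : Fin D.q → K⸨X⸩) ∉ W := by
    rintro ⟨α, hα, hz⟩
    have h0 := hz z0
    rw [Pi.single_eq_same] at h0
    refine h ⟨α, hα, fun j hj => ?_, ?_⟩
    · split_ifs with hj0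
      · subst hj0
        have h2 := ((Dg.single (-(m - κ 0)) (1 : K)).mono (neg_neg _).le).sub
          (h0.mono (sub_one_lt _).le)
        rw [sub_sub_cancel] at h2
        exact h2.mono (sub_zero _).ge
      · have h2 := (hz ⟨j, hj⟩).neg
        rw [Pi.single_eq_of_ne (fun h3 => hj0 (congrArg Fin.val h3)), zero_sub, neg_neg] at h2
        exact h2
    · have h2 := h0 (-(m - κ 0)) (by simp only [z0]; omega)
      rw [HahnSeries.coeff_sub, HahnSeries.coeff_single_same, sub_eq_zero] at h2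
      exact h2.symm
  obtain ⟨φ₀, hφ₀, hW⟩ := dua_sep W he
  let φ := (φ₀ (Pi.single z0 (HahnSeries.single (-(m - κ 0)) 1)))⁻¹ • φ₀
  have hφW : ∀ z ∈ W, φ z = 0 := fun z hz => by
    have h2 : φ₀ z ∈ W.map φ₀ := Submodule.mem_map_of_mem hz
    rw [hW, Submodule.mem_bot] at h2
    simp [φ, h2]
  obtain ⟨Y, hY, hYc, hYφ⟩ := exists_pairing φ (fun j : Fin D.q => m - κ j - 1)
    fun z hz => hφW z ⟨0, M.zero_mem, fun j => by simpa using hz j⟩
  have hx : ∀ x ∈ M, ∃ P, xi P = ∑ j : Fin D.q, D.ιL j x * Y j := fun x hx =>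
    exists_xi fun k hk => by
      obtain ⟨a, rfl⟩ : ∃ a : ℕ, k = 1 - -(a : ℤ) := ⟨(k - 1).toNat, by omega⟩
      have h2 := hφW (fun j => D.ιL j (D.am (D.of (X ^ a)) * x))
        ⟨_, hmul (D.of (X ^ a)) _ hx, fun j => by rw [sub_self]; exact Dg.zero _⟩
      rw [hYφ] at h2
      simp only [map_mul (D.ιL _), ιL_am, ι_of, xi_X_pow, mul_assoc, ← Finset.mul_sum,
        HahnSeries.coeff_single_mul, one_mul] at h2
      exact h2
  have hy : ∀ l : ℕ, ∃ P, xi P = ∑ j : Fin D.q, D.yj j ^ l * Y j := fun l => by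
    have h2 := hx _ (hmul (D.y ^ l) 1 h1)
    simpa only [mul_one, ιL_am, map_pow (D.ι _), ι_y] using h2
  choose P hP using hy
  let β : D.L := D.am (D.of (C (D.q : K)⁻¹)) *
    ∑ l ∈ range D.q, D.am (D.of (P l)) * (D.am D.y)⁻¹ ^ l
  have hβ : ∀ j : Fin D.q, D.ιL j β = Y j := fun j => by
    simp only [β, map_mul (D.ιL _), map_sum, map_pow (D.ιL _), map_inv₀ (D.ιL _), ιL_am,
      ι_of, ι_y, xi_C]
    rw [D.dua_inv Y P hP j, ← mul_assoc, ← map_mul, inv_mul_cancel₀ D.q_ne, map_one, one_mul]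
  refine ⟨β, fun x hx' => ?_, ⟨D.of (C (D.q : K)⁻¹) *
    ∑ l ∈ range D.q, D.of (P l) * D.y ^ (D.q - l), ?_⟩, fun j hj => ?_, ?_⟩
  · obtain ⟨Q, hQ⟩ := hx x hx'
    refine ⟨Q, (D.ιL 0).injective ?_⟩
    rw [ιL_am, ι_of, hQ, tr, map_sum, Finset.sum_range]
    exact Finset.sum_congr rfl fun j _ => by rw [ιL_sL, zero_add, map_mul, hβ]
  · rw [mul_left_comm, map_mul, map_sum, Finset.mul_sum]
    congr 1
    refine Finset.sum_congr rfl fun l hl => ?_
    obtain ⟨k, hk⟩ := Nat.exists_eq_add_of_le (Finset.mem_range.1 hl).le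
    have h2 := D.am_ne D.y_ne
    rw [← y_pow, hk, Nat.add_sub_cancel_left, map_mul, map_pow, map_pow, pow_add, inv_pow]
    field_simp
  · rw [hβ ⟨j, hj⟩]
    exact (hY ⟨j, hj⟩).mono (by simp only; omega)
  · rw [hβ z0, hYc, show 1 - -(κ 0 - (m + 1)) = -(m - κ 0) by ring]
    simp only [φ, LinearMap.smul_apply, smul_eq_mul]
    exact inv_mul_cancel₀ hφ₀

theorem exists_dual (M : Submodule D.O D.L) (h1 : (1 : D.L) ∈ M) {s : K[X]} (hs : s ≠ 0)
    (hden : ∀ m ∈ M, ∃ o, D.am (D.of s) * m = D.am o) (κ : ℕ → ℤ) :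
    ∃ (m : ℤ) (α β : D.L), α ∈ M ∧ D.Wt' κ m α ∧ (D.ιL 0 α).coeff (-(m - κ 0)) = 1 ∧
      (∀ x ∈ M, ∃ P, D.tr (x * β) = D.am (D.of P)) ∧ (∀ j < D.q, Dg (D.ιL j β) (κ j - m)) ∧
      (D.ιL 0 β).coeff (-(κ 0 - m)) = 1 := by
  obtain ⟨m₀, h₀⟩ := D.exists_wt_zero κ hs
  obtain ⟨m₁, h₁⟩ := D.exists_wt_zero (fun j => -κ j) D.f_monic.ne_zero
  obtain ⟨m, ⟨α, hα, hw, hc⟩, hm⟩ := Int.exists_least_of_bdd
    (P := fun m => ∃ α ∈ M, D.Wt' κ m α ∧ (D.ιL 0 α).coeff (-(m - κ 0)) = 1)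
    ⟨m₀, by
      rintro m ⟨α, hα, hw, hc⟩
      by_contra h2
      rw [h₀ α (hden α hα) fun j hj => (hw j hj).mono (by split_ifs <;> omega)] at hc
      simp at hc⟩
    ⟨-m₁ - 1, by
      by_contra h2
      obtain ⟨β, -, h3, h4, h5⟩ := D.dual_of_not M h1 κ _ h2
      rw [h₁ β h3 fun j hj => (h4 j hj).mono (by simp only; omega)] at h5
      simp at h5⟩
  obtain ⟨β, h2, -, h4, h5⟩ := D.dual_of_not M h1 κ (m - 1) fun h3 => by
    have := hm _ h3
    omega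
  rw [sub_add_cancel] at h4 h5
  exact ⟨m, α, β, hα, hw, hc, h2, h4, h5⟩

end Crv

end Vale.Agent.P319A
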