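import Vale.Agent.P319A.Inf

/-!
Products of conjugate ideals, invariant ideals and the part prime to `f`.
-/

open Polynomial Finset

namespace Vale.Agent.P319A.Crv

variable {K : Type} [Field K] (D : Crv K)

theorem ide_map_prod {ι : Type} (g : D.O →+* D.O) (t : Finset ι) (I : ι → Ideal D.O) :
    (∏ a ∈ t, I a).map g = ∏ a ∈ t, (I a).map g := map_prod (Ideal.mapHom g) I t

theorem ide_map_map (I : Ideal D.O) (i j : ℕ) :
    (I.map (D.s j)).map (D.s i) = I.map (D.s (i + j)) := by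
  rw [Ideal.map_map]
  congr 1
  exact RingHom.ext (D.s_s i j)

theorem ide_map_zero (I : Ideal D.O) : I.map (D.s 0) = I := by
  rw [show D.s 0 = RingHom.id _ from RingHom.ext D.s_zero, Ideal.map_id]

theorem ide_map_q (I : Ideal D.O) : I.map (D.s D.q) = I := by
  rw [show D.s D.q = RingHom.id _ from RingHom.ext D.s_q, Ideal.map_id]

theorem ide_map_span (g : D.O →+* D.O) (b : D.O) :
    (Ideal.span {b}).map g = Ideal.span {g b} := by
  rw [Ideal.map_span, Set.image_singleton]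

theorem Ii_zero (I : Ideal D.O) : D.Ii I 0 = ⊤ := by
  rw [Ii, Finset.prod_range_zero, Ideal.one_eq_top]

theorem Ii_succ (I : Ideal D.O) (i : ℕ) : D.Ii I (i + 1) = I * (D.Ii I i).map (D.s 1) := by
  rw [Ii, Ii, Finset.prod_range_succ', ide_map_zero, ide_map_prod, mul_comm]
  simp only [ide_map_map, add_comm 1]

theorem Ii_add (I : Ideal D.O) (i j : ℕ) :
    D.Ii I (i + j) = D.Ii I i * (D.Ii I j).map (D.s i) := by
  rw [Ii, Ii, Ii, Finset.prod_range_add, ide_map_prod]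
  simp only [ide_map_map]

theorem Ii_anti (I : Ideal D.O) {i j : ℕ} (h : i ≤ j) : D.Ii I j ≤ D.Ii I i := by
  obtain ⟨k, rfl⟩ := Nat.exists_eq_add_of_le h
  rw [Ii_add]
  exact Ideal.mul_le_left

theorem Ii_q_le (I : Ideal D.O) : D.Ii I D.q ≤ I := by
  refine (D.Ii_anti I D.q_pos).trans ?_
  rw [Ii_succ]
  exact Ideal.mul_le_left

theorem Ii_mono {I J : Ideal D.O} (h : I ≤ J) (i : ℕ) : D.Ii I i ≤ D.Ii J i := by
  induction i with
  | zero => rw [Ii_zero, Ii_zero]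
  | succ i ih =>
    rw [Ii_succ, Ii_succ]
    exact Ideal.mul_mono h (Ideal.map_mono ih)

theorem Ii_mul (I J : Ideal D.O) (i : ℕ) : D.Ii (I * J) i = D.Ii I i * D.Ii J i := by
  simp only [Ii, Ideal.map_mul, Finset.prod_mul_distrib]

theorem Ii_prod {ι : Type} (t : Finset ι) (I : ι → Ideal D.O) (i : ℕ) :
    D.Ii (∏ a ∈ t, I a) i = ∏ a ∈ t, D.Ii (I a) i := by
  simp only [Ii, ide_map_prod]
  exact Finset.prod_comm

theorem Ii_span (b : D.O) : D.Ii (Ideal.span {b}) D.q = Ideal.span {D.of (D.nrm b)} := by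
  simp only [Ii, ide_map_span, Ideal.prod_span_singleton, of_nrm]

theorem map_Ii_q (I : Ideal D.O) : (D.Ii I D.q).map (D.s 1) = D.Ii I D.q := by
  have h := Nat.sub_add_cancel D.q_pos
  conv_rhs => rw [← h, Ii_succ]
  conv_lhs => rw [← h, Ii, Finset.prod_range_succ, Ideal.map_mul, ide_map_map, add_comm 1, h,
    ide_map_q, mul_comm]
  rfl

theorem Ii_map (I : Ideal D.O) : D.Ii (I.map (D.s 1)) D.q = D.Ii I D.q := by
  rw [← D.map_Ii_q I, Ii, Ii, ide_map_prod]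
  simp only [ide_map_map, add_comm 1]

theorem nrm_mem {I : Ideal D.O} {b : D.O} (h : b ∈ I) : D.of (D.nrm b) ∈ D.Ii I D.q := by
  rw [of_nrm]
  exact Ideal.prod_mem_prod fun j _ => Ideal.mem_map_of_mem _ h

variable {D}

theorem Nm.mem {I : Ideal D.O} {u : K[X]} (h : D.Nm I u) {i : ℕ} (hi : i ≤ D.q) :
    D.of u ∈ D.Ii I i :=
  D.Ii_anti I hi (h.norm ▸ Ideal.mem_span_singleton_self _)

theorem Nm.mem_self {I : Ideal D.O} {u : K[X]} (h : D.Nm I u) : D.of u ∈ I :=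
  D.Ii_q_le I (h.mem le_rfl)

theorem Nm.ne_bot {I : Ideal D.O} {u : K[X]} (h : D.Nm I u) : I ≠ ⊥ := fun h0 =>
  D.of_ne h.monic.ne_zero (by simpa [h0] using h.mem_self)

theorem Nm.prod {ι : Type} (t : Finset ι) {I : ι → Ideal D.O} {u : ι → K[X]}
    (h : ∀ a ∈ t, D.Nm (I a) (u a)) : D.Nm (∏ a ∈ t, I a) (∏ a ∈ t, u a) :=
  ⟨monic_prod_of_monic _ _ fun a ha => (h a ha).monic, IsCoprime.prod_left fun a ha => (h a ha).cop,
    by rw [Ii_prod, Finset.prod_congr rfl fun a ha => (h a ha).norm, Ideal.prod_span_singleton,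
      map_prod]⟩

theorem Rel.prod {ι : Type} (t : Finset ι) {I I' : ι → Ideal D.O} {a b : ι → D.O}
    (h : ∀ i ∈ t, D.Rel (I i) (I' i) (a i) (b i)) :
    D.Rel (∏ i ∈ t, I i) (∏ i ∈ t, I' i) (∏ i ∈ t, a i) (∏ i ∈ t, b i) := by
  simp only [Rel, ide_map_prod, ← Ideal.prod_span_singleton, ← Finset.prod_mul_distrib]
  exact Finset.prod_congr rfl h

theorem ide_unit {A : Ideal D.O} {b : D.O} {c : K} (hc : c ≠ 0) (h : D.of (C c) * b ∈ A) :
    b ∈ A := (A.unit_mul_mem_iff_mem ((isUnit_C.2 hc.isUnit).map D.of)).1 h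

theorem ide_cop {A : Ideal D.O} {s P : K[X]} (hs : IsCoprime s P) {b : D.O}
    (h : D.of s * b ∈ A) (h' : D.of P * b ∈ A) : b ∈ A := by
  obtain ⟨u, v, huv⟩ := hs.map D.of
  have h1 := A.add_mem (A.mul_mem_left u h) (A.mul_mem_left v h')
  rwa [← mul_assoc, ← mul_assoc, ← add_mul, huv, one_mul] at h1

theorem ide_cop_ne {s : K[X]} (hs : IsCoprime s D.f) : s ≠ 0 := by
  rintro rfl
  exact D.cop_iff.1 hs ⟨0, D.q_pos.trans_le D.q_le_n⟩ eval_zero

/-- An invariant ideal prime to `f` is generated by a polynomial: it is graded (`dft`), and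
`co l a * y ^ l ∈ A` gives `co l a * f ∈ A`, hence `co l a ∈ A`. -/
theorem inv_cop {A : Ideal D.O} (hA : A.map (D.s 1) = A) {s : K[X]} (hs : IsCoprime s D.f)
    (hsA : D.of s ∈ A) : ∃ t : K[X], t.Monic ∧ IsCoprime t D.f ∧ A = Ideal.span {D.of t} := by
  classical
  have h1 : ∀ j, ∀ a ∈ A, D.s j a ∈ A := fun j => by
    induction j with
    | zero => simp
    | succ j ih =>
      intro a ha
      rw [add_comm, ← s_s, ← hA]
      exact Ideal.mem_map_of_mem _ (ih a ha)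
  have h2 : ∀ a ∈ A, ∀ l < D.q, D.of (D.co l a) ∈ A := fun a ha l hl => by
    have h3 : D.of (D.co l a) * D.y ^ l ∈ A := ide_unit D.q_ne (by
      rw [D.dft a hl]
      exact A.sum_mem fun j _ => A.mul_mem_left _ (h1 j a ha))
    have h4 := A.mul_mem_right (D.y ^ (D.q - l)) h3
    rw [mul_assoc, ← pow_add, Nat.add_sub_cancel' hl.le, y_pow, mul_comm] at h4
    exact ide_cop hs (A.mul_mem_right _ hsA) h4
  obtain ⟨g, hg⟩ := (IsPrincipalIdealRing.principal (A.comap D.of)).principal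
  have h3 : ∀ P, D.of P ∈ A ↔ normalize g ∣ P := fun P => by
    rw [normalize_dvd_iff, ← Ideal.mem_span_singleton, ← Ideal.mem_comap, hg]
  have h4 : g ≠ 0 := by
    rintro rfl
    exact ide_cop_ne hs (by simpa using (h3 s).1 hsA)
  refine ⟨normalize g, monic_normalize h4, hs.of_isCoprime_of_dvd_left ((h3 s).1 hsA),
    le_antisymm (fun a ha => ?_) ?_⟩
  · exact Ideal.mem_span_singleton.2 (D.of_dvd_iff.2 fun l hl => (h3 _).1 (h2 a ha l hl))
  · exact (Ideal.span_singleton_le_iff_mem _).2 ((h3 _).2 dvd_rfl)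

theorem ide_max (k : Fin D.n) : (RingHom.ker (D.ev k)).IsMaximal :=
  RingHom.ker_isMaximal_of_surjective _ fun c => ⟨D.of (C c), by simp⟩

theorem ide_mem {A : Ideal D.O} (hy : D.y ∈ A) {b : D.O} (h : D.of (D.co 0 b) ∈ A) : b ∈ A := by
  rw [← D.sum_co b]
  refine A.sum_mem fun l _ => ?_
  rcases l with _ | l
  · exact A.mul_mem_right _ h
  · exact A.mul_mem_left _ (A.pow_mem_of_mem hy _ l.succ_pos)

theorem ide_prime {p : Ideal D.O} (hp : p.IsPrime) {N : ℕ} (h : D.of D.f ^ N ∈ p) :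
    ∃ k, p = RingHom.ker (D.ev k) := by
  have h1 := hp.mem_of_pow_mem N h
  have h2 : D.y ∈ p := hp.mem_of_pow_mem D.q (D.y_pow ▸ h1)
  rw [f, map_prod] at h1
  obtain ⟨k, -, hk⟩ := Ideal.IsPrime.prod_mem_iff.1 h1
  refine ⟨k, ((ide_max k).eq_of_le hp.ne_top fun b hb => ide_mem h2 ?_).symm⟩
  rw [RingHom.mem_ker, ev_eq] at hb
  exact p.mem_of_dvd (map_dvd D.of (dvd_iff_isRoot.2 hb)) hk

/-- An ideal containing a power of `f` is a product of the kernels of the `ev k`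
(induction on prime factors; a prime containing `f` contains `y` and some `x - e k`). -/
theorem map_eq_of_pow_mem (τ : D.O ≃+* D.O) (hτ : ∀ k b, D.ev k (τ b) = 0 ↔ D.ev k b = 0)
    {A : Ideal D.O} {N : ℕ} (hA : D.of D.f ^ N ∈ A) : A.map τ = A := by
  induction A using UniqueFactorizationMonoid.induction_on_prime with
  | h₁ => exact Ideal.map_bot
  | h₂ A h => rw [Ideal.isUnit_iff.1 h, Ideal.map_top]
  | h₃ A p _ hp ih =>
    rw [Ideal.map_mul, ih (Ideal.mul_le_right hA)]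
    obtain ⟨k, rfl⟩ := ide_prime (Ideal.isPrime_of_prime hp) (Ideal.mul_le_left hA)
    congr 1
    ext b
    rw [← Ideal.symm_apply_mem_of_equiv_iff, RingHom.mem_ker, RingHom.mem_ker, ← hτ,
      τ.apply_symm_apply]

theorem le_sat (A : Ideal D.O) : A ≤ D.sat A := fun _ h => ⟨0, by simpa using h⟩

theorem sat_map (τ : D.O ≃+* D.O) (hτ : τ (D.of D.f) = D.of D.f) (A : Ideal D.O) :
    (D.sat A).map τ = D.sat (A.map τ) := by
  ext b
  rw [← Ideal.symm_apply_mem_of_equiv_iff]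
  refine exists_congr fun N => ?_
  rw [← Ideal.symm_apply_mem_of_equiv_iff, map_mul, map_pow, τ.symm_apply_eq.2 hτ.symm]

theorem ide_split (N : ℕ) : ∀ ν : K[X], ν ≠ 0 → ν.natDegree = N →
    ∃ ν₁ ν₂, ν = ν₁ * ν₂ ∧ IsCoprime ν₁ D.f ∧ ν₂ ∣ D.f ^ N := by
  induction N using Nat.strong_induction_on with
  | _ N ih =>
    intro ν hν hN
    by_cases h : IsCoprime ν D.f
    · exact ⟨ν, 1, (mul_one _).symm, h, one_dvd _⟩
    · rw [cop_iff] at h
      push Not at h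
      obtain ⟨k, hk⟩ := h
      obtain ⟨μ, rfl⟩ := dvd_iff_isRoot.2 hk
      have h1 := right_ne_zero_of_mul hν
      rw [natDegree_mul (X_sub_C_ne_zero _) h1, natDegree_X_sub_C] at hN
      obtain ⟨ν₁, ν₂, rfl, h2, h3⟩ := ih _ (by omega) μ h1 rfl
      refine ⟨ν₁, (X - C (D.e k)) * ν₂, by ring, h2, ?_⟩
      rw [← hN, pow_add, pow_one]
      exact mul_dvd_mul (dvd_iff_isRoot.2 (D.f_eval k)) h3

theorem ide_sat_eq {A : Ideal D.O} {s : K[X]} (hs : IsCoprime s D.f) (h : D.of s ∈ D.sat A) :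
    D.sat A = A ⊔ Ideal.span {D.of s} := by
  refine le_antisymm ?_ (sup_le (le_sat A) ((Ideal.span_singleton_le_iff_mem _).2 h))
  rintro b ⟨N, hb⟩
  refine ide_cop (hs.pow_right (n := N)) (Ideal.mem_sup_right ?_) (Ideal.mem_sup_left ?_)
  · exact Ideal.mem_span_singleton.2 (dvd_mul_right _ _)
  · rwa [map_pow]

/-- Write `ν = ν₁ ν₂` with `ν₁` prime to `f` and `ν₂ ∣ f ^ deg ν`; then `sat A = A ⊔ (ν₁)` and
`W = A ⊔ (ν₂)`. -/
theorem sat_factor {A : Ideal D.O} {ν : K[X]} (hν : ν ≠ 0) (h : D.of ν ∈ A) :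
    ∃ W : Ideal D.O, A = D.sat A * W ∧ D.of D.f ^ ν.natDegree ∈ W ∧
      ∃ s : K[X], IsCoprime s D.f ∧ D.of s ∈ D.sat A := by
  obtain ⟨ν₁, ν₂, h1, h2, h3⟩ := ide_split (D := D) _ ν hν rfl
  have h4 : D.of ν₁ ∈ D.sat A := ⟨ν.natDegree, by
    rw [← map_pow, ← map_mul]
    refine A.mem_of_dvd (map_dvd D.of ?_) h
    rw [mul_comm]
    exact h1.dvd.trans (mul_dvd_mul_left ν₁ h3)⟩
  have h5 : D.of ν₂ ∈ A ⊔ Ideal.span {D.of ν₂} :=
    Ideal.mem_sup_right (Ideal.mem_span_singleton_self _)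
  refine ⟨A ⊔ Ideal.span {D.of ν₂}, le_antisymm (fun b hb => ?_) ?_, ?_, ν₁, h2, h4⟩
  · refine ide_cop ((h2.pow_right).of_isCoprime_of_dvd_right h3)
      (Ideal.mul_mem_mul h4 (Ideal.mem_sup_left hb)) ?_
    rw [mul_comm (D.of ν₂)]
    exact Ideal.mul_mem_mul (le_sat A hb) h5
  · rw [ide_sat_eq h2 h4, Ideal.sup_mul, Ideal.mul_sup (Ideal.span _),
      Ideal.span_singleton_mul_span_singleton, ← map_mul, ← h1]
    exact sup_le Ideal.mul_le_left
      (sup_le Ideal.mul_le_right ((Ideal.span_singleton_le_iff_mem _).2 h))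
  · rw [← map_pow]
    exact Ideal.mem_of_dvd _ (map_dvd D.of h3) h5

/-- The norm of the part prime to `f` and its characterisation. -/
theorem post_spec {A : Ideal D.O} {ν : K[X]} (hν : ν ≠ 0) (h : D.of ν ∈ D.Ii A D.q) :
    ∃ t : K[X], D.Nm (D.sat A) t ∧ t ∣ ν ∧ D.sat A = A ⊔ Ideal.span {D.of t} ∧
      ∀ s : K[X], D.of (s * D.f ^ (D.q * ν.natDegree)) ∈ D.Ii A D.q ↔ t ∣ s := by
  obtain ⟨W, h1, h2, s, h3, h4⟩ := sat_factor hν (D.Ii_q_le A h)
  have h5 := D.nrm_mem h4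
  rw [nrm_of] at h5
  obtain ⟨t, t1, t2, t3⟩ := inv_cop (D.map_Ii_q (D.sat A)) h3.pow_left h5
  have h6 : ∀ P, D.of P ∈ D.Ii A D.q → t ∣ P := fun P hP =>
    D.of_dvd_of.1 (Ideal.mem_span_singleton.1 (t3 ▸ D.Ii_mono (le_sat A) _ hP))
  have h7 : D.Nm (D.sat A) t := ⟨t1, t2, t3⟩
  refine ⟨t, h7, h6 ν h, ide_sat_eq t2 h7.mem_self, fun s' => ⟨fun h8 => ?_, fun h8 => ?_⟩⟩
  · exact t2.pow_right.dvd_of_dvd_mul_right (h6 _ h8)
  · have h9 := D.nrm_mem h2
    rw [← map_pow, nrm_of, ← pow_mul, mul_comm] at h9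
    rw [h1, Ii_mul, map_mul, t3]
    exact Ideal.mul_mem_mul (Ideal.mem_span_singleton.2 (map_dvd D.of h8)) h9

theorem rel_sat {I A : Ideal D.O} {a β : D.O} {t : K[X]} (h : D.Rel I A a β) (hβ : β ∈ A)
    (hβ0 : β ≠ 0) (ht : D.Nm (D.sat A) t) :
    ∃ gh : D.O, gh * β = D.of t * a ∧ D.Rel I (D.sat A) gh (D.of t) := by
  obtain ⟨W, h1, h2, -⟩ := sat_factor (D.nrm_ne hβ0) (D.Ii_q_le A (D.nrm_mem hβ))
  have h3 : W.map (D.s 1) = W :=
    map_eq_of_pow_mem D.σ (fun k b => by rw [σ_apply, ev_s]) h2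
  have h4 : W ≠ 0 := by
    rintro rfl
    exact pow_ne_zero _ (D.of_ne D.f_monic.ne_zero) (Ideal.mem_bot.1 h2)
  have h5 := ht.norm
  rw [Rel, h1] at h
  generalize D.sat A = S at h h5 ⊢
  rw [Ideal.map_mul, h3, ← mul_assoc I, ← mul_assoc, ← mul_assoc (Ideal.span {a})] at h
  replace h := mul_right_cancel₀ h4 h
  rw [← Nat.sub_add_cancel D.q_pos, Ii_succ] at h5
  have h6 : a * D.of t ∈ Ideal.span {β} := by
    rw [← Ideal.span_singleton_le_iff_mem, ← Ideal.span_singleton_mul_span_singleton, ← h5,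
      ← mul_assoc, ← h, mul_assoc]
    exact Ideal.mul_le_left
  obtain ⟨gh, hg⟩ := Ideal.mem_span_singleton'.1 h6
  refine ⟨gh, hg.trans (mul_comm _ _), mul_left_cancel₀
    ((Ideal.span_singleton_eq_bot.not.2 hβ0 : Ideal.span {β} ≠ ⊥)) ?_⟩
  rw [mul_left_comm, h, ← mul_assoc, ← mul_assoc, Ideal.span_singleton_mul_span_singleton,
    Ideal.span_singleton_mul_span_singleton, mul_comm β, hg, mul_comm a]

theorem ide_ker_ne {i k : Fin D.n} (h : RingHom.ker (D.ev k) ≤ RingHom.ker (D.ev i)) : k = i := by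
  have h1 : D.of (X - C (D.e k)) ∈ RingHom.ker (D.ev i) := h (by simp [RingHom.mem_ker])
  rw [RingHom.mem_ker, ev_of, eval_sub, eval_X, eval_C, sub_eq_zero] at h1
  exact (D.he h1).symm

theorem ide_prod_ker : ∏ k, RingHom.ker (D.ev k) = Ideal.span {D.y} := by
  rw [Ideal.prod_eq_iInf_of_pairwise_isCoprime fun i _ k _ hik => Ideal.isCoprime_iff_sup_eq.2
    ((ide_max i).coprime_of_ne (ide_max k) fun h => hik (ide_ker_ne h.le))]
  refine le_antisymm (fun b hb => ide_mem (Ideal.mem_span_singleton_self _) ?_) ?_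
  · simp only [Ideal.mem_iInf, RingHom.mem_ker, ev_eq, Finset.mem_univ, true_imp_iff] at hb
    refine Ideal.mem_span_singleton.2 (Dvd.dvd.trans ?_ (map_dvd D.of (D.f_dvd_iff.2 hb)))
    rw [← y_pow]
    exact dvd_pow_self _ D.hq.ne_zero
  · simp [RingHom.mem_ker]

theorem ide_y_not_mem (i : Fin D.n) : D.y ∉ RingHom.ker (D.ev i) * RingHom.ker (D.ev i) := by
  classical
  intro h
  have hp := (ide_max i).isPrime
  have h0 : RingHom.ker (D.ev i) ≠ 0 := fun h0 =>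
    D.y_ne (Ideal.mem_bot.1 (Ideal.mul_le_right.trans h0.le h))
  rw [← Ideal.span_singleton_le_iff_mem, ← ide_prod_ker,
    ← Finset.mul_prod_erase _ _ (Finset.mem_univ i), ← Ideal.dvd_iff_le,
    mul_dvd_mul_iff_left h0, Ideal.dvd_iff_le, hp.prod_le] at h
  obtain ⟨k, hk, h1⟩ := h
  exact Finset.ne_of_mem_erase hk (ide_ker_ne h1)

theorem ide_h0 (i : Fin D.n) :
    Ideal.span {D.h0 i} = D.sat (Ideal.span {D.h0 i}) * RingHom.ker (D.ev i) := by
  have hn : D.n ≠ 0 := (D.q_pos.trans_le D.q_le_n).ne'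
  have h1 : ∀ k, D.ev k (D.h0 i) = (D.e k - D.e i) ^ D.n := fun k => by simp [h0]
  have h2 : D.h0 i ∈ RingHom.ker (D.ev i) := by rw [RingHom.mem_ker, h1, sub_self, zero_pow hn]
  obtain ⟨B, hB⟩ := Ideal.dvd_iff_le.2 ((Ideal.span_singleton_le_iff_mem _).2 h2)
  have h3 : D.h0 i ∈ RingHom.ker (D.ev i) * B := hB ▸ Ideal.mem_span_singleton_self _
  have h4 : B ⊔ Ideal.span {D.of D.f} = ⊤ := by
    by_contra h
    obtain ⟨p, hp, h5⟩ := Ideal.exists_le_maximal _ h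
    obtain ⟨k, rfl⟩ := ide_prime (N := 1) hp.isPrime
      (h5 (Ideal.mem_sup_right (by rw [pow_one]; exact Ideal.mem_span_singleton_self _)))
    have h6 := Ideal.mul_mono_right (le_sup_left.trans h5) h3
    have h7 := Ideal.mul_le_right h6
    rw [RingHom.mem_ker, h1, pow_eq_zero_iff hn, sub_eq_zero] at h7
    obtain rfl : i = k := (D.he h7).symm
    have h8 : D.of (X - C (D.e i)) ∈ RingHom.ker (D.ev i) := by simp [RingHom.mem_ker]
    have h9 : D.of ((X - C (D.e i)) ^ D.n) ∈ RingHom.ker (D.ev i) * RingHom.ker (D.ev i) := by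
      refine Ideal.mem_of_dvd _ ?_ (Ideal.mul_mem_mul h8 h8)
      rw [map_pow, ← sq]
      exact pow_dvd_pow _ (D.two_le_q.trans D.q_le_n)
    exact ide_y_not_mem i (by simpa [h0] using sub_mem h9 h6)
  rw [mul_comm]
  refine hB.trans (congrArg _ ?_)
  refine le_antisymm ?_ ?_
  · intro b hb
    refine ⟨1, ?_⟩
    rw [pow_one, hB]
    exact Ideal.mul_mem_mul (by simp [RingHom.mem_ker, f_eval]) hb
  · rintro b ⟨N, hb⟩
    have h5 := Ideal.sup_pow_eq_top (n := N) h4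
    rw [Ideal.span_singleton_pow, Ideal.eq_top_iff_one, Submodule.mem_sup] at h5
    obtain ⟨u, hu, v, hv, h6⟩ := h5
    obtain ⟨w, rfl⟩ := Ideal.mem_span_singleton'.1 hv
    rw [← one_mul b, ← h6, add_mul, mul_assoc]
    rw [hB] at hb
    exact B.add_mem (B.mul_mem_right _ hu) (B.mul_mem_left _ (Ideal.mul_le_right hb))

/-- `(h0 i) = sat (h0 i) * (y, x - e i)` and the product of the `(y, x - e i)` is `(y)`. -/
theorem start : ∃ W : D.O, W * D.y = ∏ i, D.h0 i ∧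
    ∏ i, D.sat (Ideal.span {D.h0 i}) = Ideal.span {W} := by
  have h1 : Ideal.span {∏ i, D.h0 i} =
      (∏ i, D.sat (Ideal.span {D.h0 i})) * Ideal.span {D.y} := by
    rw [← Ideal.prod_span_singleton, ← ide_prod_ker, ← Finset.prod_mul_distrib]
    exact Finset.prod_congr rfl fun i _ => ide_h0 i
  obtain ⟨W, hW⟩ := Ideal.mem_span_singleton'.1
    (Ideal.mul_le_right (h1 ▸ Ideal.mem_span_singleton_self (∏ i, D.h0 i)))
  refine ⟨W, hW, mul_right_cancel₀
    ((Ideal.span_singleton_eq_bot.not.2 D.y_ne : Ideal.span {D.y} ≠ ⊥)) ?_⟩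
  rw [← h1, Ideal.span_singleton_mul_span_singleton, hW]

end Vale.Agent.P319A.Crv
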