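import Vale.Agent.P319A.LBasic
import Vale.Agent.P319A.Ideals

/-!
The order `Lam` is the ring of endomorphisms of the lattice.
-/

open Polynomial Finset

namespace Vale.Agent.P319A.Crv

variable {K : Type} [Field K] {D : Crv K} {I : Ideal D.O} {c : K} {u r : K[X]} {g : D.L}
  {M : Submodule D.O D.L}

theorem enm_ne (hg : D.gi g D.q = D.am (D.of (C c * u))) (hc : c ≠ 0) (hu : u ≠ 0) : g ≠ 0 := by
  rintro rfl
  refine D.am_ne (D.of_ne (mul_ne_zero (C_ne_zero.2 hc) hu)) ?_
  rw [← hg, gi]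
  exact Finset.prod_eq_zero (Finset.mem_range.2 D.q_pos) (map_zero _)

theorem NormSol.ne (hg : D.NormSol c u r g) (hc : c ≠ 0) (hu : u ≠ 0) : g ≠ 0 :=
  enm_ne hg.1 hc hu

/-- `s ^ i gi g i ≡ s ^ i r ^ i` modulo `f`. -/
theorem NormSol.gi_cong (hg : D.NormSol c u r g) : ∃ s : K[X], IsCoprime s D.f ∧ ∀ i ≤ D.q,
    ∃ o, D.am (D.of (s ^ D.q)) * D.gi g i = D.am (D.of (s ^ D.q * r ^ i) + D.of D.f * o) := by
  obtain ⟨-, s, o, hs, h⟩ := hg
  have h1 : ∀ i, ∃ o', D.am (D.of (s ^ i)) * D.gi g i =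
      D.am (D.of (s ^ i * r ^ i) + D.of D.f * o') := fun i => by
    induction i with
    | zero => exact ⟨0, by simp [gi_zero]⟩
    | succ i ih =>
      obtain ⟨o', ho'⟩ := ih
      have h2 := congrArg (D.sL 1) ho'
      rw [map_mul, sL_am, sL_am, s_of, map_add, map_mul (D.s 1), s_of, s_of] at h2
      refine ⟨o * D.of (s ^ i * r ^ i) + D.of (s * r) * D.s 1 o' + D.of D.f * o * D.s 1 o', ?_⟩
      have h3 : D.am (D.of (s ^ (i + 1))) * D.gi g (i + 1) =
          (D.am (D.of s) * g) * (D.am (D.of (s ^ i)) * D.sL 1 (D.gi g i)) := by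
        rw [gi_succ, pow_succ, map_mul, map_mul]; ring
      rw [h3, h, h2, ← map_mul]
      congr 1
      simp only [map_mul, map_pow]
      ring
  refine ⟨s, hs, fun i hi => ?_⟩
  obtain ⟨k, hk⟩ := Nat.exists_eq_add_of_le hi
  obtain ⟨o', ho'⟩ := h1 i
  refine ⟨D.of (s ^ k) * o', ?_⟩
  have h3 : D.am (D.of (s ^ D.q)) * D.gi g i =
      D.am (D.of (s ^ k)) * (D.am (D.of (s ^ i)) * D.gi g i) := by
    rw [hk, pow_add, map_mul, map_mul]; ring
  rw [h3, ho', ← map_mul, hk]
  congr 1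
  simp only [map_mul, map_pow]
  ring

theorem enm_mul {x : D.L} (hx : x ∈ M) (b : D.O) : D.am b * x ∈ M := by
  rw [← smul_L]; exact M.smul_mem b hx

theorem enm_am (h1 : (1 : D.L) ∈ M) (b : D.O) : D.am b ∈ M := by
  simpa using enm_mul h1 b

theorem enm_cop {s P : K[X]} (hs : IsCoprime s P) {x : D.L} (h : D.am (D.of s) * x ∈ M)
    (h' : D.am (D.of P) * x ∈ M) : x ∈ M := by
  obtain ⟨a, b, hab⟩ := hs
  have h1 := M.add_mem (enm_mul h (D.of a)) (enm_mul h' (D.of b))
  simp only [← mul_assoc, ← add_mul, ← map_mul, ← map_add, hab, map_one, one_mul] at h1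
  exact h1

theorem enm_s_pow (i j : ℕ) : D.s i (D.y ^ j) = D.of (C (D.ζ ^ (i * j))) * D.y ^ j := by
  rw [map_pow, s_y, mul_pow, ← map_pow, ← map_pow, ← pow_mul]

theorem enm_dvd {b : ℕ → D.O} (hb : ∀ j < D.q, D.of D.f ∣
      D.y ^ j * ∑ i ∈ Finset.range D.q, b i * D.of (r ^ i * C (D.ζ ^ (i * j)))) (o : D.O) :
    D.of D.f ∣ ∑ i ∈ range D.q, b i * D.of (r ^ i) * D.s i o := by
  have h : ∑ i ∈ range D.q, b i * D.of (r ^ i) * D.s i o = ∑ j ∈ range D.q, D.of (D.co j o) *
      (D.y ^ j * ∑ i ∈ Finset.range D.q, b i * D.of (r ^ i * C (D.ζ ^ (i * j)))) := by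
    conv_lhs => rw [← D.sum_co o]
    simp only [map_sum, map_mul (D.s _), s_of, enm_s_pow, Finset.mul_sum]
    rw [Finset.sum_comm]
    refine Finset.sum_congr rfl fun j _ => Finset.sum_congr rfl fun i _ => ?_
    rw [map_mul]; ring
  rw [h]
  exact Finset.dvd_sum fun j hj => (hb j (Finset.mem_range.1 hj)).mul_left _

/-- `f * op m ∈ M` by `Lat.iff`, and `s * op m ∈ O ⊆ M` for some `s` prime to `f`. -/
theorem op_mem (hI : D.Nm I u) (hg : D.NormSol c u r g) (hM : D.Lat I g M) {b : ℕ → D.O}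
    (hb : D.Lam I u r b) {m : D.L} (hm : m ∈ M) : D.op u g b m ∈ M := by
  have hu := D.am_ne (D.of_ne hI.monic.ne_zero)
  have hf := D.am_ne (D.of_ne D.f_monic.ne_zero)
  obtain ⟨s, hs, hgs⟩ := hg.gi_cong
  obtain ⟨s₁, hs₁, hd⟩ := hM.den
  obtain ⟨o, ho⟩ := hd m hm
  choose! o' ho' using hgs
  obtain ⟨w, hw⟩ := enm_dvd hb.2 o
  refine enm_cop ((hs₁.mul_left (hs.pow_left (m := D.q))).mul_left hI.cop) ?_ ?_
  · have h1 : ∀ i, D.am (D.of s₁) * D.sL i m = D.am (D.s i o) := fun i => by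
      rw [← sL_am, ← ho, map_mul, sL_am, s_of]
    have h2 : D.am (D.of (s₁ * s ^ D.q * u)) * D.op u g b m =
        D.am (D.of (s ^ D.q) * w + ∑ i ∈ range D.q, b i * o' i * D.s i o) := by
      apply mul_left_cancel₀ hf
      rw [← map_mul, mul_add, mul_left_comm (D.of D.f), ← hw, op, Finset.mul_sum, Finset.mul_sum,
        Finset.mul_sum, Finset.mul_sum, ← Finset.sum_add_distrib, map_sum]
      refine Finset.sum_congr rfl fun i hi => ?_
      have h3 : D.am (D.of D.f) * (D.am (D.of (s₁ * s ^ D.q * u)) *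
          (D.am (b i) / D.am (D.of (D.f * u)) * D.gi g i * D.sL i m)) =
          D.am (b i) * (D.am (D.of (s ^ D.q)) * D.gi g i) * (D.am (D.of s₁) * D.sL i m) := by
        simp only [map_mul]
        field_simp
      rw [h3, ho' i (Finset.mem_range.1 hi).le, h1, ← map_mul, ← map_mul]
      congr 1
      simp only [map_mul]
      ring
    rw [h2]
    exact enm_am hM.one _
  · rw [op, Finset.mul_sum]
    refine M.sum_mem fun i hi => ?_
    have h1 := (hM.iff i (Finset.mem_range.1 hi) (D.am (b i) / D.am (D.of u))).1 (fun γ hγ => by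
      obtain ⟨v, hv⟩ := hb.1 i (Finset.mem_range.1 hi) γ hγ
      refine ⟨v, ?_⟩
      rw [div_mul_eq_mul_div, ← map_mul, hv, map_mul, mul_div_cancel_left₀ _ hu]) m hm
    have h2 : D.am (D.of D.f) * (D.am (b i) / D.am (D.of (D.f * u)) * D.gi g i * D.sL i m) =
        D.am (b i) / D.am (D.of u) * D.gi g i * D.sL i m := by
      simp only [map_mul]
      field_simp
    rwa [h2]

/-- Conversely, by `op_dft` and `Lat.iff`. -/
theorem lam_of_mem (hI : D.Nm I u) (hg : D.NormSol c u r g) (hM : D.Lat I g M) (a : ℕ → D.L)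
    (ha : ∀ m ∈ M, ∑ i ∈ range D.q, a i * D.gi g i * D.sL i m ∈ M) :
    ∃ b : ℕ → D.O, D.Lam I u r b ∧ ∀ i < D.q, D.am (b i) = D.am (D.of (D.f * u)) * a i := by
  have h1 : ∀ i < D.q, ∀ γ ∈ D.Ii I i, ∃ o, D.am (D.of D.f) * a i * D.am γ = D.am o :=
    fun i hi => (hM.iff i hi _).2 fun m hm => by
      have h2 := D.op_dft (fun l => a l * D.gi g l) m hi
      have h3 : D.am (D.of (C (D.q : K) * D.f)) * (a i * D.gi g i * D.sL i m) ∈ M := by
        rw [h2]
        exact M.sum_mem fun j _ => enm_mul (ha _ (enm_mul hm _)) _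
      have h4 := enm_mul h3 (D.of (C (D.q : K)⁻¹))
      rw [← mul_assoc, ← map_mul, ← map_mul, ← mul_assoc (C _), ← C_mul, inv_mul_cancel₀ D.q_ne,
        C_1, one_mul] at h4
      simpa only [mul_assoc] using h4
  have h2 : ∀ i < D.q, ∃ o, D.am o = D.am (D.of (D.f * u)) * a i := fun i hi => by
    obtain ⟨o, ho⟩ := h1 i hi _ (hI.mem hi.le)
    exact ⟨o, by rw [← ho, map_mul, map_mul]; ring⟩
  choose! b hb using h2
  refine ⟨b, ⟨fun i hi γ hγ => ?_, fun j hj => ?_⟩, hb⟩
  · obtain ⟨o, ho⟩ := h1 i hi γ hγ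
    refine ⟨o, D.am_injective ?_⟩
    rw [map_mul, map_mul, hb i hi, ← ho, map_mul, map_mul]; ring
  · obtain ⟨s, hs, hgs⟩ := hg.gi_cong
    obtain ⟨s₁, hs₁, hd⟩ := hM.den
    obtain ⟨o, ho⟩ := hd _ (ha _ (enm_am hM.one (D.y ^ j)))
    choose! o' ho' using hgs
    refine D.of_dvd_of_cop (hs₁.mul_left (hs.pow_left (m := D.q))).symm ?_
    refine ⟨D.of (u * s ^ D.q) * o - D.of s₁ * ∑ i ∈ range D.q, b i * o' i * D.s i (D.y ^ j),
      D.am_injective ?_⟩
    rw [mul_sub, map_sub, eq_sub_iff_add_eq]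
    have h3 : D.am (D.of D.f * (D.of (u * s ^ D.q) * o)) = ∑ i ∈ range D.q, D.am (D.of s₁) *
        ((D.am (D.of (D.f * u)) * a i) * (D.am (D.of (s ^ D.q)) * D.gi g i) *
          D.sL i (D.am (D.y ^ j))) := by
      rw [map_mul, map_mul, ← ho, Finset.mul_sum, Finset.mul_sum, Finset.mul_sum]
      refine Finset.sum_congr rfl fun i _ => ?_
      simp only [map_mul]
      ring
    rw [h3, ← map_add, Finset.mul_sum, Finset.mul_sum, Finset.mul_sum, Finset.mul_sum,
      ← Finset.sum_add_distrib, map_sum]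
    refine Finset.sum_congr rfl fun i hi => ?_
    have hi' := Finset.mem_range.1 hi
    rw [← hb i hi', ho' i hi'.le, sL_am, ← map_mul, ← map_mul, ← map_mul, enm_s_pow]
    congr 1
    simp only [map_mul]
    ring

theorem op_add (b : ℕ → D.O) (m m' : D.L) :
    D.op u g b (m + m') = D.op u g b m + D.op u g b m' := by
  simp only [op, map_add, mul_add, Finset.sum_add_distrib]

theorem op_sub (b : ℕ → D.O) (m m' : D.L) :
    D.op u g b (m - m') = D.op u g b m - D.op u g b m' := by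
  simp only [op, map_sub, mul_sub, Finset.sum_sub_distrib]

theorem op_of_mul (b : ℕ → D.O) (P : K[X]) (m : D.L) :
    D.op u g b (D.am (D.of P) * m) = D.am (D.of P) * D.op u g b m := by
  simp only [op, map_mul (D.sL _), sL_am, s_of, Finset.mul_sum]
  exact Finset.sum_congr rfl fun i _ => by ring

theorem enm_reindex {R : Type} [AddCommMonoid R] {q i : ℕ} (hi : i < q) (H : ℕ → R) :
    ∑ l ∈ range q, H l = ∑ k ∈ range q, if i ≤ k then H (k - i) else H (k + q - i) := by
  refine Finset.sum_nbij' (fun l => if l + i < q then l + i else l + i - q)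
    (fun k => if i ≤ k then k - i else k + q - i) ?_ ?_ ?_ ?_ ?_
  · intro l hl
    simp only [Finset.mem_range] at hl ⊢
    split_ifs <;> omega
  · intro l hl
    simp only [Finset.mem_range] at hl ⊢
    split_ifs <;> omega
  · intro l hl
    simp only [Finset.mem_range] at hl
    split_ifs <;> omega
  · intro l hl
    simp only [Finset.mem_range] at hl
    split_ifs <;> omega
  · intro l hl
    simp only [Finset.mem_range] at hl
    split_ifs <;> congr 1 <;> omega

/-- Composition of operators is the product in the cyclic algebra. -/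
theorem op_op (hg : D.gi g D.q = D.am (D.of (C c * u))) (hu : u ≠ 0) (d b : ℕ → D.O) (m : D.L) :
    D.am (D.of (D.f * u)) * D.op u g d (D.op u g b m) =
      D.op u g (D.cv (C c * u) d b) m := by
  have hf := D.am_ne (D.of_ne (mul_ne_zero D.f_monic.ne_zero hu))
  simp only [op, cv, map_sum, Finset.sum_div, Finset.sum_mul, Finset.mul_sum]
  rw [Finset.sum_comm (s := range D.q) (t := range D.q) (f := fun k i => D.am
    (if i ≤ k then d i * D.s i (b (k - i)) else D.of (C c * u) * (d i * D.s i (b (k + D.q - i)))) /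
      D.am (D.of (D.f * u)) * D.gi g k * D.sL k m)]
  refine Finset.sum_congr rfl fun i hi => ?_
  have hi' := Finset.mem_range.1 hi
  rw [enm_reindex hi']
  refine Finset.sum_congr rfl fun k hk => ?_
  have h1 : ∀ l, D.am (D.of (D.f * u)) * (D.am (d i) / D.am (D.of (D.f * u)) * D.gi g i *
      D.sL i (D.am (b l) / D.am (D.of (D.f * u)) * D.gi g l * D.sL l m)) =
      D.am (d i * D.s i (b l)) / D.am (D.of (D.f * u)) * D.gi g (i + l) * D.sL (i + l) m :=
    fun l => by
      rw [map_mul (D.sL i), map_mul (D.sL i), map_div₀, sL_am, sL_am, s_of, sL_sL, gi_add,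
        map_mul D.am (d i)]
      field_simp
  split_ifs with h
  · rw [h1, Nat.add_sub_cancel' h]
  · rw [h1, show i + (k + D.q - i) = D.q + k by omega, gi_add, sL_q, hg, add_comm D.q, sL_add_q,
      map_mul D.am (D.of (C c * u))]
    ring

theorem fixd_iff (hg : D.gi g D.q = D.am (D.of (C c * u))) (hc : c ≠ 0) (hu : u ≠ 0)
    (d b : ℕ → D.O) : D.Fixd c u d b ↔
      ∀ j < D.q, D.op u g d (D.op u g b (D.am (D.y ^ j))) = D.op u g b (D.am (D.y ^ j)) := by
  have hf := D.am_ne (D.of_ne (mul_ne_zero D.f_monic.ne_zero hu))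
  constructor
  · intro h j _
    apply mul_left_cancel₀ hf
    rw [op_op hg hu, op, op, Finset.mul_sum]
    refine Finset.sum_congr rfl fun k hk => ?_
    rw [h k (Finset.mem_range.1 hk), map_mul]
    ring
  · intro h k hk
    have h1 := D.indep (fun l => (D.am (D.cv (C c * u) d b l) - D.am (D.of (D.f * u) * b l)) /
      D.am (D.of (D.f * u)) * D.gi g l) (fun j hj => by
        have h2 := op_op hg hu d b (D.am (D.y ^ j))
        rw [h j hj, op, op, Finset.mul_sum, eq_comm, ← sub_eq_zero, ← Finset.sum_sub_distrib] at h2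
        rw [← h2]
        refine Finset.sum_congr rfl fun l _ => ?_
        rw [map_mul D.am (D.of (D.f * u))]
        ring) k hk
    have h2 := (mul_eq_zero.1 h1).resolve_right (D.gi_ne (enm_ne hg hc hu) k)
    exact D.am_injective (sub_eq_zero.1 ((div_eq_zero_iff.1 h2).resolve_right hf))

end Vale.Agent.P319A.Crv
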