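import Vale.Agent.P319A.Latt

/-!
The action of automorphisms of the constants fixing `ζ` and the roots of `f`.
-/

open Polynomial Finset LaurentSeries

namespace Vale.Agent.P319A.Crv

variable {K : Type} [Field K] (D : Crv K)

/-- `φ` fixes the data of the curve. -/
structure Fx (φ : K →+* K) : Prop where
  hζ : φ D.ζ = D.ζ
  he : ∀ i, φ (D.e i) = D.e i

variable {D} {φ : K →+* K}

theorem Fx.map_f (h : D.Fx φ) : D.f.map φ = D.f := by
  simp only [f, Polynomial.map_prod, Polynomial.map_sub, map_X, map_C, h.he]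

/-- The action on `O`. -/
noncomputable def fr (h : D.Fx φ) : D.O →+* D.O :=
  D.lift (D.of.comp (mapRingHom φ)) D.y (by
    rw [y_pow, RingHom.comp_apply, coe_mapRingHom, h.map_f])

theorem fr_of (h : D.Fx φ) (P : K[X]) : fr h (D.of P) = D.of (P.map φ) := D.lift_of _ _ _ _

theorem fr_y (h : D.Fx φ) : fr h D.y = D.y := D.lift_y _ _ _

theorem fr_s (h : D.Fx φ) (j : ℕ) (b : D.O) : fr h (D.s j b) = D.s j (fr h b) := by
  have e : (fr h).comp (D.s j) = (D.s j).comp (fr h) := D.hom_ext (fun P => by simp [fr_of]) (by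
    rw [RingHom.comp_apply, RingHom.comp_apply, s_y, map_mul, fr_of, fr_y, s_y, map_C, map_pow φ,
      h.hζ])
  exact RingHom.congr_fun e b

theorem co_fr (h : D.Fx φ) (l : ℕ) (b : D.O) : D.co l (fr h b) = (D.co l b).map φ := by
  rcases lt_or_ge l D.q with hl | hl
  · rw [← D.co_sum (fun m => (D.co m b).map φ) hl]
    congr 1
    conv_lhs => rw [← D.sum_co b, map_sum]
    exact Finset.sum_congr rfl fun m _ => by rw [map_mul, map_pow, fr_of, fr_y]
  · rw [D.co_ge hl, D.co_ge hl, Polynomial.map_zero]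

theorem nrm_fr (h : D.Fx φ) (b : D.O) : D.nrm (fr h b) = (D.nrm b).map φ := by
  rw [nrm, nrm, ← co_fr h, map_prod (fr h)]
  simp only [fr_s]

theorem ev_fr (h : D.Fx φ) (k : Fin D.n) (b : D.O) : D.ev k (fr h b) = φ (D.ev k b) := by
  rw [ev_eq, ev_eq, co_fr, ← eval₂_at_apply, h.he, eval_map]

/-- Coefficientwise action on Laurent series. -/
noncomputable def frbH (φ : K →+* K) : K⸨X⸩ →+* K⸨X⸩ where
  toFun z := z.map φ
  map_one' := HahnSeries.map_one φ.toMonoidWithZeroHom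
  map_mul' _ _ := HahnSeries.map_mul φ.toNonUnitalRingHom
  map_zero' := HahnSeries.map_zero φ.toZeroHom
  map_add' _ _ := HahnSeries.map_add φ.toAddMonoidHom

theorem frb_coeff (z : K⸨X⸩) (k : ℤ) : (frbH φ z).coeff k = φ (z.coeff k) := rfl

theorem frb_single (k : ℤ) (c : K) :
    frbH φ (HahnSeries.single k c) = HahnSeries.single k (φ c) :=
  HahnSeries.map_single φ.toZeroHom

theorem frb_xi (P : K[X]) : frbH φ (xi P) = xi (P.map φ) := by
  induction P using Polynomial.induction_on' with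
  | add P Q hP hQ => rw [map_add, map_add, hP, hQ, Polynomial.map_add, map_add]
  | monomial b c => rw [laur_xi_monomial, frb_single, map_monomial, laur_xi_monomial]

theorem frb_ps (S : PowerSeries K) : frbH φ (HahnSeries.ofPowerSeries ℤ K S) =
    HahnSeries.ofPowerSeries ℤ K (S.map φ) := by
  ext k
  rw [frb_coeff, PowerSeries.coeff_coe, PowerSeries.coeff_coe]
  split_ifs
  · exact map_zero φ
  · rw [PowerSeries.coeff_map]

theorem frb_η (h : D.Fx φ) : D.η.map φ = D.η := by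
  refine ps_root_unique D.q_ne ?_ D.η_const ?_
  · rw [← PowerSeries.coeff_zero_eq_constantCoeff_apply, PowerSeries.coeff_map,
      PowerSeries.coeff_zero_eq_constantCoeff_apply, η_const, map_one]
  · rw [← map_pow, η_pow]
    ext a
    rw [PowerSeries.coeff_map, Polynomial.coeff_coe, coeff_reverse, ← coeff_map, h.map_f]

theorem frb_ι (h : D.Fx φ) (j : ℕ) (b : D.O) : D.ι j (fr h b) = frbH φ (D.ι j b) := by
  have e : (D.ι j).comp (fr h) = (frbH φ).comp (D.ι j) :=
    D.hom_ext (fun P => by simp [fr_of, frb_xi]) (by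
      rw [RingHom.comp_apply, RingHom.comp_apply, fr_y, ι_y, yj, map_mul, map_mul, frb_ps,
        frb_η h, frb_single, map_one φ, HahnSeries.C_apply, frb_single, map_pow φ, h.hζ])
  exact RingHom.congr_fun e b

theorem frb_dg (z : K⸨X⸩) : dg (frbH φ z) = dg z := by
  rcases eq_or_ne z 0 with rfl | hz
  · rw [map_zero]
  · refine Dg.dg_eq (fun k hk => ?_) ?_
    · rw [frb_coeff, Dg_dg z k hk, map_zero]
    · rw [frb_coeff]
      exact (_root_.map_ne_zero φ).2 (coeff_dg_ne hz)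

/-- Both sides are ring maps `O → K⸨X⸩` (coefficientwise `φ` on Hahn series is a ring map);
`φ` fixes `η` by `ps_root_unique`. -/
theorem ι_fr (h : D.Fx φ) (j : ℕ) (b : D.O) (k : ℤ) :
    (D.ι j (fr h b)).coeff k = φ ((D.ι j b).coeff k) := by
  rw [frb_ι, frb_coeff]

theorem deg_fr (h : D.Fx φ) (j : ℕ) (b : D.O) : D.deg j (fr h b) = D.deg j b := by
  rw [deg, frb_ι, frb_dg, deg]

theorem fr_of_rat (h : D.Fx φ) {b : D.O} (hb : D.Rat φ b) : fr h b = b :=
  D.co_ext fun l _ => by rw [co_fr, hb l]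

theorem map_fr_of_ratI (h : D.Fx φ) {I : Ideal D.O} (hI : D.RatI φ I) : I.map (fr h) = I := by
  obtain ⟨S, rfl, hS⟩ := hI
  rw [Ideal.map_span, Set.image_congr fun b hb => fr_of_rat h (hS b hb), Set.image_id']

theorem fr_bijective (h : D.Fx φ) (hφ : Function.Bijective φ) : Function.Bijective (fr h) := by
  refine ⟨fun b b' e => D.co_ext fun l _ => map_injective φ hφ.1 ?_, fun b => ?_⟩
  · rw [← co_fr h, ← co_fr h, e]
  · choose P hP using fun l => map_surjective φ hφ.2 (D.co l b)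
    refine ⟨∑ m ∈ range D.q, D.of (P m) * D.y ^ m, D.co_ext fun l hl => ?_⟩
    rw [co_fr, D.co_sum P hl, hP]

/-- The action as a ring isomorphism. -/
noncomputable def frE (h : D.Fx φ) (hφ : Function.Bijective φ) : D.O ≃+* D.O :=
  RingEquiv.ofBijective (fr h) (fr_bijective h hφ)

theorem frE_apply (h : D.Fx φ) (hφ : Function.Bijective φ) (b : D.O) : frE h hφ b = fr h b := rfl

theorem fr_iterate (h : D.Fx φ) {ψ : K →+* K} (h' : D.Fx ψ) {N : ℕ} (hψ : ∀ x, ψ x = φ^[N] x)
    (b : D.O) : fr h' b = (fr h)^[N] b := by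
  have key : ∀ (N : ℕ) (l i : ℕ), (D.co l ((fr h)^[N] b)).coeff i = φ^[N] ((D.co l b).coeff i) := by
    intro N l i
    induction N with
    | zero => rfl
    | succ N ih => rw [Function.iterate_succ_apply', Function.iterate_succ_apply', co_fr,
        coeff_map, ih]
  refine D.co_ext fun l _ => Polynomial.ext fun i => ?_
  rw [key, co_fr, coeff_map, hψ]

theorem extL_frE_sL (h : D.Fx φ) (hφ : Function.Bijective φ) (j : ℕ) (x : D.L) :
    D.extL (frE h hφ) (D.sL j x) = D.sL j (D.extL (frE h hφ) x) :=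
  RingHom.congr_fun (D.lb_ext (g := (D.extL (frE h hφ)).toRingHom.comp (D.sL j))
    (g' := (D.sL j).comp (D.extL (frE h hφ)).toRingHom) fun b => by
      simp [extL_am, frE_apply, fr_s]) x

theorem dg_extL_frE (h : D.Fx φ) (hφ : Function.Bijective φ) (j : ℕ) (x : D.L) :
    dg (D.ιL j (D.extL (frE h hφ) x)) = dg (D.ιL j x) := by
  rw [← frb_dg (φ := φ) (D.ιL j x)]
  exact congrArg dg (RingHom.congr_fun (D.lb_ext (g := (D.ιL j).comp (D.extL (frE h hφ)).toRingHom)
    (g' := (frbH φ).comp (D.ιL j)) fun b => by simp [extL_am, frE_apply, frb_ι]) x)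

theorem frb_iter {J : D.FI} {γ : D.L}
    (hγ : D.extF D.σ J = FractionalIdeal.spanSingleton _ γ * J) (i : ℕ) :
    (D.extF D.σ)^[i] J = FractionalIdeal.spanSingleton _ (D.gi γ i) * J := by
  induction i with
  | zero => rw [gi_zero, FractionalIdeal.spanSingleton_one, one_mul, Function.iterate_zero_apply]
  | succ i ih =>
    rw [Function.iterate_succ_apply', ih, map_mul, extF_span, extL_σ, hγ, gi_succ, ← mul_assoc,
      FractionalIdeal.spanSingleton_mul_spanSingleton, mul_comm γ]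

theorem frb_const {J : D.FI} (hJ : J ≠ 0) {γ : D.L}
    (hγ : D.extF D.σ J = FractionalIdeal.spanSingleton _ γ * J) :
    ∃ c : K, c ≠ 0 ∧ D.gi γ D.q = D.am (D.of (C c)) := by
  have h1 := frb_iter hγ D.q
  rw [extF_σ_q] at h1
  have h2 : FractionalIdeal.spanSingleton (nonZeroDivisors D.O) (D.gi γ D.q) =
      FractionalIdeal.spanSingleton _ 1 := by
    rw [FractionalIdeal.spanSingleton_one]
    exact mul_right_cancel₀ hJ (h1.symm.trans (one_mul J).symm)
  obtain ⟨u, hu⟩ := FractionalIdeal.spanSingleton_eq_spanSingleton.1 h2.symm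
  rw [Units.smul_def, smul_L, mul_one] at hu
  have h0 : γ ≠ 0 := by
    rintro rfl
    rw [← Nat.sub_add_cancel D.q_pos, gi_succ, zero_mul] at hu
    exact D.am_ne u.ne_zero hu
  have h3 : D.s 1 u = u := D.am_injective (by
    have h4 := D.gi_add γ D.q 1
    rw [gi_succ, sL_q, D.gi_succ γ 0, gi_zero, map_one, mul_one, mul_comm _ γ] at h4
    rw [← sL_am, hu]
    exact mul_left_cancel₀ h0 h4)
  have h5 : IsUnit (D.co 0 u) := by
    rw [isUnit_iff_dvd_one, ← D.of_dvd_of, D.of_co_zero h3]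
    exact u.isUnit.dvd
  obtain ⟨c, hc, e⟩ := Polynomial.isUnit_iff.1 h5
  exact ⟨c, hc.ne_zero, by rw [e, D.of_co_zero h3, hu]⟩

theorem frb_inv (τ : D.O ≃+* D.O) (hτ : ∀ k b, D.ev k (τ b) = 0 ↔ D.ev k b = 0) {J : D.FI}
    (hJ : J ≠ 0) (hσ : D.extF D.σ J = J) :
    ∃ (w : D.L) (W : D.FI), w ≠ 0 ∧ J = FractionalIdeal.spanSingleton _ w * W ∧
      D.extF τ W = W := by
  obtain ⟨a, B, ha, e⟩ := FractionalIdeal.exists_eq_spanSingleton_mul J
  have h1 := D.am_ne (D.of_ne (D.nrm_ne ha))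
  obtain ⟨A, e⟩ : ∃ A : Ideal D.O,
      J = FractionalIdeal.spanSingleton _ (D.am (D.of (D.nrm a)))⁻¹ * (A : D.FI) := by
    refine ⟨Ideal.span {∏ j ∈ range (D.q - 1), D.s (j + 1) a} * B, ?_⟩
    rw [e, FractionalIdeal.coeIdeal_mul, FractionalIdeal.coeIdeal_span_singleton, ← mul_assoc,
      FractionalIdeal.spanSingleton_mul_spanSingleton]
    congr 2
    have h2 := h1
    rw [← mul_cof, map_mul] at h2 ⊢
    have h3 := right_ne_zero_of_mul h2
    change (D.am a)⁻¹ = _ * D.am _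
    rw [mul_inv, inv_mul_cancel_right₀ h3]
  have h2 : A.map D.σ = A := by
    rw [e, map_mul, extF_span, extF_coe, map_inv₀, extL_am, σ_apply, s_of] at hσ
    exact FractionalIdeal.coeIdeal_injective (mul_left_cancel₀
      (FractionalIdeal.spanSingleton_ne_zero_iff.2 (inv_ne_zero h1)) hσ)
  have h3 : A ≠ ⊥ := by
    rintro rfl
    exact hJ (by rw [e, FractionalIdeal.coeIdeal_bot, mul_zero])
  obtain ⟨b, hb, hb0⟩ := A.ne_bot_iff.1 h3
  obtain ⟨W, w1, w2, s, w3, w4⟩ := sat_factor (D.nrm_ne hb0) (D.Ii_q_le A (D.nrm_mem hb))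
  have h4 := sat_map D.σ (D.s_of 1 D.f) A
  rw [h2] at h4
  obtain ⟨t, t1, -, t3⟩ := inv_cop h4 w3 w4
  refine ⟨(D.am (D.of (D.nrm a)))⁻¹ * D.am (D.of t), W,
    mul_ne_zero (inv_ne_zero h1) (D.am_ne (D.of_ne t1.ne_zero)), ?_, ?_⟩
  · rw [e, w1, t3, FractionalIdeal.coeIdeal_mul, FractionalIdeal.coeIdeal_span_singleton,
      ← mul_assoc, FractionalIdeal.spanSingleton_mul_spanSingleton]
    rfl
  · rw [extF_coe, map_eq_of_pow_mem τ hτ w2]

/-- A fractional ideal whose class is fixed by `σ` is, up to a principal ideal, fixed by `fr`.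
From `σ J = (γ) J` get that `gi γ q` is a unit of `O` fixed by `s 1`, so a constant; `h90` gives
`w` with `J / (w)` invariant; clear a polynomial denominator, use `sat_factor`, `sat_map`,
`inv_cop`, and `map_eq_of_pow_mem`. -/
theorem inv_class [IsAlgClosed K] (h : D.Fx φ) (hφ : Function.Bijective φ) {J : D.FI} (hJ : J ≠ 0)
    {γ : D.L} (hγ : D.extF D.σ J = FractionalIdeal.spanSingleton _ γ * J) :
    ∃ (w : D.L) (W : D.FI), w ≠ 0 ∧ J = FractionalIdeal.spanSingleton _ w * W ∧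
      D.extF (frE h hφ) W = W := by
  obtain ⟨c, hc, e⟩ := frb_const hJ hγ
  obtain ⟨d, rfl⟩ := IsAlgClosed.exists_pow_nat_eq c D.q_pos
  have hd : d ≠ 0 := fun k => hc (by rw [k, zero_pow D.hq.ne_zero])
  have h1 : D.am (D.of (C d)) ≠ 0 := D.am_ne (D.of_ne (C_ne_zero.2 hd))
  obtain ⟨w, hw, h2⟩ := D.h90 (γ := γ * (D.am (D.of (C d)))⁻¹) (by
    rw [gi_mul, gi_inv, gi_am, nrm_of, e, C_pow]
    exact mul_inv_cancel₀ (by rw [map_pow, map_pow]; exact pow_ne_zero _ h1))
  have h3 : D.sL 1 w ≠ 0 := (_root_.map_ne_zero _).2 hw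
  have h4 : FractionalIdeal.spanSingleton (nonZeroDivisors D.O) (D.am (D.of (C d))) = 1 := by
    rw [am, ← FractionalIdeal.coeIdeal_span_singleton,
      Ideal.span_singleton_eq_top.2 ((isUnit_C.2 hd.isUnit).map D.of), FractionalIdeal.coeIdeal_top]
  obtain ⟨v, W, hv, h5, h6⟩ := frb_inv (frE h hφ)
    (fun k b => by rw [frE_apply, ev_fr, map_eq_zero_iff φ hφ.1])
    (J := FractionalIdeal.spanSingleton _ w⁻¹ * J)
    (mul_ne_zero (FractionalIdeal.spanSingleton_ne_zero_iff.2 (inv_ne_zero hw)) hJ) (by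
      rw [map_mul, extF_span, extL_σ, hγ, ← mul_assoc,
        FractionalIdeal.spanSingleton_mul_spanSingleton,
        show D.sL 1 w⁻¹ * γ = w⁻¹ * D.am (D.of (C d)) by
          rw [(mul_inv_eq_iff_eq_mul₀ h1).1 h2, map_inv₀]; field_simp,
        ← FractionalIdeal.spanSingleton_mul_spanSingleton, h4, mul_one])
  refine ⟨w * v, W, mul_ne_zero hw hv, ?_, h6⟩
  rw [← FractionalIdeal.spanSingleton_mul_spanSingleton, mul_assoc, ← h5, ← mul_assoc,
    FractionalIdeal.spanSingleton_mul_spanSingleton, mul_inv_cancel₀ hw,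
    FractionalIdeal.spanSingleton_one, one_mul]

end Vale.Agent.P319A.Crv
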