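import Vale.Agent.P319A.LBasic
import Vale.Agent.P319A.Ideals

/-!
The global step.
-/

open Polynomial Finset LaurentSeries

namespace Vale.Agent.P319A.Crv

variable {K : Type} [Field K] {D : Crv K} {T : Ideal D.O} {W Gh : D.O} {U : K[X]}

theorem nrm_of_span {u : K[X]} (h : D.Nm (Ideal.span {W}) u) :
    W ≠ 0 ∧ (∀ k, D.ev k W ≠ 0) ∧ (∃ c : K, c ≠ 0 ∧ D.nrm W = C c * u) ∧
      ∑ j ∈ range D.q, D.deg j W = u.natDegree := by
  obtain ⟨c, hc, h1⟩ := D.of_span_eq ((D.Ii_span W).symm.trans h.norm)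
  have h0 : W ≠ 0 := fun h0 => h.ne_bot (Ideal.span_singleton_eq_bot.2 h0)
  exact ⟨h0, D.ev_ne_of_mem h.cop h.mem_self, ⟨c, hc, h1⟩, by
    rw [D.deg_sum h0, h1, natDegree_C_mul hc]⟩

/-- Take norms of the relation. -/
theorem glob_val (hN : D.Nm T U) (hW : ∀ k, D.ev k W ≠ 0)
    (hR : D.Rel (Ideal.span {W}) T Gh (D.of U)) : (∀ k, D.ev k Gh ≠ 0) ∧
      ∃ κ : K, κ ≠ 0 ∧ D.nrm W * U ^ D.q = C κ * D.nrm Gh ∧
        ∀ k, (D.ev k W * U.eval (D.e k) * (D.ev k Gh)⁻¹) ^ D.q = κ := by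
  have h1 := congrArg (fun I => D.Ii I D.q) hR
  simp only [D.Ii_mul, D.Ii_span, D.Ii_map, hN.norm, Ideal.span_singleton_mul_span_singleton,
    ← map_mul, D.nrm_of] at h1
  obtain ⟨κ, hκ, h2⟩ := D.of_span_eq h1
  have h3 : D.nrm W * U ^ D.q = C κ * D.nrm Gh :=
    mul_right_cancel₀ hN.monic.ne_zero (by linear_combination h2)
  have h4 : ∀ k, (D.ev k W * U.eval (D.e k)) ^ D.q = κ * D.ev k Gh ^ D.q := fun k => by
    have := congrArg (eval (D.e k)) h3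
    rwa [eval_mul, eval_mul, eval_pow, eval_C, D.eval_nrm, D.eval_nrm, ← mul_pow] at this
  have h5 : ∀ k, D.ev k Gh ≠ 0 := fun k h => pow_ne_zero D.q
    (mul_ne_zero (hW k) (D.cop_iff.1 hN.cop k)) (by rw [h4, h, zero_pow D.hq.ne_zero, mul_zero])
  exact ⟨h5, κ, hκ, h3, fun k => by
    rw [mul_pow, h4, inv_pow, mul_inv_cancel_right₀ (pow_ne_zero _ (h5 k))]⟩

theorem glob_h90 (hN : D.Nm T U) (hW : ∀ k, D.ev k W ≠ 0)
    (hR : D.Rel (Ideal.span {W}) T Gh (D.of U)) {ρ : K}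
    (hρ : ∀ k, D.ev k W * U.eval (D.e k) * (D.ev k Gh)⁻¹ = ρ) :
    ρ ≠ 0 ∧ ∃ a : D.O, (∀ k, D.ev k a ≠ 0) ∧ W * D.of U * D.s 1 a = D.of (C ρ) * Gh * a := by
  obtain ⟨hG, κ, hκ, h1, h2⟩ := glob_val hN hW hR
  have k0 : Fin D.n := ⟨0, D.q_pos.trans_le D.q_le_n⟩
  have h3 : ρ ^ D.q = κ := hρ k0 ▸ h2 k0
  have h4 : ρ ≠ 0 := fun h => hκ (by rw [← h3, h, zero_pow D.hq.ne_zero])
  have h5 : D.of (C ρ) * Gh ≠ 0 :=
    mul_ne_zero (D.of_ne (C_ne_zero.2 h4)) fun h => hG k0 (by rw [h, map_zero])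
  set γ := D.am (W * D.of U) * (D.am (D.of (C ρ) * Gh))⁻¹ with hγ
  have g1 : D.gi γ D.q = 1 := by
    rw [hγ, D.gi_mul, D.gi_inv, D.gi_am, D.gi_am, D.nrm_mul, D.nrm_mul, D.nrm_of, D.nrm_of, h1,
      ← map_pow, h3]
    exact mul_inv_cancel₀ (D.am_ne (D.of_ne (mul_ne_zero (C_ne_zero.2 hκ)
      (D.nrm_ne (right_ne_zero_of_mul h5)))))
  have g2 := D.lb_shift (g := γ) 1
  simp only [map_one, mul_one, g1, sub_self, add_zero] at g2
  have g3 : ∀ k, D.Val k γ 1 := fun k => by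
    have := (Val.am k (W * D.of U)).mul ((Val.am k (D.of (C ρ) * Gh)).inv (by
      rw [map_mul, ev_of, eval_C]
      exact mul_ne_zero h4 (hG k)))
    rwa [map_mul (D.ev k), map_mul (D.ev k), ev_of, ev_of, eval_C, mul_inv, mul_comm ρ⁻¹,
      ← mul_assoc, hρ, mul_inv_cancel₀ h4] at this
  have g4 : ∀ k, D.Val k (∑ i ∈ range D.q, D.gi γ i) D.q := fun k => by
    simpa using Val.sum (t := range D.q) fun i _ => (g3 k).gi i
  obtain ⟨s, a, hs, ha⟩ := den_of_val fun k => ⟨_, g4 k⟩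
  refine ⟨h4, a, fun k => ?_, D.am_injective ?_⟩
  · rw [(Val.am k a).unique (ha ▸ (Val.am k (D.of s)).mul (g4 k)), ev_of]
    exact mul_ne_zero (D.cop_iff.1 hs k) D.q_ne
  · rw [map_mul D.am _ (D.s 1 a), map_mul D.am _ a, ← sL_am, ← ha, map_mul (D.sL 1), sL_am, s_of]
    have : D.am (D.of (C ρ) * Gh) * γ = D.am (W * D.of U) := by
      rw [hγ, mul_comm, inv_mul_cancel_right₀ (D.am_ne h5)]
    rw [← this]
    linear_combination D.am (D.of (C ρ) * Gh) * D.am (D.of s) * g2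

/-- `γ = W U / (ρ Gh)` has norm one and values one; `w = ∑ i < q, gi γ i` has `γ * s w = w` and
values `q`; write `s w = a` with `s` prime to `f`. Then `(a) σ T = (σ a) T`, the ideal
`T * (∏ j < q - 1, s (j + 1) a)` is invariant and prime to `f`, so generated by a polynomial. -/
theorem glob_step (hN : D.Nm T U) (hW : ∀ k, D.ev k W ≠ 0)
    (hR : D.Rel (Ideal.span {W}) T Gh (D.of U)) {ρ : K}
    (hρ : ∀ k, D.ev k W * U.eval (D.e k) * (D.ev k Gh)⁻¹ = ρ) :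
    ∃ W' : D.O, T = Ideal.span {W'} ∧ W * D.of U * D.s 1 W' = D.of (C ρ) * Gh * W' ∧
      (D.ι 0 W').coeff (-D.deg 0 W') = 1 := by
  obtain ⟨h0, a, ha, h1⟩ := glob_h90 hN hW hR hρ
  have k0 : Fin D.n := ⟨0, D.q_pos.trans_le D.q_le_n⟩
  have a0 : a ≠ 0 := fun h => ha k0 (by rw [h, map_zero])
  have W0 : W ≠ 0 := fun h => hW k0 (by rw [h, map_zero])
  have sp : ∀ {x : D.O}, x ≠ 0 → Ideal.span {x} ≠ 0 := fun h h' =>
    h (Ideal.span_singleton_eq_bot.1 h')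
  have e1 : Ideal.span {Gh} * Ideal.span {a} =
      Ideal.span {W} * Ideal.span {D.of U} * Ideal.span {D.s 1 a} := by
    simp only [Ideal.span_singleton_mul_span_singleton, h1, mul_assoc]
    exact (Ideal.span_singleton_mul_left_unit ((isUnit_C.2 h0.isUnit).map D.of) _).symm
  have e2 : Ideal.span {a} * T.map (D.s 1) = Ideal.span {D.s 1 a} * T := by
    refine mul_left_cancel₀ (mul_ne_zero (sp W0) (sp (D.of_ne hN.monic.ne_zero))) ?_
    have hR' : Ideal.span {D.of U} * (Ideal.span {W} * T.map (D.s 1)) = Ideal.span {Gh} * T := hR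
    calc _ = Ideal.span {a} * (Ideal.span {D.of U} * (Ideal.span {W} * T.map (D.s 1))) := by ring
      _ = Ideal.span {Gh} * Ideal.span {a} * T := by rw [hR']; ring
      _ = _ := by rw [e1]; ring
  obtain ⟨b, hb⟩ : ∃ b, a * b = D.of (D.nrm a) := ⟨_, D.mul_cof a⟩
  have e3 : Ideal.span {D.s 1 a} * Ideal.span {D.s 1 b} = Ideal.span {a} * Ideal.span {b} := by
    rw [Ideal.span_singleton_mul_span_singleton, Ideal.span_singleton_mul_span_singleton,
      ← map_mul, hb, s_of]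
  have e4 : (T * Ideal.span {b}).map (D.s 1) = T * Ideal.span {b} := by
    refine mul_left_cancel₀ (sp a0) ?_
    rw [Ideal.map_mul, D.ide_map_span, ← mul_assoc, e2, mul_right_comm, e3]
    ring
  have c1 : IsCoprime (U * D.nrm a) D.f := hN.cop.mul_left (D.cop_iff.2 fun k => by
    rw [D.eval_nrm]
    exact pow_ne_zero _ (ha k))
  obtain ⟨t, -, -, ht⟩ := inv_cop e4 c1 (by
    rw [map_mul, ← hb, mul_left_comm]
    exact Ideal.mul_mem_left _ _ (Ideal.mul_mem_mul hN.mem_self (Ideal.mem_span_singleton_self b)))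
  have e5 : Ideal.span {D.of (D.nrm a)} * T = Ideal.span {a * D.of t} := by
    rw [← hb, ← Ideal.span_singleton_mul_span_singleton, ← Ideal.span_singleton_mul_span_singleton,
      ← ht]
    ring
  obtain ⟨V, hV⟩ : D.of (D.nrm a) ∣ a * D.of t := Ideal.mem_span_singleton.1
    (Ideal.mul_le_left (I := Ideal.span {D.of (D.nrm a)}) (J := T)
      (e5.ge (Ideal.mem_span_singleton_self _)))
  have n0 := D.of_ne (D.nrm_ne a0)
  have e6 : T = Ideal.span {V} := mul_left_cancel₀ (sp n0) (by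
    rw [e5, hV, Ideal.span_singleton_mul_span_singleton])
  have V0 : V ≠ 0 := fun h => hN.ne_bot (e6.trans (Ideal.span_singleton_eq_bot.2 h))
  have e7 : W * D.of U * D.s 1 V = D.of (C ρ) * Gh * V := by
    have h2 := congrArg (D.s 1) hV
    rw [map_mul, map_mul, s_of, s_of] at h2
    refine mul_left_cancel₀ n0 ?_
    linear_combination D.of t * h1 - W * D.of U * h2 + D.of (C ρ) * Gh * hV
  have c0 := coeff_dg_ne (D.ι_ne 0 V0)
  have c2 := C_ne_zero.2 (inv_ne_zero c0)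
  refine ⟨D.of (C ((D.ι 0 V).coeff (-dg (D.ι 0 V)))⁻¹) * V, e6.trans
    (Ideal.span_singleton_mul_left_unit ((isUnit_C.2 (inv_ne_zero c0).isUnit).map D.of) _).symm,
    ?_, ?_⟩
  · rw [map_mul, s_of, mul_left_comm, e7, mul_left_comm]
  · rw [D.deg_mul 0 (D.of_ne c2) V0, deg_of, natDegree_C, map_mul, ι_of, xi_C, coeff_C_mul',
      Nat.cast_zero, zero_add]
    exact inv_mul_cancel₀ c0

/-- The quotients `ι l W' / ι (l + 1) W'`. -/
noncomputable def Sq (W Gh : D.O) (U : K[X]) (ρ : K) (l : ℕ) : K⸨X⸩ :=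
  D.ι l W * xi U * (HahnSeries.C ρ * D.ι l Gh)⁻¹

theorem glob_root {W' : D.O} {ρ c : K} (hρ : ρ ≠ 0) (hG : Gh ≠ 0) (hW : W ≠ 0) (hU : U ≠ 0)
    (hW' : W' ≠ 0) (h : W * D.of U * D.s 1 W' = D.of (C ρ) * Gh * W') (hN : D.nrm W' = C c * U) :
    D.ι 0 W' ^ D.q = HahnSeries.C c *
        (xi U * ∏ j ∈ range D.q, ∏ l ∈ range j, Sq W Gh U ρ l) ∧
      (∀ j, D.ι j W' = D.ι 0 W' * (∏ l ∈ range j, Sq W Gh U ρ l)⁻¹) ∧
      (∀ l, Sq W Gh U ρ l ≠ 0) ∧
      ∀ k, D.deg k W' - D.deg (k + 1) W' = D.deg k W + U.natDegree - D.deg k Gh := by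
  have c0 : (HahnSeries.C ρ : K⸨X⸩) ≠ 0 := (_root_.map_ne_zero _).2 hρ
  have u0 : xi U ≠ 0 := (map_ne_zero_iff _ xi_injective).2 hU
  have s0 : ∀ l, Sq W Gh U ρ l ≠ 0 := fun l => mul_ne_zero (mul_ne_zero (D.ι_ne l hW) u0)
    (inv_ne_zero (mul_ne_zero c0 (D.ι_ne l hG)))
  have s1 : ∀ l, Sq W Gh U ρ l * D.ι (l + 1) W' = D.ι l W' := fun l => by
    have := congrArg (D.ι l) h
    simp only [map_mul, ι_of, ι_s, xi_C] at this
    rw [Sq, mul_right_comm, this, mul_comm, inv_mul_cancel_left₀ (mul_ne_zero c0 (D.ι_ne l hG))]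
  have s2 : ∀ j, D.ι j W' * ∏ l ∈ range j, Sq W Gh U ρ l = D.ι 0 W' := fun j => by
    induction j with
    | zero => rw [prod_range_zero, mul_one]
    | succ j ih => rw [prod_range_succ, ← ih, ← s1 j]; ring
  refine ⟨?_, fun j => ?_, s0, fun k => ?_⟩
  · have := D.prod_ι 0 W'
    simp only [zero_add, hN, map_mul, xi_C] at this
    rw [← mul_assoc, ← this, ← prod_mul_distrib]
    simp only [s2, prod_const, card_range]
  · rw [← s2 j, mul_inv_cancel_right₀ (prod_ne_zero_iff.2 fun l _ => s0 l)]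
  · have := congrArg dg (s1 k)
    rw [dg_mul (s0 k) (D.ι_ne _ hW'), Sq, dg_mul (mul_ne_zero (D.ι_ne k hW) u0)
      (inv_ne_zero (mul_ne_zero c0 (D.ι_ne k hG))), dg_mul (D.ι_ne k hW) u0, dg_inv,
      dg_mul c0 (D.ι_ne k hG), dg_C, dg_xi] at this
    unfold deg
    linarith

end Vale.Agent.P319A.Crv
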