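import Vale.Agent.P319A.CurveB

/-!
The `q` points at infinity: embeddings into Laurent series and degrees.
-/

open Polynomial Finset LaurentSeries

namespace Vale.Agent.P319A.Crv

variable {K : Type} [Field K] (D : Crv K)

theorem exists_η : ∃ η : PowerSeries K, PowerSeries.constantCoeff η = 1 ∧
    η ^ D.q = (D.f.reverse : PowerSeries K) :=
  exists_ps_root D.q_ne _ (by
    rw [Polynomial.constantCoeff_coe, coeff_zero_reverse, D.f_monic.leadingCoeff])

/-- The expansion of `y t ^ n1`. -/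
noncomputable def η : PowerSeries K := D.exists_η.choose

theorem η_const : PowerSeries.constantCoeff D.η = 1 := D.exists_η.choose_spec.1

theorem η_pow : D.η ^ D.q = (D.f.reverse : PowerSeries K) := D.exists_η.choose_spec.2

/-- The image of `y` at the `j`-th point at infinity. -/
noncomputable def yj (j : ℕ) : K⸨X⸩ :=
  HahnSeries.C (D.ζ ^ j) * (HahnSeries.single (-(D.n1 : ℤ)) 1 * HahnSeries.ofPowerSeries ℤ K D.η)

theorem yj_pow (j : ℕ) : D.yj j ^ D.q = xi D.f := by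
  rw [yj, mul_pow, mul_pow, ← map_pow, ← map_pow (HahnSeries.ofPowerSeries ℤ K), η_pow,
    ← pow_mul, mul_comm j, pow_mul, D.hζ.pow_eq_one, one_pow, map_one, one_mul,
    HahnSeries.single_pow, xi_eq_reverse, f_natDegree, one_pow, D.hn]
  simp

/-- The expansion at the `j`-th point at infinity. -/
noncomputable def ι (j : ℕ) : D.O →+* K⸨X⸩ := D.lift xi (D.yj j) (D.yj_pow j)

@[simp] theorem ι_of (j : ℕ) (P : K[X]) : D.ι j (D.of P) = xi P := D.lift_of _ _ _ _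

theorem ι_y (j : ℕ) : D.ι j D.y = D.yj j := D.lift_y _ _ _

theorem ι_s (j i : ℕ) (b : D.O) : D.ι j (D.s i b) = D.ι (j + i) b := by
  have h : (D.ι j).comp (D.s i) = D.ι (j + i) := D.hom_ext (fun P => by simp) (by
    rw [RingHom.comp_apply, s_y, map_mul, ι_of, ι_y, ι_y, xi_C, yj, yj, pow_add, map_mul]; ring)
  exact RingHom.congr_fun h b

theorem ι_add_q (j : ℕ) : D.ι (j + D.q) = D.ι j :=
  RingHom.ext fun b => by rw [← ι_s, s_q]

theorem ι_mod (j : ℕ) : D.ι (j % D.q) = D.ι j :=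
  RingHom.ext fun b => by
    have h := D.ι_s 0 (j % D.q) b
    rw [s_mod, ι_s, zero_add, zero_add] at h
    exact h.symm

theorem prod_ι (j : ℕ) (b : D.O) : ∏ i ∈ range D.q, D.ι (j + i) b = xi (D.nrm b) := by
  rw [← D.ι_of j, of_nrm, map_prod]
  simp only [ι_s]

theorem ι_ne (j : ℕ) {b : D.O} (h : b ≠ 0) : D.ι j b ≠ 0 := fun h0 => by
  have h1 := D.prod_ι j b
  rw [Finset.prod_eq_zero (Finset.mem_range.2 D.q_pos) h0] at h1
  exact D.nrm_ne h ((map_eq_zero_iff _ xi_injective).1 h1.symm)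

theorem ι_injective (j : ℕ) : Function.Injective (D.ι j) :=
  (injective_iff_map_eq_zero _).2 fun _ h => by_contra fun h0 => D.ι_ne j h0 h

theorem inf_dft (b : D.O) {l : ℕ} (hl : l < D.q) :
    HahnSeries.C (D.q : K) * (xi (D.co l b) * D.yj 0 ^ l) =
      ∑ j ∈ range D.q, HahnSeries.C (D.ζ⁻¹ ^ (j * l)) * D.ι j b := by
  have h := congrArg (D.ι 0) (D.dft b hl)
  simpa only [map_mul, map_sum, ι_of, xi_C, map_pow (D.ι 0), ι_y, ι_s, zero_add] using h

theorem sum_ι (b : D.O) :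
    ∑ j ∈ range D.q, D.ι j b = HahnSeries.C (D.q : K) * xi (D.co 0 b) := by
  have h := D.inf_dft b D.q_pos
  simpa only [pow_zero, mul_one, mul_zero, map_one, one_mul] using h.symm

/-- The degree at the `j`-th point at infinity. -/
noncomputable def deg (j : ℕ) (b : D.O) : ℤ := dg (D.ι j b)

theorem deg_add_q (j : ℕ) (b : D.O) : D.deg (j + D.q) b = D.deg j b := by
  rw [deg, ι_add_q, deg]

theorem deg_s (j i : ℕ) (b : D.O) : D.deg j (D.s i b) = D.deg (j + i) b := by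
  rw [deg, ι_s, deg]

theorem deg_mul (j : ℕ) {b b' : D.O} (h : b ≠ 0) (h' : b' ≠ 0) :
    D.deg j (b * b') = D.deg j b + D.deg j b' := by
  rw [deg, map_mul, dg_mul (D.ι_ne j h) (D.ι_ne j h'), deg, deg]

theorem deg_of (j : ℕ) (P : K[X]) : D.deg j (D.of P) = P.natDegree := by
  rw [deg, ι_of, dg_xi]

theorem deg_y (j : ℕ) : D.deg j D.y = D.n1 := by
  have h := congrArg dg (D.yj_pow j)
  rw [dg_pow, dg_xi, f_natDegree, D.hn, Nat.cast_mul] at h
  rw [deg, ι_y]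
  exact mul_left_cancel₀ (by exact_mod_cast D.hq.ne_zero) h

theorem Dg_yj (j : ℕ) : Dg (D.yj j) D.n1 := by
  rw [← D.deg_y j, deg, ι_y]
  exact Dg_dg _

theorem deg_sum {b : D.O} (h : b ≠ 0) :
    ∑ j ∈ range D.q, D.deg j b = (D.nrm b).natDegree := by
  rw [← dg_xi, ← D.prod_ι 0, dg_prod fun i _ => D.ι_ne _ h]
  simp only [zero_add, deg]

/-- Degrees of the coordinates, by `dft`. -/
theorem Dg_co {b : D.O} {m : ℤ} (h : ∀ j < D.q, Dg (D.ι j b) m) (l : ℕ) :
    Dg (xi (D.co l b)) (m - l * D.n1) := by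
  rcases eq_or_ne (D.co l b) 0 with h0 | h0
  · rw [h0, map_zero]
    exact Dg.zero _
  have hl : l < D.q := not_le.1 fun h1 => h0 (D.co_ge h1 b)
  have h1 : Dg (HahnSeries.C (D.q : K) * (xi (D.co l b) * D.yj 0 ^ l)) m := by
    rw [D.inf_dft b hl]
    exact Dg.sum fun j hj => (h j (Finset.mem_range.1 hj)).C_mul _
  have h2 : xi (D.co l b) ≠ 0 := (map_ne_zero_iff _ xi_injective).2 h0
  have h3 : D.yj 0 ^ l ≠ 0 := pow_ne_zero _ (D.ι_y 0 ▸ D.ι_ne 0 D.y_ne)
  have h4 : (HahnSeries.C (D.q : K) : K⸨X⸩) ≠ 0 := HahnSeries.C_ne_zero D.q_ne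
  have h5 := h1.dg_le (mul_ne_zero h4 (mul_ne_zero h2 h3))
  have h6 : dg (D.yj 0) = D.n1 := by rw [← D.deg_y 0, deg, ι_y]
  rw [dg_mul h4 (mul_ne_zero h2 h3), dg_mul h2 h3, dg_C, dg_pow, h6] at h5
  exact (Dg_dg _).mono (by omega)

theorem inf_le {P : K[X]} {m : ℤ} (h : Dg (xi P) m) (h0 : P ≠ 0) : (P.natDegree : ℤ) ≤ m :=
  dg_xi P ▸ h.dg_le ((map_ne_zero_iff _ xi_injective).2 h0)

theorem coLe_of_Dg {b : D.O} {m : ℕ} (h : ∀ j < D.q, Dg (D.ι j b) m) : D.CoLe b m :=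
  fun l => by
    rcases eq_or_ne (D.co l b) 0 with h0 | h0
    · simp [h0]
    · have h1 := inf_le (D.Dg_co h l) h0
      have h2 : (0 : ℤ) ≤ l * D.n1 := by positivity
      omega

theorem inf_pow {z : K⸨X⸩} {m : ℤ} (h : Dg z m) (l : ℕ) : Dg (z ^ l) (l * m) := by
  induction l with
  | zero => simpa using Dg.C (1 : K)
  | succ l ih =>
    rw [pow_succ, Nat.cast_succ, add_mul, one_mul]
    exact ih.mul h

theorem Dg_of_coLe {b : D.O} {m : ℕ} (h : D.CoLe b m) (j : ℕ) : Dg (D.ι j b) (m + D.n : ℕ) := by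
  rw [← D.sum_co b, map_sum]
  refine Dg.sum fun l hl => ?_
  rw [map_mul, map_pow, ι_of, ι_y]
  refine ((Dg_xi _).mul (inf_pow (D.Dg_yj j) l)).mono ?_
  have h1 : l * D.n1 ≤ D.n := by
    rw [D.hn]; exact Nat.mul_le_mul_right _ (Finset.mem_range.1 hl).le
  exact_mod_cast add_le_add (h l) h1

theorem eq_zero_of_Dg {b : D.O} (h : ∀ j < D.q, Dg (D.ι j b) (-1)) : b = 0 :=
  D.co_ext fun l _ => by
    rw [map_zero]
    by_contra h0
    have h1 := inf_le (D.Dg_co h l) h0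
    have h2 : (0 : ℤ) ≤ l * D.n1 := by positivity
    omega

theorem const_of_Dg {b : D.O} (h : ∀ j < D.q, Dg (D.ι j b) 0) : ∃ c : K, b = D.of (C c) := by
  refine ⟨(D.co 0 b).coeff 0, D.co_ext fun l _ => ?_⟩
  rw [co_of]
  split_ifs with hl
  · rw [hl]
    exact eq_C_of_natDegree_le_zero (D.coLe_of_Dg (m := 0) h 0)
  · by_contra h0
    have h1 := inf_le (D.Dg_co h l) h0
    have h2 : (0 : ℤ) < l * D.n1 := by exact_mod_cast Nat.mul_pos (Nat.pos_of_ne_zero hl) D.hn1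
    omega

/-- A coefficient of an expansion, as a linear functional. -/
noncomputable def cf (j : ℕ) (k : ℤ) : D.O →ₗ[K] K where
  toFun b := (D.ι j b).coeff k
  map_add' := by intro a b; simp
  map_smul' := by
    intro c b
    rw [smul_eq, map_mul, ι_of, xi_C, coeff_C_mul']; rfl

theorem cf_apply (j : ℕ) (k : ℤ) (b : D.O) : D.cf j k b = (D.ι j b).coeff k := rfl

/-- The conditions at infinity. -/
def Om (u : K[X]) (τ : ℕ → ℤ) (b : ℕ → D.O) : Prop :=
  (∀ i < D.q, ∀ j < D.q, Dg (D.ι j (b i))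
    (D.n + u.natDegree - ts τ j i - if j = 0 then 0 else 1)) ∧
  (D.ι 0 (b 0)).coeff (-(D.n + u.natDegree : ℤ)) = 1

/-- The hypotheses of a division step. -/
structure Hy (I : Ideal D.O) (u r : K[X]) (c : K) (τ : ℕ → ℤ) : Prop where
  nm : D.Nm I u
  hc : c ≠ 0
  hr : D.f ∣ r ^ D.q - C c * u
  per : ∀ j, τ (j + D.q) = τ j
  sum : ∑ l ∈ range D.q, τ l = u.natDegree

/-- The starting elements `(x - e i) ^ n - y`. -/
noncomputable def h0 (i : Fin D.n) : D.O := D.of ((X - C (D.e i)) ^ D.n) - D.y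

theorem deg_h0 (i : Fin D.n) (j : ℕ) : D.deg j (D.h0 i) = D.n := by
  have h1 : ((X - C (D.e i)) ^ D.n).Monic := (monic_X_sub_C _).pow _
  have h2 : ((X - C (D.e i)) ^ D.n).natDegree = D.n := by
    rw [(monic_X_sub_C _).natDegree_pow, natDegree_X_sub_C, mul_one]
  have h3 := D.n1_lt_n
  have h4 := Dg_xi ((X - C (D.e i)) ^ D.n)
  rw [h2] at h4
  rw [deg, h0, map_sub, ι_of, ι_y]
  refine (h4.sub ((D.Dg_yj j).mono (by omega))).dg_eq ?_
  rw [HahnSeries.coeff_sub, coeff_xi_neg, D.Dg_yj j _ (by omega), sub_zero]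
  have h5 := h1.coeff_natDegree
  rw [h2] at h5
  rw [h5]
  exact one_ne_zero

theorem h0_ne (i : Fin D.n) : D.h0 i ≠ 0 := fun h => by
  have h1 := D.deg_h0 i 0
  have h2 := D.n1_lt_n
  rw [h, deg, map_zero, dg, HahnSeries.order_zero] at h1
  omega

end Vale.Agent.P319A.Crv
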