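import Vale.Agent.P319A.Inf

/-!
The function field `L`, values at the ramification points, Hilbert 90.
-/

open Polynomial Finset LaurentSeries

namespace Vale.Agent.P319A.Crv

variable {K : Type} [Field K] (D : Crv K)

/-- The function field. -/
abbrev L : Type := FractionRing D.O

/-- The inclusion of `O` in `L`. -/
noncomputable def am : D.O →+* D.L := algebraMap D.O D.L

theorem am_injective : Function.Injective D.am := IsFractionRing.injective D.O D.L

/-- The automorphisms of `L`. -/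
noncomputable def sL (j : ℕ) : D.L →+* D.L :=
  IsFractionRing.lift (g := D.am.comp (D.s j)) (D.am_injective.comp (D.s_bijective j).1)

/-- The expansions of elements of `L`. -/
noncomputable def ιL (j : ℕ) : D.L →+* K⸨X⸩ := IsFractionRing.lift (D.ι_injective j)

/-- Partial norms. -/
noncomputable def gi (g : D.L) (i : ℕ) : D.L := ∏ j ∈ range i, D.sL j g

/-- The trace. -/
noncomputable def tr (g : D.L) : D.L := ∑ j ∈ range D.q, D.sL j g

/-- `g` is regular at the `k`-th ramification point with value `v`. -/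
def Val (k : Fin D.n) (g : D.L) (v : K) : Prop :=
  ∃ a b : D.O, D.ev k b ≠ 0 ∧ g * D.am b = D.am a ∧ D.ev k a = v * D.ev k b

/-- The operator `∑ (b i / (f u)) (g s) ^ i`. -/
noncomputable def op (u : K[X]) (g : D.L) (b : ℕ → D.O) (m : D.L) : D.L :=
  ∑ i ∈ range D.q, D.am (b i) / D.am (D.of (D.f * u)) * D.gi g i * D.sL i m

/-- A solution of the norm equation congruent to `r` modulo `f`. -/
def NormSol (c : K) (u r : K[X]) (g : D.L) : Prop :=
  D.gi g D.q = D.am (D.of (C c * u)) ∧ ∃ (s : K[X]) (o : D.O), IsCoprime s D.f ∧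
    D.am (D.of s) * g = D.am (D.of (s * r) + D.of D.f * o)

/-- A lattice with `I M = g s M`, trivial at the ramification points. -/
structure Lat (I : Ideal D.O) (g : D.L) (M : Submodule D.O D.L) : Prop where
  one : (1 : D.L) ∈ M
  den : ∃ s : K[X], IsCoprime s D.f ∧ ∀ m ∈ M, ∃ o, D.am (D.of s) * m = D.am o
  iff : ∀ i < D.q, ∀ x : D.L, (∀ γ ∈ D.Ii I i, ∃ o, x * D.am γ = D.am o) ↔
    ∀ m ∈ M, x * D.gi g i * D.sL i m ∈ M

@[simp] theorem sL_am (j : ℕ) (b : D.O) : D.sL j (D.am b) = D.am (D.s j b) :=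
  IsFractionRing.lift_algebraMap _ b

@[simp] theorem ιL_am (j : ℕ) (b : D.O) : D.ιL j (D.am b) = D.ι j b :=
  IsFractionRing.lift_algebraMap _ b

theorem lb_ext {R : Type} [CommRing R] {g g' : D.L →+* R} (h : ∀ b, g (D.am b) = g' (D.am b)) :
    g = g' := IsLocalization.ringHom_ext (nonZeroDivisors D.O) (RingHom.ext h)

theorem am_ne {b : D.O} (h : b ≠ 0) : D.am b ≠ 0 := (map_ne_zero_iff _ D.am_injective).2 h

theorem smul_L (b : D.O) (x : D.L) : b • x = D.am b * x := Algebra.smul_def b x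

/-- Every element has a polynomial denominator. -/
theorem exists_den (x : D.L) : ∃ (s : K[X]) (a : D.O), s ≠ 0 ∧ D.am (D.of s) * x = D.am a := by
  obtain ⟨a, b, hb, rfl⟩ := IsFractionRing.div_surjective (A := D.O) x
  have hb0 : b ≠ 0 := nonZeroDivisors.ne_zero hb
  refine ⟨D.nrm b, a * ∏ j ∈ range (D.q - 1), D.s (j + 1) b, D.nrm_ne hb0, ?_⟩
  have h1 := D.am_ne hb0
  rw [← mul_cof, map_mul, map_mul]
  change D.am b * _ * (D.am a / D.am b) = _
  field_simp

@[simp] theorem sL_zero (x : D.L) : D.sL 0 x = x :=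
  RingHom.congr_fun (D.lb_ext (g' := RingHom.id _) fun b => by simp) x

theorem sL_sL (i j : ℕ) (x : D.L) : D.sL i (D.sL j x) = D.sL (i + j) x :=
  RingHom.congr_fun (D.lb_ext (g := (D.sL i).comp (D.sL j)) fun b => by simp [s_s]) x

theorem sL_add_q (j : ℕ) : D.sL (j + D.q) = D.sL j :=
  D.lb_ext fun b => by simp [s_add_q]

theorem sL_q (x : D.L) : D.sL D.q x = x :=
  RingHom.congr_fun (D.lb_ext (g' := RingHom.id _) fun b => by simp [s_q]) x

theorem ιL_sL (j i : ℕ) (x : D.L) : D.ιL j (D.sL i x) = D.ιL (j + i) x :=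
  RingHom.congr_fun (D.lb_ext (g := (D.ιL j).comp (D.sL i)) fun b => by simp [ι_s]) x

theorem ιL_add_q (j : ℕ) : D.ιL (j + D.q) = D.ιL j :=
  D.lb_ext fun b => by simp [ι_add_q]

theorem gi_zero (g : D.L) : D.gi g 0 = 1 := Finset.prod_range_zero _

theorem gi_succ (g : D.L) (i : ℕ) : D.gi g (i + 1) = g * D.sL 1 (D.gi g i) := by
  rw [gi, gi, Finset.prod_range_succ', sL_zero, map_prod, mul_comm]
  simp only [sL_sL, add_comm 1]

theorem gi_add (g : D.L) (i j : ℕ) : D.gi g (i + j) = D.gi g i * D.sL i (D.gi g j) := by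
  rw [gi, gi, gi, Finset.prod_range_add, map_prod]
  simp only [sL_sL]

theorem gi_mul (g g' : D.L) (i : ℕ) : D.gi (g * g') i = D.gi g i * D.gi g' i := by
  simp only [gi, map_mul, Finset.prod_mul_distrib]

theorem gi_inv (g : D.L) (i : ℕ) : D.gi g⁻¹ i = (D.gi g i)⁻¹ := by
  simp only [gi, map_inv₀, Finset.prod_inv_distrib]

theorem gi_ne {g : D.L} (h : g ≠ 0) (i : ℕ) : D.gi g i ≠ 0 :=
  Finset.prod_ne_zero_iff.2 fun _ _ => (_root_.map_ne_zero _).2 h

theorem gi_am (b : D.O) : D.gi (D.am b) D.q = D.am (D.of (D.nrm b)) := by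
  simp only [gi, sL_am, of_nrm, map_prod]

/-- Telescoping. -/
theorem gi_div {w : D.L} (h : w ≠ 0) (i : ℕ) : D.gi (D.sL 1 w / w) i = D.sL i w / w := by
  induction i with
  | zero => rw [gi_zero, sL_zero, div_self h]
  | succ i ih =>
    have h1 : D.sL 1 w ≠ 0 := (_root_.map_ne_zero _).2 h
    rw [gi_succ, ih, map_div₀, sL_sL, add_comm 1]
    field_simp

theorem dg_gi {g : D.L} (h : g ≠ 0) (j i : ℕ) :
    dg (D.ιL j (D.gi g i)) = ∑ l ∈ range i, dg (D.ιL (j + l) g) := by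
  rw [gi, map_prod, dg_prod fun l _ => (_root_.map_ne_zero _).2 ((_root_.map_ne_zero _).2 h)]
  simp only [ιL_sL]

/-- Fourier inversion for operators `∑ a i * s ^ i`. -/
theorem op_dft (a : ℕ → D.L) (m : D.L) {i : ℕ} (hi : i < D.q) :
    D.am (D.of (C (D.q : K) * D.f)) * (a i * D.sL i m) =
      ∑ j ∈ range D.q, D.am (D.of (C (D.ζ⁻¹ ^ (j * i))) * D.y ^ (D.q - j)) *
        ∑ l ∈ range D.q, a l * D.sL l (D.am (D.y ^ j) * m) := by
  have h1 : ∀ j ∈ range D.q, D.am (D.of (C (D.ζ⁻¹ ^ (j * i))) * D.y ^ (D.q - j)) *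
      ∑ l ∈ range D.q, a l * D.sL l (D.am (D.y ^ j) * m) = ∑ l ∈ range D.q,
        D.am (D.of (C (D.ζ⁻¹ ^ (j * i) * D.ζ ^ (j * l)) * D.f)) * (a l * D.sL l m) := by
    intro j hj
    rw [Finset.mul_sum]
    refine Finset.sum_congr rfl fun l _ => ?_
    have h2 : D.of (C (D.ζ⁻¹ ^ (j * i) * D.ζ ^ (j * l)) * D.f) =
        D.of (C (D.ζ⁻¹ ^ (j * i))) * D.y ^ (D.q - j) * D.s l (D.y ^ j) := by
      rw [map_pow (D.s l), s_y, mul_pow, ← map_pow, ← C_pow, ← pow_mul, mul_comm l j, C_mul,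
        map_mul, map_mul, ← y_pow, mul_mul_mul_comm, ← pow_add,
        Nat.sub_add_cancel (Finset.mem_range.1 hj).le]
    rw [h2, map_mul D.am _ (D.s l _), map_mul (D.sL l), sL_am]
    ring
  rw [Finset.sum_congr rfl h1, Finset.sum_comm, Finset.sum_eq_single i]
  · rw [← Finset.sum_mul, ← map_sum, ← map_sum, ← Finset.sum_mul, ← map_sum,
      D.sum_ζ_inv hi hi, if_pos rfl]
  · intro l hl hli
    rw [← Finset.sum_mul, ← map_sum, ← map_sum, ← Finset.sum_mul, ← map_sum,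
      D.sum_ζ_inv (Finset.mem_range.1 hl) hi, if_neg hli]
    simp
  · simp [hi]

/-- Independence of the automorphisms. -/
theorem indep (a : ℕ → D.L)
    (h : ∀ j < D.q, ∑ l ∈ range D.q, a l * D.sL l (D.am (D.y ^ j)) = 0) :
    ∀ i < D.q, a i = 0 := fun i hi => by
  have h1 := D.op_dft a 1 hi
  rw [Finset.sum_eq_zero fun j hj => by
    rw [mul_one, h j (Finset.mem_range.1 hj), mul_zero], map_one, mul_one] at h1
  exact (mul_eq_zero.1 h1).resolve_left
    (D.am_ne (D.of_ne (mul_ne_zero (C_ne_zero.2 D.q_ne) D.f_monic.ne_zero)))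

theorem lb_shift {g : D.L} (x : D.L) :
    g * D.sL 1 (∑ i ∈ range D.q, D.gi g i * D.sL i x) =
      ∑ i ∈ range D.q, D.gi g i * D.sL i x + (D.gi g D.q - 1) * x := by
  have h1 := Finset.sum_range_succ (fun i => D.gi g i * D.sL i x) D.q
  rw [Finset.sum_range_succ', gi_zero, sL_zero, sL_q] at h1
  rw [map_sum, Finset.mul_sum, sub_mul, ← add_sub_assoc, ← h1, add_sub_cancel_right]
  refine Finset.sum_congr rfl fun i _ => ?_
  rw [map_mul, gi_succ, sL_sL, add_comm 1, mul_assoc]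

/-- Hilbert 90: some `∑ gi γ⁻¹ i * s ^ i (y ^ a)` is nonzero by `indep`. -/
theorem h90 {γ : D.L} (h : D.gi γ D.q = 1) : ∃ w : D.L, w ≠ 0 ∧ γ = D.sL 1 w / w := by
  have h0 : γ ≠ 0 := by
    rintro rfl
    rw [← Nat.sub_add_cancel D.q_pos, gi_succ, zero_mul] at h
    exact zero_ne_one h
  have h1 : ∃ j, ∑ l ∈ range D.q, D.gi γ⁻¹ l * D.sL l (D.am (D.y ^ j)) ≠ 0 := by
    by_contra! h1
    have h2 := D.indep _ (fun j _ => h1 j) 0 D.q_pos
    rw [gi_zero] at h2
    exact one_ne_zero h2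
  obtain ⟨j, hj⟩ := h1
  refine ⟨_, hj, ?_⟩
  have h2 := D.lb_shift (g := γ⁻¹) (D.am (D.y ^ j))
  rw [gi_inv, h, inv_one, sub_self, zero_mul, add_zero, inv_mul_eq_iff_eq_mul₀ h0] at h2
  rw [h2, mul_div_assoc, div_self hj, mul_one]

/-- The cofactor of `x - e k` in `f`. -/
noncomputable def lbF (k : Fin D.n) : K[X] := ∏ l ∈ univ.erase k, (X - C (D.e l))

theorem lbF_mul (k : Fin D.n) : (X - C (D.e k)) * D.lbF k = D.f :=
  Finset.mul_prod_erase _ (fun l => X - C (D.e l)) (Finset.mem_univ k)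

theorem lbF_self (k : Fin D.n) : (D.lbF k).eval (D.e k) ≠ 0 := by
  rw [lbF, eval_prod]
  refine Finset.prod_ne_zero_iff.2 fun l hl h => Finset.ne_of_mem_erase hl (D.he ?_)
  rw [eval_sub, eval_X, eval_C, sub_eq_zero] at h
  exact h.symm

theorem lbF_ne {k l : Fin D.n} (h : l ≠ k) : (D.lbF k).eval (D.e l) = 0 := by
  rw [lbF, eval_prod]
  exact Finset.prod_eq_zero (Finset.mem_erase.2 ⟨h, Finset.mem_univ l⟩) (by simp)

variable {D}

theorem Val.unique {k : Fin D.n} {g : D.L} {v v' : K} (h : D.Val k g v) (h' : D.Val k g v') :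
    v = v' := by
  obtain ⟨a, b, h1, h2, h3⟩ := h
  obtain ⟨a', b', h1', h2', h3'⟩ := h'
  have h4 : a * b' = a' * b := D.am_injective (by rw [map_mul, map_mul, ← h2, ← h2']; ring)
  have h5 := congrArg (D.ev k) h4
  rw [map_mul, map_mul, h3, h3', mul_right_comm v'] at h5
  exact mul_right_cancel₀ h1 (mul_right_cancel₀ h1' h5)

theorem Val.am (k : Fin D.n) (b : D.O) : D.Val k (D.am b) (D.ev k b) :=
  ⟨b, 1, by simp, by simp, by simp⟩

theorem Val.add {k : Fin D.n} {g g' : D.L} {v v' : K} (h : D.Val k g v) (h' : D.Val k g' v') :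
    D.Val k (g + g') (v + v') := by
  obtain ⟨a, b, h1, h2, h3⟩ := h
  obtain ⟨a', b', h1', h2', h3'⟩ := h'
  refine ⟨a * b' + a' * b, b * b', by simp [h1, h1'], ?_, ?_⟩
  · simp only [map_add, map_mul, ← h2, ← h2']; ring
  · simp only [map_add, map_mul, h3, h3']; ring

theorem Val.mul {k : Fin D.n} {g g' : D.L} {v v' : K} (h : D.Val k g v) (h' : D.Val k g' v') :
    D.Val k (g * g') (v * v') := by
  obtain ⟨a, b, h1, h2, h3⟩ := h
  obtain ⟨a', b', h1', h2', h3'⟩ := h'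
  refine ⟨a * a', b * b', by simp [h1, h1'], ?_, ?_⟩
  · simp only [map_mul, ← h2, ← h2']; ring
  · simp only [map_mul, h3, h3']; ring

theorem Val.ne {k : Fin D.n} {g : D.L} {v : K} (h : D.Val k g v) (hv : v ≠ 0) : g ≠ 0 := by
  rintro rfl
  exact hv (h.unique ⟨0, 1, by simp, by simp, by simp⟩)

theorem Val.inv {k : Fin D.n} {g : D.L} {v : K} (h : D.Val k g v) (hv : v ≠ 0) :
    D.Val k g⁻¹ v⁻¹ := by
  have h0 := h.ne hv
  obtain ⟨a, b, h1, h2, h3⟩ := h
  exact ⟨b, a, h3 ▸ mul_ne_zero hv h1, by rw [← h2, inv_mul_cancel_left₀ h0],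
    by rw [h3, inv_mul_cancel_left₀ hv]⟩

theorem Val.sL {k : Fin D.n} {g : D.L} {v : K} (h : D.Val k g v) (j : ℕ) :
    D.Val k (D.sL j g) v := by
  obtain ⟨a, b, h1, h2, h3⟩ := h
  exact ⟨D.s j a, D.s j b, by rwa [ev_s], by rw [← sL_am, ← map_mul, h2, sL_am],
    by rwa [ev_s, ev_s]⟩

theorem Val.gi {k : Fin D.n} {g : D.L} {v : K} (h : D.Val k g v) (i : ℕ) :
    D.Val k (D.gi g i) (v ^ i) := by
  induction i with
  | zero => simpa [gi_zero] using Val.am k (1 : D.O)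
  | succ i ih =>
    rw [gi_succ, pow_succ']
    exact h.mul (ih.sL 1)

theorem Val.sum {ι : Type} {t : Finset ι} {k : Fin D.n} {g : ι → D.L} {v : ι → K}
    (h : ∀ i ∈ t, D.Val k (g i) (v i)) : D.Val k (∑ i ∈ t, g i) (∑ i ∈ t, v i) := by
  classical
  induction t using Finset.induction_on with
  | empty => simpa using Val.am k (0 : D.O)
  | insert a t ha ih =>
    rw [Finset.sum_insert ha, Finset.sum_insert ha]
    exact (h a (Finset.mem_insert_self a t)).add (ih fun i hi => h i (Finset.mem_insert_of_mem hi))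

/-- An element regular at all ramification points has a denominator prime to `f`:
`s = ∑ k, (f / (x - e k)) * nrm (b k)`. -/
theorem den_of_val {g : D.L} (h : ∀ k, ∃ v, D.Val k g v) :
    ∃ (s : K[X]) (a : D.O), IsCoprime s D.f ∧ D.am (D.of s) * g = D.am a := by
  choose v a b h1 h2 h3 using h
  refine ⟨∑ k, D.lbF k * D.nrm (b k),
    ∑ k, D.of (D.lbF k) * (∏ j ∈ range (D.q - 1), D.s (j + 1) (b k)) * a k,
    D.cop_iff.2 fun k => ?_, ?_⟩
  · rw [eval_finsetSum, Finset.sum_eq_single k (fun l _ hl => by simp [D.lbF_ne hl.symm])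
      (by simp), eval_mul, eval_nrm]
    exact mul_ne_zero (D.lbF_self k) (pow_ne_zero _ (h1 k))
  · rw [map_sum, map_sum, map_sum, Finset.sum_mul]
    refine Finset.sum_congr rfl fun k _ => ?_
    rw [map_mul D.of, ← mul_cof]
    simp only [map_mul, ← h2]
    ring

theorem NormSol.val {c : K} {u r : K[X]} {g : D.L} (h : D.NormSol c u r g) (k : Fin D.n) :
    D.Val k g (r.eval (D.e k)) := by
  obtain ⟨-, s, o, h1, h2⟩ := h
  exact ⟨_, D.of s, by simpa using D.cop_iff.1 h1 k, (mul_comm _ _).trans h2,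
    by simp [f_eval, mul_comm]⟩

end Vale.Agent.P319A.Crv
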