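import Vale.Agent.P319A.LBasic
import Vale.Agent.P319A.Ideals

/-!
Fractional ideals and the lattice `M = ∑ (Ii I i)⁻¹ * gi g i`.
-/

open Polynomial Finset nonZeroDivisors

namespace Vale.Agent.P319A.Crv

variable {K : Type} [Field K] (D : Crv K)

/-- Fractional ideals. -/
abbrev FI : Type := FractionalIdeal (D.O)⁰ D.L

/-- Extension of a ring automorphism to `L`. -/
noncomputable def extL (τ : D.O ≃+* D.O) : D.L ≃+* D.L := IsFractionRing.ringEquivOfRingEquiv τ

/-- Action of a ring automorphism on fractional ideals. -/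
noncomputable def extF (τ : D.O ≃+* D.O) : D.FI ≃+* D.FI :=
  FractionalIdeal.ringEquivOfRingEquiv D.L D.L τ

theorem extL_am (τ : D.O ≃+* D.O) (b : D.O) : D.extL τ (D.am b) = D.am (τ b) :=
  IsFractionRing.ringEquivOfRingEquiv_algebraMap τ b

theorem extL_σ (x : D.L) : D.extL D.σ x = D.sL 1 x :=
  RingHom.congr_fun (D.lb_ext (g := (D.extL D.σ : D.L →+* D.L)) fun b => by
    rw [sL_am]; exact D.extL_am _ b) x

theorem lat_mem (τ : D.O ≃+* D.O) (J : D.FI) (z : D.L) :
    z ∈ D.extF τ J ↔ ∃ x ∈ J, D.extL τ x = z := Iff.rfl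

theorem mem_extF (τ : D.O ≃+* D.O) (J : D.FI) (x : D.L) : D.extL τ x ∈ D.extF τ J ↔ x ∈ J := by
  simp [lat_mem]

theorem extF_coe (τ : D.O ≃+* D.O) (I : Ideal D.O) :
    D.extF τ (I : D.FI) = ((I.map τ : Ideal D.O) : D.FI) := by
  ext z
  simp only [lat_mem, FractionalIdeal.mem_coeIdeal, Ideal.mem_map_of_equiv]
  constructor
  · rintro ⟨_, ⟨b, hb, rfl⟩, rfl⟩
    exact ⟨_, ⟨b, hb, rfl⟩, (D.extL_am τ b).symm⟩
  · rintro ⟨_, ⟨b, hb, rfl⟩, rfl⟩
    exact ⟨_, ⟨b, hb, rfl⟩, D.extL_am τ b⟩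

theorem extF_span (τ : D.O ≃+* D.O) (x : D.L) :
    D.extF τ (FractionalIdeal.spanSingleton _ x) =
      FractionalIdeal.spanSingleton _ (D.extL τ x) :=
  FractionalIdeal.ringEquivOfRingEquiv_spanSingleton _ _ τ x

theorem extF_comm {τ τ' : D.O ≃+* D.O} (h : ∀ b, τ (τ' b) = τ' (τ b)) (J : D.FI) :
    D.extF τ (D.extF τ' J) = D.extF τ' (D.extF τ J) := by
  have h1 : ∀ x, D.extL τ (D.extL τ' x) = D.extL τ' (D.extL τ x) :=
    RingHom.congr_fun (D.lb_ext
      (g := (D.extL τ : D.L →+* D.L).comp (D.extL τ' : D.L →+* D.L))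
      (g' := (D.extL τ' : D.L →+* D.L).comp (D.extL τ : D.L →+* D.L)) fun b => by
        simp [extL_am, h])
  ext z
  obtain ⟨z, rfl⟩ := (D.extL τ).surjective z
  obtain ⟨z, rfl⟩ := (D.extL τ').surjective z
  rw [mem_extF, mem_extF, h1, mem_extF, mem_extF]

theorem lat_mem_iter (τ : D.O ≃+* D.O) (N : ℕ) (J : D.FI) (z : D.L) :
    z ∈ (D.extF τ)^[N] J ↔ ∃ x ∈ J, (D.extL τ)^[N] x = z := by
  induction N generalizing z with
  | zero => simp
  | succ N ih => simp [Function.iterate_succ_apply', lat_mem, ih]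

theorem extF_iterate {τ τ' : D.O ≃+* D.O} {N : ℕ} (h : ∀ b, τ' b = τ^[N] b) (J : D.FI) :
    D.extF τ' J = (D.extF τ)^[N] J := by
  have h1 : ∀ n b, (D.extL τ)^[n] (D.am b) = D.am (τ^[n] b) := fun n => by
    induction n with
    | zero => simp
    | succ n ih => simp [Function.iterate_succ_apply', ih, extL_am]
  have h2 : ∀ x, D.extL τ' x = (D.extL τ)^[N] x := fun x => by
    have h3 := RingHom.congr_fun (D.lb_ext (g := (D.extL τ' : D.L →+* D.L))
      (g' := (D.extL τ : D.L →+* D.L) ^ N) fun b => by simp [extL_am, h, h1]) x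
    simpa using h3
  ext z
  simp only [lat_mem, lat_mem_iter, h2]

theorem lat_iter (i : ℕ) (x : D.L) : (D.extL D.σ)^[i] x = D.sL i x := by
  induction i with
  | zero => simp
  | succ i ih => rw [Function.iterate_succ_apply', ih, extL_σ, sL_sL, add_comm]

theorem extF_σ_q (J : D.FI) : (D.extF D.σ)^[D.q] J = J := by
  ext z
  simp [lat_mem_iter, lat_iter, sL_q]

/-- With `M = ∑ i < q, (Ii I i)⁻¹ * (gi g i)` one has `I * M = (g) * σ M`, hence
`Ii I i * M = (gi g i) * σ ^ i M`; cancel `M ≠ 0` in the semifield of fractional ideals. -/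
theorem exists_lat {I : Ideal D.O} {c : K} {u r : K[X]} {g : D.L} (hI : D.Nm I u) (hc : c ≠ 0)
    (hg : D.NormSol c u r g) : ∃ M, D.Lat I g M := by
  obtain ⟨g1, s, o, s1, s2⟩ := hg
  let sp : D.L → D.FI := FractionalIdeal.spanSingleton _
  have spm : ∀ x z, sp (x * z) = sp x * sp z := fun x z =>
    (FractionalIdeal.spanSingleton_mul_spanSingleton x z).symm
  have sp1 : ∀ b, sp (D.am b) ≤ 1 := fun b =>
    FractionalIdeal.spanSingleton_le_iff_mem.2 ((FractionalIdeal.mem_one_iff _).2 ⟨b, rfl⟩)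
  let J : ℕ → D.FI := fun i => (D.Ii I i : D.FI)
  have J1 : ∀ i, J (i + 1) = I * D.extF D.σ (J i) := fun i => by
    simp only [J, Ii_succ, FractionalIdeal.coeIdeal_mul, extF_coe]
    rfl
  have J2 : ∀ i ≤ D.q, sp (D.am (D.of u)) ≤ J i := fun i hi =>
    FractionalIdeal.spanSingleton_le_iff_mem.2
      (FractionalIdeal.mem_coeIdeal_of_mem _ (hI.mem hi))
  have u0 : sp (D.am (D.of u)) ≠ 0 :=
    FractionalIdeal.spanSingleton_ne_zero_iff.2 (D.am_ne (D.of_ne hI.monic.ne_zero))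
  have J3 : ∀ i ≤ D.q, J i ≠ 0 := fun i hi h => u0 (le_antisymm (h ▸ J2 i hi) zero_le)
  have I0 : (I : D.FI) ≠ 0 := FractionalIdeal.coeIdeal_ne_zero.2 hI.ne_bot
  have G1 : ∀ i, sp (D.gi g (i + 1)) = sp g * D.extF D.σ (sp (D.gi g i)) := fun i => by
    rw [gi_succ, spm, extF_span, extL_σ]
  let T : ℕ → D.FI := fun i => (J i)⁻¹ * sp (D.gi g i)
  have T0 : T 0 = 1 := by
    simp only [T, J, Ii_zero, gi_zero, FractionalIdeal.coeIdeal_top, inv_one, one_mul]
    exact FractionalIdeal.spanSingleton_one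
  have Tq : T D.q = 1 := by
    have h1 : sp (D.am (D.of (C c))) = 1 := by
      refine le_antisymm (sp1 _) ?_
      have h2 := mul_le_mul_right (sp1 (D.of (C c⁻¹))) (sp (D.am (D.of (C c))))
      rwa [mul_one, ← spm, ← map_mul, ← map_mul, ← C_mul, mul_inv_cancel₀ hc, C_1, map_one,
        map_one, show sp 1 = 1 from FractionalIdeal.spanSingleton_one] at h2
    simp only [T, J, hI.norm, g1, map_mul, spm, h1, one_mul,
      FractionalIdeal.coeIdeal_span_singleton]
    exact inv_mul_cancel₀ u0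
  have T1 : ∀ i, I * T (i + 1) = sp g * D.extF D.σ (T i) := fun i => by
    simp only [T, J1, G1, map_mul, map_inv₀, mul_inv]
    rw [mul_assoc, mul_inv_cancel_left₀ I0, mul_left_comm]
  set M := ∑ i ∈ range D.q, T i with hM
  have M1 : I * M = sp g * D.extF D.σ M := by
    have h1 : ∑ i ∈ range D.q, T (i + 1) = M := by
      rw [hM, ← Nat.sub_add_cancel D.q_pos, Finset.sum_range_succ, Finset.sum_range_succ',
        Nat.sub_add_cancel D.q_pos, T0, Tq]
    conv_lhs => rw [← h1]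
    rw [hM, map_sum, Finset.mul_sum, Finset.mul_sum]
    exact Finset.sum_congr rfl fun i _ => T1 i
  have M2 : ∀ i, J i * M = sp (D.gi g i) * (D.extF D.σ)^[i] M := fun i => by
    induction i with
    | zero =>
      simp only [J, Ii_zero, gi_zero, FractionalIdeal.coeIdeal_top, Function.iterate_zero, id]
      rw [show sp 1 = 1 from FractionalIdeal.spanSingleton_one]
    | succ i ih =>
      rw [J1, G1, Function.iterate_succ_apply', mul_assoc (sp g), ← map_mul, ← ih, map_mul,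
        mul_right_comm, M1, mul_assoc, mul_comm (D.extF D.σ M)]
  have M3 : 1 ≤ M := T0 ▸ Finset.single_le_sum (f := T) (fun i _ => zero_le)
    (Finset.mem_range.2 D.q_pos)
  have M0 : M ≠ 0 := fun h => one_ne_zero (le_antisymm (h ▸ M3) zero_le)
  refine ⟨M, M3 ((FractionalIdeal.mem_one_iff _).2 ⟨1, map_one _⟩),
    ⟨u * s ^ D.q, hI.cop.mul_left s1.pow_left, ?_⟩, fun i hi x => ?_⟩
  · have h1 : sp (D.am (D.of (u * s ^ D.q))) * M ≤ 1 := by
      rw [hM, Finset.mul_sum]
      refine Finset.sum_induction _ (· ≤ (1 : D.FI)) (fun a b ha hb => sup_le ha hb)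
        zero_le fun i hi => ?_
      replace hi := (Finset.mem_range.1 hi).le
      have h2 : D.am (D.of (s ^ D.q)) * D.gi g i = D.am (D.of (s ^ (D.q - i)) *
          ∏ j ∈ range i, D.s j (D.of (s * r) + D.of D.f * o)) := by
        have h3 : D.gi (D.am (D.of s) * g) i = D.am (D.of (s ^ i)) * D.gi g i := by
          rw [gi_mul]
          simp [gi]
        rw [map_mul, map_prod]
        simp only [← sL_am, ← s2]
        rw [← gi, h3, ← mul_assoc, ← map_mul, ← map_mul, ← pow_add, Nat.sub_add_cancel hi]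
      rw [map_mul, map_mul, spm, mul_mul_mul_comm, ← spm, h2]
      refine mul_le_one' ?_ (sp1 _)
      rw [← mul_inv_cancel₀ (J3 i hi)]
      exact mul_le_mul_left (J2 i hi) _
    intro m hm
    obtain ⟨b, hb⟩ := (FractionalIdeal.mem_one_iff _).1
      (FractionalIdeal.spanSingleton_mul_le_iff.1 h1 m hm)
    exact ⟨b, hb.symm⟩
  · have h1 : (∀ γ ∈ D.Ii I i, ∃ o, x * D.am γ = D.am o) ↔ sp x * J i ≤ 1 := by
      simp only [sp, J, FractionalIdeal.spanSingleton_mul_le_iff, FractionalIdeal.mem_coeIdeal,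
        FractionalIdeal.mem_one_iff, forall_exists_index, and_imp, forall_apply_eq_imp_iff₂]
      exact forall₂_congr fun γ _ => exists_congr fun o => eq_comm
    have h2 : sp x * J i ≤ 1 ↔ sp x * J i * M ≤ M := by
      refine ⟨fun h => by simpa using mul_le_mul_left h M, fun h => ?_⟩
      have h3 := mul_le_mul_left h M⁻¹
      rwa [mul_inv_cancel_right₀ M0, mul_inv_cancel₀ M0] at h3
    rw [h1, h2, mul_assoc, M2, ← mul_assoc, ← spm]
    simp only [sp, FractionalIdeal.spanSingleton_mul_le_iff, lat_mem_iter, lat_iter,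
      forall_exists_index, and_imp, forall_apply_eq_imp_iff₂, FractionalIdeal.mem_coe]

end Vale.Agent.P319A.Crv
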