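import Mathlib

/-!
Degrees at infinity for Laurent series in `t = 1 / x`.
-/

open Polynomial HahnSeries LaurentSeries

namespace Vale.Agent.P319A

variable {K : Type} [Field K]

/-- Degree at most `m`: the coefficients of `t ^ k` vanish for `k < -m`. -/
def Dg (z : K⸨X⸩) (m : ℤ) : Prop := ∀ k < -m, z.coeff k = 0

/-- The degree of a Laurent series in `t = 1 / x`. -/
noncomputable def dg (z : K⸨X⸩) : ℤ := -z.order

/-- The embedding `x ↦ t⁻¹`. -/
noncomputable def xi : K[X] →+* K⸨X⸩ :=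
  Polynomial.eval₂RingHom (HahnSeries.C : K →+* K⸨X⸩) (single (-1) 1)

theorem Dg.mono {z : K⸨X⸩} {m m' : ℤ} (h : Dg z m) (hm : m ≤ m') : Dg z m' :=
  fun k hk => h k (by omega)

theorem Dg.zero (m : ℤ) : Dg (0 : K⸨X⸩) m := fun _ _ => rfl

theorem Dg.add {z w : K⸨X⸩} {m : ℤ} (h : Dg z m) (h' : Dg w m) : Dg (z + w) m :=
  fun k hk => by rw [HahnSeries.coeff_add, h k hk, h' k hk, add_zero]

theorem Dg.neg {z : K⸨X⸩} {m : ℤ} (h : Dg z m) : Dg (-z) m :=
  fun k hk => by rw [HahnSeries.coeff_neg, h k hk, neg_zero]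

theorem Dg.sub {z w : K⸨X⸩} {m : ℤ} (h : Dg z m) (h' : Dg w m) : Dg (z - w) m :=
  fun k hk => by rw [HahnSeries.coeff_sub, h k hk, h' k hk, sub_zero]

theorem Dg.sum {ι : Type} {s : Finset ι} {z : ι → K⸨X⸩} {m : ℤ} (h : ∀ i ∈ s, Dg (z i) m) :
    Dg (∑ i ∈ s, z i) m :=
  Finset.sum_induction z (fun w => Dg w m) (fun _ _ => Dg.add) (Dg.zero m) h

theorem laur_ne {z : K⸨X⸩} {m i : ℤ} (h : Dg z m) (hi : i ∈ z.support) : -m ≤ i :=
  not_lt.1 fun h1 => hi (h i h1)

theorem Dg.mul {z w : K⸨X⸩} {m m' : ℤ} (h : Dg z m) (h' : Dg w m') : Dg (z * w) (m + m') := by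
  intro k hk
  by_contra h0
  obtain ⟨i, hi, j, hj, rfl⟩ := HahnSeries.support_mul_subset (x := z) (y := w) h0
  have h1 := laur_ne h hi
  have h2 := laur_ne h' hj
  dsimp only at hk
  omega

theorem Dg.coeff_mul {z w : K⸨X⸩} {m m' : ℤ} (h : Dg z m) (h' : Dg w m') :
    (z * w).coeff (-(m + m')) = z.coeff (-m) * w.coeff (-m') := by
  rw [HahnSeries.coeff_mul]
  refine Finset.sum_eq_single (-m, -m') ?_ ?_
  · rintro ⟨i, j⟩ hij hne
    obtain ⟨hi, hj, e⟩ := Finset.mem_antidiagonal.1 hij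
    have h1 := laur_ne h hi
    have h2 := laur_ne h' hj
    dsimp only at e h1 h2
    exact absurd (Prod.ext (by dsimp only; omega) (by dsimp only; omega)) hne
  · intro hn
    by_contra h0
    exact hn (Finset.mem_antidiagonal.2 ⟨left_ne_zero_of_mul h0, right_ne_zero_of_mul h0,
      by dsimp only; omega⟩)

theorem Dg.single (k : ℤ) (c : K) : Dg (single k c : K⸨X⸩) (-k) :=
  fun j hj => HahnSeries.coeff_single_of_ne (by omega)

theorem Dg.C (c : K) : Dg (HahnSeries.C c : K⸨X⸩) 0 := Dg.single 0 c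

theorem coeff_C_mul' (c : K) (z : K⸨X⸩) (k : ℤ) : (HahnSeries.C c * z).coeff k = c * z.coeff k :=
  HahnSeries.coeff_single_zero_mul

theorem Dg.C_mul (c : K) {z : K⸨X⸩} {m : ℤ} (h : Dg z m) : Dg (HahnSeries.C c * z) m :=
  fun k hk => by rw [coeff_C_mul', h k hk, mul_zero]

theorem Dg.ofPowerSeries (S : PowerSeries K) : Dg (HahnSeries.ofPowerSeries ℤ K S) 0 :=
  fun k hk => by rw [PowerSeries.coeff_coe, if_pos (by omega)]

/-- If the top coefficient vanishes the degree drops. -/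
theorem Dg.pred {z : K⸨X⸩} {m : ℤ} (h : Dg z m) (h0 : z.coeff (-m) = 0) : Dg z (m - 1) := by
  intro k hk
  rcases eq_or_ne k (-m) with rfl | h1
  · exact h0
  · exact h k (by omega)

theorem Dg.eq_zero {z : K⸨X⸩} (h : ∀ m, Dg z m) : z = 0 := by
  ext k
  exact h (-(k + 1)) k (by omega)

theorem Dg_dg (z : K⸨X⸩) : Dg z (dg z) :=
  fun _ hk => HahnSeries.coeff_eq_zero_of_lt_order (by rwa [dg, neg_neg] at hk)

theorem coeff_dg_ne {z : K⸨X⸩} (h : z ≠ 0) : z.coeff (-dg z) ≠ 0 := by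
  rw [dg, neg_neg]
  exact fun h1 => h (HahnSeries.coeff_order_eq_zero.1 h1)

theorem Dg.dg_le {z : K⸨X⸩} {m : ℤ} (h : Dg z m) (h0 : z ≠ 0) : dg z ≤ m := by
  have h1 := laur_ne h (coeff_dg_ne h0)
  omega

theorem Dg.dg_eq {z : K⸨X⸩} {m : ℤ} (h : Dg z m) (h0 : z.coeff (-m) ≠ 0) : dg z = m := by
  have h1 := laur_ne (Dg_dg z) h0
  have h2 := h.dg_le (HahnSeries.ne_zero_of_coeff_ne_zero h0)
  omega

theorem dg_mul {z w : K⸨X⸩} (h : z ≠ 0) (h' : w ≠ 0) : dg (z * w) = dg z + dg w := by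
  rw [dg, HahnSeries.order_mul h h', dg, dg, neg_add]

theorem dg_one : dg (1 : K⸨X⸩) = 0 := by rw [dg, HahnSeries.order_one, neg_zero]

theorem dg_C {c : K} : dg (HahnSeries.C c : K⸨X⸩) = 0 := by rw [dg, HahnSeries.order_C, neg_zero]

theorem dg_inv (z : K⸨X⸩) : dg z⁻¹ = -dg z := by
  rcases eq_or_ne z 0 with rfl | h
  · simp [dg]
  · have h1 := dg_mul h (inv_ne_zero h)
    rw [mul_inv_cancel₀ h, dg_one] at h1
    omega

theorem dg_pow (z : K⸨X⸩) (k : ℕ) : dg (z ^ k) = k * dg z := by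
  rw [dg, HahnSeries.order_pow, dg, nsmul_eq_mul, mul_neg]

theorem dg_prod {ι : Type} {s : Finset ι} {z : ι → K⸨X⸩} (h : ∀ i ∈ s, z i ≠ 0) :
    dg (∏ i ∈ s, z i) = ∑ i ∈ s, dg (z i) := by
  classical
  induction s using Finset.induction_on with
  | empty => simp [dg_one]
  | insert a s ha ih =>
    have h1 : ∀ i ∈ s, z i ≠ 0 := fun i hi => h i (Finset.mem_insert_of_mem hi)
    rw [Finset.prod_insert ha, Finset.sum_insert ha,
      dg_mul (h a (Finset.mem_insert_self a s)) (Finset.prod_ne_zero_iff.2 h1), ih h1]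

theorem xi_C (c : K) : xi (Polynomial.C c) = HahnSeries.C c := eval₂_C _ _

theorem xi_X : xi (Polynomial.X : K[X]) = single (-1) 1 := eval₂_X _ _

theorem xi_X_pow (a : ℕ) : xi (Polynomial.X ^ a : K[X]) = single (-(a : ℤ)) 1 := by
  rw [map_pow, xi_X, HahnSeries.single_pow]
  simp

theorem laur_xi_monomial (a : ℕ) (c : K) : xi (monomial a c) = single (-(a : ℤ)) c := by
  rw [← C_mul_X_pow_eq_monomial, map_mul, xi_C, xi_X_pow, HahnSeries.C_apply,
    HahnSeries.single_mul_single, zero_add, mul_one]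

theorem coeff_xi_neg (P : K[X]) (a : ℕ) : (xi P).coeff (-(a : ℤ)) = P.coeff a := by
  induction P using Polynomial.induction_on' with
  | add P Q hP hQ => rw [map_add, HahnSeries.coeff_add, hP, hQ, Polynomial.coeff_add]
  | monomial b c =>
    rw [laur_xi_monomial, HahnSeries.coeff_single, coeff_monomial]
    split_ifs with h1 h2 h2
    · rfl
    · omega
    · omega
    · rfl

theorem coeff_xi_pos (P : K[X]) {k : ℤ} (hk : 0 < k) : (xi P).coeff k = 0 := by
  induction P using Polynomial.induction_on' with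
  | add P Q hP hQ => rw [map_add, HahnSeries.coeff_add, hP, hQ, add_zero]
  | monomial b c => rw [laur_xi_monomial, HahnSeries.coeff_single_of_ne (by omega)]

theorem xi_injective : Function.Injective (xi : K[X] → K⸨X⸩) := fun P Q h => by
  ext a
  rw [← coeff_xi_neg, ← coeff_xi_neg, h]

theorem Dg_xi (P : K[X]) : Dg (xi P) P.natDegree := by
  intro k hk
  obtain ⟨a, rfl⟩ : ∃ a : ℕ, k = -(a : ℤ) := ⟨(-k).toNat, by omega⟩
  rw [coeff_xi_neg]
  exact coeff_eq_zero_of_natDegree_lt (by omega)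

theorem dg_xi (P : K[X]) : dg (xi P) = P.natDegree := by
  rcases eq_or_ne P 0 with rfl | h
  · simp [dg]
  · refine (Dg_xi P).dg_eq ?_
    rw [coeff_xi_neg]
    exact leadingCoeff_ne_zero.2 h

/-- A polynomial whose image has degree at most `m` has no coefficients above `m`. -/
theorem Dg.coeff_of_xi {P : K[X]} {m : ℤ} (h : Dg (xi P) m) {a : ℕ} (ha : m < a) :
    P.coeff a = 0 := by
  rw [← coeff_xi_neg]
  exact h _ (by omega)

/-- A Laurent series without positive powers of `t` is a polynomial in `x`. -/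
theorem exists_xi {z : K⸨X⸩} (h : ∀ k, 0 < k → z.coeff k = 0) : ∃ P, xi P = z := by
  refine ⟨∑ a ∈ Finset.range ((dg z).toNat + 1), monomial a (z.coeff (-(a : ℤ))), ?_⟩
  ext k
  rcases lt_or_ge 0 k with hk | hk
  · rw [coeff_xi_pos _ hk, h k hk]
  · obtain ⟨a, rfl⟩ : ∃ a : ℕ, k = -(a : ℤ) := ⟨(-k).toNat, by omega⟩
    rw [coeff_xi_neg, finsetSum_coeff]
    simp only [coeff_monomial, Finset.sum_ite_eq', Finset.mem_range]
    split_ifs with h1
    · rfl
    · exact (Dg_dg z _ (by omega)).symm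

/-- `xi P = t ^ (-deg P) * reverse P`. -/
theorem xi_eq_reverse (P : K[X]) : xi P = single (-(P.natDegree : ℤ)) 1 *
    HahnSeries.ofPowerSeries ℤ K (P.reverse : PowerSeries K) := by
  ext k
  rw [HahnSeries.coeff_single_mul, one_mul, PowerSeries.coeff_coe]
  split_ifs with h
  · exact Dg_xi P k (by omega)
  · rw [Polynomial.coeff_coe, coeff_reverse]
    rcases lt_or_ge 0 k with hk | hk
    · rw [coeff_xi_pos _ hk, revAt_eq_self_of_lt (by omega)]
      exact (coeff_eq_zero_of_natDegree_lt (by omega)).symm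
    · obtain ⟨a, rfl⟩ : ∃ a : ℕ, k = -(a : ℤ) := ⟨(-k).toNat, by omega⟩
      rw [coeff_xi_neg, revAt_le (by omega)]
      congr 1
      omega

/-- Every series of degree at most `m` is `t ^ (-m)` times a power series. -/
theorem Dg.exists_ps {z : K⸨X⸩} {m : ℤ} (h : Dg z m) : ∃ S : PowerSeries K,
    z = HahnSeries.single (-m) 1 * HahnSeries.ofPowerSeries ℤ K S ∧
    ∀ a : ℕ, PowerSeries.coeff a S = z.coeff (a - m) := by
  refine ⟨PowerSeries.mk fun a => z.coeff (a - m), ?_, fun a => PowerSeries.coeff_mk _ _⟩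
  ext k
  rw [HahnSeries.coeff_single_mul, one_mul, PowerSeries.coeff_coe]
  split_ifs with h1
  · exact h k (by omega)
  · rw [PowerSeries.coeff_mk]
    congr 1
    omega

/-- Roots of power series with constant term one (Hensel, or coefficient recursion). -/
theorem exists_ps_root {q : ℕ} (hq : (q : K) ≠ 0) (S : PowerSeries K)
    (hS : PowerSeries.constantCoeff S = 1) :
    ∃ η : PowerSeries K, PowerSeries.constantCoeff η = 1 ∧ η ^ q = S := by
  have hq0 : q ≠ 0 := by rintro rfl; simp at hq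
  obtain ⟨η, h1, h2⟩ := HenselianRing.is_henselian
    (I := (Ideal.span {PowerSeries.X} : Ideal (PowerSeries K)))
    (Polynomial.X ^ q - Polynomial.C S) (monic_X_pow_sub_C _ hq0) 1
    (by simp [Ideal.mem_span_singleton, PowerSeries.X_dvd_iff, hS])
    (IsUnit.map _ (by simp [derivative_X_pow, PowerSeries.isUnit_iff_constantCoeff, hq]))
  rw [Ideal.mem_span_singleton, PowerSeries.X_dvd_iff, map_sub, map_one, sub_eq_zero] at h2
  exact ⟨η, h2, by simpa [sub_eq_zero] using h1⟩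

/-- Uniqueness of such roots: `η₁ ^ q - η₂ ^ q = (η₁ - η₂) * unit`. -/
theorem ps_root_unique {q : ℕ} (hq : (q : K) ≠ 0) {η₁ η₂ : PowerSeries K}
    (h₁ : PowerSeries.constantCoeff η₁ = 1) (h₂ : PowerSeries.constantCoeff η₂ = 1)
    (h : η₁ ^ q = η₂ ^ q) : η₁ = η₂ := by
  have h1 := geom_sum₂_mul η₁ η₂ q
  rw [h, sub_self] at h1
  refine sub_eq_zero.1 ((mul_eq_zero.1 h1).resolve_left fun h2 => hq ?_)
  have h3 := congrArg PowerSeries.constantCoeff h2
  simpa [map_sum, h₁, h₂] using h3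

end Vale.Agent.P319A
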