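import Vale.Agent.P319A.Laur

/-!
The superelliptic curve `y ^ q = f(x)`, its coordinate ring `O`, the automorphisms `s j`
(`y ↦ ζ ^ j y`), coordinates, norms, the ramification points and products of ideals.
-/

open Polynomial

namespace Vale.Agent.P319A

/-- Data of the curve: a prime `q`, a primitive root `ζ`, and `n = q * n1` distinct roots. -/
structure Crv (K : Type) [Field K] where
  /-- the prime -/
  q : ℕ
  /-- the quotient `n / q` -/
  n1 : ℕ
  /-- the degree -/
  n : ℕ
  /-- the root of unity -/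
  ζ : K
  /-- the roots of `f` -/
  e : Fin n → K
  hq : q.Prime
  hn : n = q * n1
  hn1 : 0 < n1
  hζ : IsPrimitiveRoot ζ q
  he : Function.Injective e

namespace Crv

variable {K : Type} [Field K] (D : Crv K)

/-- The split squarefree polynomial. -/
noncomputable def f : K[X] := ∏ i, (X - C (D.e i))

/-- The equation of the curve. -/
noncomputable def F : K[X][X] := X ^ D.q - C D.f

theorem F_monic : D.F.Monic := monic_X_pow_sub_C _ D.hq.ne_zero

/-- The coordinate ring. -/
abbrev O : Type := AdjoinRoot D.F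

/-- Polynomials in `x` as elements of `O`. -/
noncomputable def of : K[X] →+* D.O := AdjoinRoot.of D.F

/-- The coordinate `y`. -/
noncomputable def y : D.O := AdjoinRoot.root D.F

theorem y_pow : D.y ^ D.q = D.of D.f := by
  have h := AdjoinRoot.eval₂_root D.F
  rw [F, eval₂_sub, eval₂_X_pow, eval₂_C, sub_eq_zero] at h
  exact h

/-- Ring maps out of `O`. -/
noncomputable def lift {R : Type} [CommRing R] (i : K[X] →+* R) (x : R) (h : x ^ D.q = i D.f) :
    D.O →+* R :=
  AdjoinRoot.lift i x (by rw [F, eval₂_sub, eval₂_X_pow, eval₂_C, h, sub_self])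

@[simp] theorem lift_of {R : Type} [CommRing R] (i : K[X] →+* R) (x : R) (h) (P : K[X]) :
    D.lift i x h (D.of P) = i P := AdjoinRoot.lift_of _

@[simp] theorem lift_y {R : Type} [CommRing R] (i : K[X] →+* R) (x : R) (h) :
    D.lift i x h D.y = x := AdjoinRoot.lift_root _

theorem hom_ext {R : Type} [CommRing R] {g g' : D.O →+* R} (h : ∀ P, g (D.of P) = g' (D.of P))
    (h' : g D.y = g' D.y) : g = g' :=
  AdjoinRoot.ringHom_ext (RingHom.ext h) h'

/-- The automorphism `y ↦ ζ ^ j y`. -/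
noncomputable def s (j : ℕ) : D.O →+* D.O :=
  D.lift D.of (D.of (C (D.ζ ^ j)) * D.y) (by
    rw [mul_pow, y_pow, ← map_pow, ← map_pow, ← pow_mul, mul_comm j, pow_mul, D.hζ.pow_eq_one,
      one_pow, map_one, map_one, one_mul])

@[simp] theorem s_of (j : ℕ) (P : K[X]) : D.s j (D.of P) = D.of P := D.lift_of _ _ _ _

theorem s_y (j : ℕ) : D.s j D.y = D.of (C (D.ζ ^ j)) * D.y := D.lift_y _ _ _

/-- The coordinate of `y ^ l`. -/
noncomputable def co (l : ℕ) : D.O →ₗ[K[X]] K[X] :=
  (Polynomial.lcoeff K[X] l).comp (AdjoinRoot.modByMonicHom D.F_monic)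

/-- The norm to the polynomial ring. -/
noncomputable def nrm (b : D.O) : K[X] := D.co 0 (∏ j ∈ Finset.range D.q, D.s j b)

/-- Evaluation at the ramification point `(e k, 0)`. -/
noncomputable def ev (k : Fin D.n) : D.O →+* K :=
  D.lift (evalRingHom (D.e k)) 0 (by
    rw [zero_pow D.hq.ne_zero, coe_evalRingHom, f, eval_prod]
    exact (Finset.prod_eq_zero (Finset.mem_univ k) (by simp)).symm)

@[simp] theorem ev_of (k : Fin D.n) (P : K[X]) : D.ev k (D.of P) = P.eval (D.e k) :=
  D.lift_of _ _ _ _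

@[simp] theorem ev_y (k : Fin D.n) : D.ev k D.y = 0 := D.lift_y _ _ _

/-- All coordinates have degree at most `m`. -/
def CoLe (b : D.O) (m : ℕ) : Prop := ∀ l, (D.co l b).natDegree ≤ m

/-- The product `I * s I * … * s ^ (i - 1) I`. -/
noncomputable def Ii (I : Ideal D.O) (i : ℕ) : Ideal D.O :=
  ∏ j ∈ Finset.range i, I.map (D.s j)

/-- The part of an ideal prime to `f`. -/
def sat (A : Ideal D.O) : Ideal D.O where
  carrier := {x | ∃ N : ℕ, D.of D.f ^ N * x ∈ A}
  add_mem' := by
    rintro a b ⟨N, h⟩ ⟨M, h'⟩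
    refine ⟨N + M, ?_⟩
    rw [mul_add]
    refine A.add_mem ?_ ?_
    · rw [add_comm, pow_add, mul_assoc]; exact A.mul_mem_left _ h
    · rw [pow_add, mul_assoc]; exact A.mul_mem_left _ h'
  zero_mem' := ⟨0, by simp⟩
  smul_mem' := by
    rintro c a ⟨N, h⟩
    refine ⟨N, ?_⟩
    rw [smul_eq_mul, mul_left_comm]
    exact A.mul_mem_left _ h

/-- The invariant of the ideals: the norm of `I` is generated by `u`, monic and prime to `f`. -/
structure Nm (I : Ideal D.O) (u : K[X]) : Prop where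
  monic : u.Monic
  cop : IsCoprime u D.f
  norm : D.Ii I D.q = Ideal.span {D.of u}

/-- The division relation `I * s I' = (a / b) I'`. -/
def Rel (I I' : Ideal D.O) (a b : D.O) : Prop :=
  Ideal.span {b} * (I * I'.map (D.s 1)) = Ideal.span {a} * I'

/-- The order: `∑ (b i / (f u)) z ^ i` is integral. -/
def Lam (I : Ideal D.O) (u r : K[X]) (b : ℕ → D.O) : Prop :=
  (∀ i < D.q, ∀ γ ∈ D.Ii I i, D.of u ∣ b i * γ) ∧
    ∀ j < D.q, D.of D.f ∣
      D.y ^ j * ∑ i ∈ Finset.range D.q, b i * D.of (r ^ i * C (D.ζ ^ (i * j)))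

/-- Numerators of the product in the cyclic algebra with `z ^ q = w`. -/
noncomputable def cv (w : K[X]) (d b : ℕ → D.O) (k : ℕ) : D.O :=
  ∑ i ∈ Finset.range D.q, if i ≤ k then d i * D.s i (b (k - i))
    else D.of w * (d i * D.s i (b (k + D.q - i)))

/-- The equation `d * b = b` in the cyclic algebra. -/
def Fixd (c : K) (u : K[X]) (d b : ℕ → D.O) : Prop :=
  ∀ k < D.q, D.cv (C c * u) d b k = D.of (D.f * u) * b k

/-- An element with coefficients fixed by `φ`. -/
def Rat (φ : K →+* K) (b : D.O) : Prop := ∀ l, (D.co l b).map φ = D.co l b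

/-- An ideal generated by elements with coefficients fixed by `φ`. -/
def RatI (φ : K →+* K) (I : Ideal D.O) : Prop := ∃ S : Set D.O, I = Ideal.span S ∧ ∀ b ∈ S, D.Rat φ b

/-- Chains of divisions starting from a rational ideal. -/
inductive Chain (φ : K →+* K) : ℕ → Ideal D.O → Prop
  | zero {A : Ideal D.O} : D.RatI φ A → A ≠ ⊥ → Chain φ 0 (D.sat A)
  | succ {j : ℕ} {I I' : Ideal D.O} {a b : D.O} : Chain φ j I → a ≠ 0 → b ≠ 0 → I' ≠ ⊥ →
      D.Rel I I' a b → Chain φ (j + 1) I'

end Crv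

/-- Sums of consecutive entries. -/
def ts (τ : ℕ → ℤ) (j i : ℕ) : ℤ := ∑ l ∈ Finset.range i, τ (j + l)

/-- The difference operator `1 - T`. -/
def dlt (ω : ℕ → ℤ) : ℕ → ℤ := fun k => ω k - ω (k + 1)

end Vale.Agent.P319A
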