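import Vale.Agent.P319A.SFac
import Vale.Agent.Lib.PCP.Base

/-!
The algorithm runs in polynomial time on the explicit codes.
-/

namespace Vale.Agent.P319A

open Vale.Agent.Lib.TM

theorem code_list {β : Type} [Enc β] (f : β → List Bool) (h : ∀ x, (enc x).code = f x)
    (l : List β) : (enc l).code = codeList f l := by
  induction l with
  | nil => rfl
  | cons x l ih => simp [enc_cons, Tr.code, codeList, h, ih]

theorem code_nat (k : ℕ) : (enc k).code = codeNat k :=
  code_list _ (fun b => by cases b <;> rfl) k.bits

theorem code_in (x : ℕ × List ℕ) : (enc x).code = codeIn x := by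
  rw [codeIn, ← code_nat, ← code_list _ code_nat]; rfl

theorem code_out (y : ℕ × List (List ℕ)) : (enc y).code = codeOut y := by
  rw [codeOut, ← code_nat, ← code_list _ (code_list _ code_nat)]; rfl

theorem polyTime_alg (C : ℕ) : PolyTime (alg C) := by
  rw [PolyTime, ← funext code_in, ← funext code_out]
  exact (ct_alg C).polyTime

end Vale.Agent.P319A
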