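import Vale.Agent.P319A.MDefs

/-!
The module lemma and the final divisibility.
-/

open Polynomial Finset

namespace Vale.Agent.P319A

theorem poly_id {q : ℕ} (hq : q.Prime) : ∃ A : ℤ[X],
    (1 - X) ^ (q - 1) = ∑ i ∈ range q, X ^ i + C (q : ℤ) * A ∧ A.eval 1 = -1 := by
  have := Fact.mk hq
  have h1 : ((1 : (ZMod q)[X]) - X) ^ (q - 1) = ∑ i ∈ range q, X ^ i := by
    have h0 : ((1 : (ZMod q)[X]) - X) ≠ 0 := fun h => by
      simpa using congrArg (Polynomial.eval 0) h
    apply mul_left_cancel₀ h0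
    rw [mul_neg_geom_sum, ← pow_succ', Nat.sub_add_cancel hq.pos, sub_pow_char, one_pow]
  obtain ⟨A, hA⟩ : C (q : ℤ) ∣ (1 - X) ^ (q - 1) - ∑ i ∈ range q, X ^ i := by
    refine (C_dvd_iff_dvd_coeff _ _).2 fun i => (ZMod.intCast_zmod_eq_zero_iff_dvd _ q).1 ?_
    have h2 : ((1 - X : ℤ[X]) ^ (q - 1) - ∑ i ∈ range q, X ^ i).map (Int.castRingHom (ZMod q)) =
        0 := by
      simp only [Polynomial.map_sub, Polynomial.map_pow, Polynomial.map_sum, Polynomial.map_one,
        map_X, h1, sub_self]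
    simpa only [coeff_map, eq_intCast, coeff_zero] using congrArg (coeff · i) h2
  refine ⟨A, by rw [← hA]; ring, ?_⟩
  have h2 := congrArg (Polynomial.eval 1) hA
  have h3 : q - 1 ≠ 0 := by have := hq.two_le; omega
  simp only [eval_sub, eval_pow, eval_one, eval_X, sub_self, zero_pow h3, eval_finsetSum,
    one_pow, Finset.sum_const, Finset.card_range, eval_mul, eval_C, nsmul_eq_mul, mul_one] at h2
  apply mul_left_cancel₀ (Int.natCast_ne_zero.2 hq.ne_zero)
  rw [← h2]
  ring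

theorem mdl_poly {q : ℕ} {A : ℤ[X]}
    (h : (1 - X) ^ (q - 1) = ∑ i ∈ range q, X ^ i + C (q : ℤ) * A) :
    (1 - X : ℤ[X]) ^ (q - 1) * (1 - X) = 1 - X ^ q + C (q : ℤ) * A * (1 - X) := by
  rw [h, add_mul, geom_sum_mul_neg]

section

variable {V : Type} [AddCommGroup V] {σ F : Module.End ℤ V}

theorem mdl_comm {S T : Module.End ℤ V} (h : Commute S T) {x : V} (hx : S x = 0) :
    S (T x) = 0 := by
  rw [← Module.End.mul_apply, h.eq, Module.End.mul_apply, hx, map_zero]

theorem mdl_a (hc : Commute σ F) (hker : ∀ x, σ x = x → F x = x) (k : ℕ) : ∀ (j : ℕ) (z : V),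
    ((1 - σ) ^ j) z = 0 → ((1 - σ) ^ (j - k)) (((1 - F) ^ k) z) = 0 := by
  have hc' : Commute (1 - σ) (1 - F) :=
    (Commute.one_left _).sub_left ((Commute.one_right _).sub_right hc)
  induction k with
  | zero => exact fun j z h => h
  | succ k ih =>
    intro j z h
    rw [pow_succ, Module.End.mul_apply, add_comm k, ← Nat.sub_sub]
    refine ih _ _ ?_
    rcases j with _ | j
    · rw [show z = 0 from h, map_zero, map_zero]
    · rw [pow_succ', Module.End.mul_apply, LinearMap.sub_apply, sub_eq_zero] at h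
      rw [Nat.add_sub_cancel, ← Module.End.mul_apply, (hc'.pow_left j).eq, Module.End.mul_apply,
        LinearMap.sub_apply, hker _ h.symm]
      exact sub_self _

theorem mdl_c {q : ℕ} (hq : q.Prime) {j : ℕ} {z : V} (hN : (∑ i ∈ range q, σ ^ i) z = 0)
    (hz : ((1 - σ) ^ j) z = 0) : ((1 - σ) ^ (j - (q - 1))) ((q : ℤ) • z) = 0 := by
  obtain ⟨A, hA, hA1⟩ := poly_id hq
  obtain ⟨B, hB⟩ : X - C 1 ∣ A + 1 := dvd_iff_isRoot.2 (by simp [hA1])
  have h1 := LinearMap.congr_fun (congrArg (aeval σ) hA) z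
  simp only [map_pow, map_sub, map_one, aeval_X, map_add, map_sum, map_mul, aeval_C,
    LinearMap.add_apply, hN, zero_add, Module.End.mul_apply, Module.algebraMap_end_apply] at h1
  have hcA : ∀ P : ℤ[X], Commute (1 - σ) (aeval σ P) := fun P => by
    have h2 := (Commute.all (1 - X : ℤ[X]) P).map (aeval σ)
    rwa [map_sub, map_one, aeval_X] at h2
  set w := ((1 - σ) ^ (j - (q - 1))) ((q : ℤ) • z) with hw
  have h2 : aeval σ A w = 0 := by
    rw [hw, ← Module.End.mul_apply, ← ((hcA A).pow_left _).eq, Module.End.mul_apply, map_smul,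
      ← h1, ← Module.End.mul_apply, ← pow_add]
    obtain ⟨k, hk⟩ := Nat.exists_eq_add_of_le' (le_tsub_add (b := j) (a := q - 1))
    rw [hk, pow_add, Module.End.mul_apply, hz, map_zero]
  have h3 : (aeval σ (-B) * (1 - σ)) w = w := by
    have h4 : (-B) * (1 - X) = A + 1 := by rw [hB, C_1]; ring
    have h5 := LinearMap.congr_fun (congrArg (aeval σ) h4) w
    rwa [map_mul, map_sub, map_one, aeval_X, map_add, map_one, LinearMap.add_apply, h2, zero_add]
      at h5
  have h4 : ∀ k : ℕ, ((aeval σ (-B) * (1 - σ)) ^ k) w = w := fun k => by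
    induction k with
    | zero => rfl
    | succ k ih => rw [pow_succ, Module.End.mul_apply, h3, ih]
  rw [← h4 j, (hcA _).symm.mul_pow, Module.End.mul_apply, hw,
    mdl_comm (Commute.pow_pow_self _ _ _) (by rw [map_smul, hz, smul_zero]), map_zero]

end

/-- Induct on `t`, replacing `F` by `F ^ q`. Facts: `1 - F` maps `ker (1 - σ) ^ (j + 1)` into
`ker (1 - σ) ^ j`; `N (1 - F) = 0` for `N = ∑ σ ^ i`; if `N z = 0` and `(1 - σ) ^ j z = 0` then
`(1 - σ) ^ (j - (q - 1)) (q z) = 0`; and `1 - F ^ q = (1 - F) ^ q - q (1 - F) A(F)`. -/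
theorem module_lemma {V : Type} [AddCommGroup V] {q : ℕ} (hq : q.Prime) (σ F : Module.End ℤ V)
    (hc : Commute σ F) (hσ : σ ^ q = 1) (hker : ∀ x, σ x = x → F x = x) {t j : ℕ}
    (hj : j ≤ t * (q - 1)) {x : V} (hx : ((1 - σ) ^ j * (1 - F)) x = 0) :
    (F ^ q ^ t) x = x := by
  induction t generalizing F j with
  | zero =>
    rw [zero_mul, Nat.le_zero] at hj
    rw [hj, pow_zero, one_mul, LinearMap.sub_apply, sub_eq_zero] at hx
    rw [pow_zero, pow_one]
    exact hx.symm
  | succ t ih =>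
    rw [pow_succ', pow_mul]
    refine ih (F ^ q) (hc.pow_right q) (fun y hy => ?_) (j := j - (q - 1)) (by
      rw [Nat.succ_mul] at hj; omega) ?_
    · rw [Module.End.pow_apply]
      exact Function.IsFixedPt.iterate (hker y hy) q
    · obtain ⟨A, hA, -⟩ := poly_id hq
      rw [Module.End.mul_apply] at hx ⊢
      have h1 := LinearMap.congr_fun (congrArg (aeval F) (mdl_poly hA)) x
      simp only [map_pow, map_sub, map_one, aeval_X, map_add, map_mul, aeval_C,
        LinearMap.add_apply, Module.End.mul_apply, Module.algebraMap_end_apply] at h1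
      have hN : (∑ i ∈ range q, σ ^ i) ((1 - F) x) = 0 := by
        have h2 := LinearMap.congr_fun (mul_neg_geom_sum σ q) x
        rw [hσ, sub_self, Module.End.mul_apply, LinearMap.sub_apply, LinearMap.zero_apply,
          sub_eq_zero] at h2
        have h3 : Commute (∑ i ∈ range q, σ ^ i) (1 - F) := Commute.sum_left _ _ _ fun i _ =>
          ((Commute.one_right _).sub_right hc).pow_left i
        rw [← Module.End.mul_apply, h3.eq, Module.End.mul_apply, LinearMap.sub_apply,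
          hker _ h2.symm]
        exact sub_self _
      have h2 : Commute ((1 - σ) ^ (j - (q - 1))) (aeval F A) := by
        refine Commute.pow_left ((Commute.one_left _).sub_left ?_) _
        rw [aeval_eq_sum_range]
        exact Commute.sum_right _ _ _ fun i _ => (hc.pow_right i).smul_right _
      rw [← sub_eq_of_eq_add h1, map_sub, mdl_a hc hker _ _ _ hx, ← map_smul,
        mdl_comm h2 (mdl_c hq hN hx), sub_self]

/-- The shift. -/
def mdlT : Module.End ℤ (ℕ → ℤ) := LinearMap.funLeft ℤ ℤ fun k => k + 1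

theorem mdl_iter (n : ℕ) (ω : ℕ → ℤ) : dlt^[n] ω = ((1 - mdlT) ^ n) ω := by
  rw [Module.End.pow_apply]
  rfl

theorem mdlT_pow (n : ℕ) (ω : ℕ → ℤ) (k : ℕ) : (mdlT ^ n) ω k = ω (k + n) := by
  induction n generalizing k with
  | zero => rfl
  | succ n ih =>
    rw [pow_succ', Module.End.mul_apply, add_comm n, ← add_assoc, ← ih]
    rfl

theorem dlt_iter_dvd {q : ℕ} (hq : q.Prime) (v : ℕ) {ω : ℕ → ℤ} (hω : ∀ k, ω (k + q) = ω k)
    (k : ℕ) : (q : ℤ) ^ v ∣ dlt^[v * (q - 1) + 1] ω k := by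
  obtain ⟨A, hA, -⟩ := poly_id hq
  have h1 : ∃ B : ℤ[X], (1 - X : ℤ[X]) ^ (v * (q - 1) + 1) =
      B * (1 - X ^ q) + C ((q : ℤ) ^ v) * (A ^ v * (1 - X)) := by
    induction v with
    | zero => exact ⟨0, by simp⟩
    | succ v ih =>
      obtain ⟨B, hB⟩ := ih
      refine ⟨(1 - X) ^ (q - 1) * B + C ((q : ℤ) ^ v) * A ^ v, ?_⟩
      rw [Nat.succ_mul, add_right_comm, pow_add, hB, pow_succ (q : ℤ), C_mul]
      linear_combination (C ((q : ℤ) ^ v) * A ^ v) * mdl_poly hA
  obtain ⟨B, hB⟩ := h1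
  have h2 := LinearMap.congr_fun (congrArg (aeval mdlT) hB) ω
  have h3 : (1 - mdlT ^ q) ω = 0 := funext fun k => by
    rw [LinearMap.sub_apply, Pi.sub_apply, mdlT_pow, hω]
    exact sub_self _
  simp only [map_pow (aeval mdlT), map_sub, map_one, aeval_X, map_add, map_mul, aeval_C,
    LinearMap.add_apply, Module.End.mul_apply, Module.algebraMap_end_apply, h3, map_zero,
    zero_add] at h2
  rw [mdl_iter, h2]
  exact dvd_mul_right _ _

theorem mdl_cong {n : ℤ} (j : ℕ) {a b : ℕ → ℤ} (h : ∀ k, n ∣ a k - b k) (k : ℕ) :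
    n ∣ dlt^[j] a k - dlt^[j] b k := by
  induction j generalizing a b with
  | zero => exact h k
  | succ j ih =>
    refine ih fun k => ?_
    have h1 := (h k).sub (h (k + 1))
    rwa [sub_sub_sub_comm] at h1

theorem dlt_step {n : ℤ} {c : ℤ} {j : ℕ} {ω ω' : ℕ → ℤ} (h : ∀ k, n ∣ c - dlt^[j] ω k)
    (h' : ∀ k, n ∣ ω k - dlt ω' k) (k : ℕ) : n ∣ c - dlt^[j + 1] ω' k := by
  have h1 := (h k).add (mdl_cong j h' k)
  rwa [sub_add_sub_cancel] at h1

theorem final_contra {q n1 : ℕ} (hq : q.Prime) (hn1 : 0 < n1) {ω : ℕ → ℤ}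
    (hω : ∀ k, ω (k + q) = ω k)
    (h : ((q * n1 : ℕ) : ℤ) ∣ (((q * n1 : ℕ) : ℤ) ^ 2 - n1) -
      dlt^[padicValNat q (q * n1) * (q - 1) + 1] ω 0) : False := by
  have := Fact.mk hq
  have h1 : (q : ℤ) ^ padicValNat q (q * n1) ∣ ((q * n1 : ℕ) : ℤ) := by
    exact_mod_cast pow_padicValNat_dvd
  have h2 := (h1.pow two_ne_zero).sub ((h1.trans h).add (dlt_iter_dvd hq _ hω 0))
  rw [sub_add_cancel, sub_sub_cancel] at h2
  have h3 : q ^ padicValNat q (q * n1) ∣ n1 := by exact_mod_cast h2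
  refine pow_succ_padicValNat_not_dvd (p := q) (Nat.mul_pos hq.pos hn1).ne' ?_
  rw [pow_succ']
  exact Nat.mul_dvd_mul_left q h3

/-- The choice of the twists: `τ j = ω j / n` except for the last one. -/
def tauF (q n du : ℕ) (ω : ℕ → ℤ) (j : ℕ) : ℤ :=
  if j % q + 1 < q then ω (j % q) / n else du - ∑ l ∈ range (q - 1), ω l / n

theorem tauF_spec {q n du : ℕ} (hq : 2 ≤ q) (hqn : q ≤ n) {ω : ℕ → ℤ}
    (hω : ∀ k, ω (k + q) = ω k) (hs : ∑ k ∈ range q, ω k = n * du)
    (hb : ∀ k, |ω k| ≤ 3 * n ^ 5) :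
    (∀ j, tauF q n du ω (j + q) = tauF q n du ω j) ∧ ∑ l ∈ range q, tauF q n du ω l = du ∧
      (∀ j, |ω j - n * tauF q n du ω j| ≤ q * n) ∧ ∀ j, |tauF q n du ω j| ≤ 4 * n ^ 4 := by
  obtain ⟨p, rfl⟩ : ∃ p, q = p + 1 := ⟨q - 1, by omega⟩
  have hn : (2 : ℤ) ≤ n := by exact_mod_cast hq.trans hqn
  have hqn' : ((p + 1 : ℕ) : ℤ) ≤ n := by exact_mod_cast hqn
  have hr : ∀ a : ℤ, 0 ≤ a - n * (a / n) ∧ a - n * (a / n) ≤ n := fun a => by
    rw [← Int.emod_def]
    exact ⟨Int.emod_nonneg _ (by omega), (Int.emod_lt_of_pos _ (by omega)).le⟩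
  have h1 : ∀ j, |ω j - n * tauF (p + 1) n du ω j| ≤ (p + 1 : ℕ) * n := fun j => by
    have hp : (0 : ℤ) ≤ p * n := by positivity
    rw [← Function.Periodic.map_mod_nat hω j, tauF, abs_le]
    push_cast
    split_ifs with h
    · have := hr (ω (j % (p + 1)))
      constructor <;> linarith [this.1, this.2]
    · have h2 : j % (p + 1) = p := by have := Nat.mod_lt j (Nat.add_one_pos p); omega
      rw [Finset.sum_range_succ] at hs
      have h3 : ω (j % (p + 1)) - n * (du - ∑ l ∈ range p, ω l / n) =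
          -∑ l ∈ range p, (ω l - n * (ω l / n)) := by
        rw [h2, Finset.sum_sub_distrib, ← Finset.mul_sum]
        linarith
      have h4 := Finset.sum_le_card_nsmul (range p) (fun l => ω l - n * (ω l / n)) n
        fun l _ => (hr _).2
      have h5 := Finset.sum_nonneg (s := range p) fun l _ => (hr (ω l)).1
      rw [Finset.card_range, nsmul_eq_mul] at h4
      rw [h3]
      constructor <;> linarith
  refine ⟨fun j => by rw [tauF, tauF, Nat.add_mod_right], ?_, h1, fun j => ?_⟩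
  · rw [Finset.sum_range_succ, Finset.sum_congr rfl (g := fun l => ω l / n) fun l hl => by
      have := Finset.mem_range.1 hl
      rw [tauF, Nat.mod_eq_of_lt (by omega), if_pos (by omega)]]
    rw [tauF, Nat.mod_eq_of_lt (Nat.lt_succ_self p), if_neg (lt_irrefl _), Nat.add_sub_cancel]
    ring
  · have h2 := abs_sub (ω j) (ω j - n * tauF (p + 1) n du ω j)
    rw [sub_sub_cancel, abs_mul, abs_of_nonneg (by omega : (0 : ℤ) ≤ n)] at h2
    have h3 : (n : ℤ) ^ 2 ≤ n ^ 5 := pow_le_pow_right₀ (by omega) (by norm_num)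
    refine le_of_mul_le_mul_left ?_ (by omega : (0 : ℤ) < n)
    nlinarith [h1 j, hb j]

theorem omega_bound {q n du : ℕ} (hq : 2 ≤ q) (hqn : q ≤ n) (hdu : du ≤ q * n) {ω : ℕ → ℤ}
    (hω : ∀ k, ω (k + q) = ω k) (hs : ∑ k ∈ range q, ω k = n * du)
    (hd : ∀ k, |ω k - ω (k + 1)| ≤ 2 * n ^ 4) (k : ℕ) : |ω k| ≤ 3 * n ^ 5 := by
  have hn : (2 : ℤ) ≤ n := by exact_mod_cast hq.trans hqn
  have hq' : (2 : ℤ) ≤ q := by exact_mod_cast hq
  have h1 : ∀ i : ℕ, |ω k - ω (k + i)| ≤ i * (2 * n ^ 4) := fun i => by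
    induction i with
    | zero => simp
    | succ i ih =>
      have h2 := abs_sub_le (ω k) (ω (k + i)) (ω (k + i + 1))
      have h3 := hd (k + i)
      rw [← add_assoc]
      push_cast
      linarith
  have h2 : ∑ i ∈ range q, ω (k + i) = n * du := by
    clear h1
    induction k with
    | zero => simpa using hs
    | succ j ih =>
      have h1 := Finset.sum_range_succ (fun l => ω (j + l)) q
      rw [Finset.sum_range_succ', hω] at h1
      simp only [add_zero, add_left_inj] at h1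
      rw [← ih, ← h1]
      exact Finset.sum_congr rfl fun l _ => by rw [add_assoc, add_comm 1]
  have h3 : |∑ i ∈ range q, (ω k - ω (k + i))| ≤ q * (2 * n ^ 5) := by
    refine (Finset.abs_sum_le_sum_abs _ _).trans ?_
    have h4 := Finset.sum_le_card_nsmul (range q) (fun i => |ω k - ω (k + i)|) (2 * n ^ 5)
      fun i hi => (h1 i).trans (by
        have h5 : (i : ℤ) ≤ n := by exact_mod_cast (Finset.mem_range.1 hi).le.trans hqn
        have h6 : (0 : ℤ) ≤ 2 * n ^ 4 := by positivity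
        nlinarith)
    rwa [Finset.card_range, nsmul_eq_mul] at h4
  rw [Finset.sum_sub_distrib, h2, Finset.sum_const, Finset.card_range, nsmul_eq_mul] at h3
  have h4 := abs_add_le (q * ω k - n * du) (n * du)
  rw [sub_add_cancel, abs_mul, abs_of_nonneg (by omega : (0 : ℤ) ≤ q),
    abs_of_nonneg (by positivity : (0 : ℤ) ≤ n * du)] at h4
  have h5 : (n : ℤ) ^ 2 ≤ n ^ 5 := pow_le_pow_right₀ (by omega) (by norm_num)
  have h6 : (du : ℤ) ≤ q * n := by exact_mod_cast hdu
  refine le_of_mul_le_mul_left ?_ (by omega : (0 : ℤ) < q)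
  nlinarith

end Vale.Agent.P319A
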