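import Vale.Agent.P319A.Norm
import Vale.Agent.P319A.Ideals

/-!
Normalising a solution of the norm equation at the ramification points.
-/

open Polynomial Finset

namespace Vale.Agent.P319A.Crv

variable {K : Type} [Field K] (D : Crv K)

theorem nob_dvd {b : D.O} (h : ∀ l, D.ev l b = 0) : D.y ∣ b := by
  refine Ideal.mem_span_singleton.1 (ide_mem (Ideal.mem_span_singleton_self _) ?_)
  simp only [ev_eq] at h
  refine Ideal.mem_span_singleton.2 (Dvd.dvd.trans ?_ (map_dvd D.of (D.f_dvd_iff.2 h)))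
  rw [← y_pow]
  exact dvd_pow_self _ D.hq.ne_zero

theorem nob_loc (k : Fin D.n) (N : ℕ) : ∀ b : D.O, ¬(X - C (D.e k)) ^ N ∣ D.nrm b →
    ∃ (m : ℕ) (s b' : D.O), D.ev k s ≠ 0 ∧ D.ev k b' ≠ 0 ∧ s * b = D.y ^ m * b' := by
  induction N with
  | zero => simp
  | succ N ih =>
    intro b hb
    by_cases h : D.ev k b = 0
    · obtain ⟨b₁, h1⟩ := D.nob_dvd (b := D.of (D.lbF k) * b) fun l => by
        rcases eq_or_ne l k with rfl | hl
        · rw [map_mul, h, mul_zero]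
        · rw [map_mul, ev_of, D.lbF_ne hl, zero_mul]
      obtain ⟨m, s, b', h2, h3, h4⟩ := ih b₁ fun h2 => hb (by
        have h3 := congrArg D.nrm h1
        rw [nrm_mul, nrm_mul, nrm_of, nrm_y] at h3
        have h4 : IsCoprime (X - C (D.e k)) (D.lbF k) :=
          (irreducible_X_sub_C _).coprime_iff_not_dvd.2 fun h => D.lbF_self k (dvd_iff_isRoot.1 h)
        refine (h4.pow (m := N + 1) (n := D.q)).dvd_of_dvd_mul_left ?_
        rw [h3, pow_succ']
        exact mul_dvd_mul ((dvd_iff_isRoot.2 (D.f_eval k)).mul_left _) h2)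
      refine ⟨m + 1, s * D.of (D.lbF k), b', ?_, h3, ?_⟩
      · rw [map_mul, ev_of]
        exact mul_ne_zero h2 (D.lbF_self k)
      · rw [mul_assoc, h1, mul_left_comm, h4, pow_succ', mul_assoc]
    · exact ⟨0, 1, b, by simp, h, by simp⟩

/-- `y` is a uniformizer at the `k`-th ramification point. If `ev k b = 0` then
`(f / (x - e k)) b = y b₁`; induct on the multiplicity of `e k` in `nrm b`. -/
theorem loc (k : Fin D.n) {b : D.O} (hb : b ≠ 0) : ∃ (m : ℕ) (s b' : D.O),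
    D.ev k s ≠ 0 ∧ D.ev k b' ≠ 0 ∧ s * b = D.y ^ m * b' :=
  D.nob_loc k ((D.nrm b).natDegree + 1) b fun h => by
    have h1 := natDegree_le_of_dvd h (D.nrm_ne hb)
    rw [(monic_X_sub_C _).natDegree_pow, natDegree_X_sub_C] at h1
    omega

/-- An element whose norm is a polynomial not vanishing at `e k` is a unit there. -/
theorem val_of_norm (k : Fin D.n) {g : D.L} {u : K[X]} (hu : u.eval (D.e k) ≠ 0)
    (h : D.gi g D.q = D.am (D.of u)) : ∃ v, D.Val k g v ∧ v ^ D.q = u.eval (D.e k) := by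
  suffices h1 : ∃ v, D.Val k g v by
    obtain ⟨v, hv⟩ := h1
    refine ⟨v, hv, (hv.gi D.q).unique ?_⟩
    rw [h, ← ev_of]
    exact Val.am k _
  obtain ⟨s, a, hs, ha⟩ := D.exists_den g
  rcases eq_or_ne a 0 with rfl | ha0
  · rw [map_zero, mul_eq_zero, or_iff_right (D.am_ne (D.of_ne hs))] at ha
    exact ⟨_, ha ▸ map_zero D.am ▸ Val.am k 0⟩
  obtain ⟨m, s1, a', k1, k2, k3⟩ := D.loc k ha0
  obtain ⟨m', s2, b', k4, k5, k6⟩ := D.loc k (D.of_ne hs)
  have h1 : g * D.am (s1 * b' * D.y ^ m') = D.am (s2 * a' * D.y ^ m) := by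
    rw [mul_assoc, mul_comm b', ← k6, mul_assoc s2, mul_comm a', ← k3]
    simp only [map_mul, ← ha]
    ring
  have h2 : ∀ A B, D.ev k B ≠ 0 → g * D.am B = D.am A → ∃ v, D.Val k g v := fun A B h2 h3 =>
    ⟨D.ev k A / D.ev k B, A, B, h2, h3, (div_mul_cancel₀ _ h2).symm⟩
  have hy : ∀ i, D.am (D.y ^ i) ≠ 0 := fun i => D.am_ne (pow_ne_zero _ D.y_ne)
  rcases le_total m m' with h3 | h3
  · obtain ⟨d, rfl⟩ := Nat.exists_eq_add_of_le' h3
    rw [pow_add, ← mul_assoc, map_mul _ _ (D.y ^ m), map_mul _ _ (D.y ^ m), ← mul_assoc] at h1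
    replace h1 := mul_right_cancel₀ (hy m) h1
    refine h2 _ _ (fun h4 => ?_) h1
    have h5 := congrArg (D.gi · D.q) h1
    simp only [gi_mul, gi_am, h, ← map_mul] at h5
    have h6 := congrArg (eval (D.e k)) (D.of_injective (D.am_injective h5))
    rw [eval_mul, eval_nrm, eval_nrm, h4, zero_pow D.hq.ne_zero, mul_zero, map_mul] at h6
    exact pow_ne_zero _ (mul_ne_zero k4 k2) h6.symm
  · obtain ⟨d, rfl⟩ := Nat.exists_eq_add_of_le' h3
    rw [pow_add, ← mul_assoc, map_mul _ _ (D.y ^ m'), map_mul _ _ (D.y ^ m'), ← mul_assoc] at h1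
    exact h2 _ _ (by rw [map_mul]; exact mul_ne_zero k1 k5) (mul_right_cancel₀ (hy m') h1)

theorem nob_val (k : Fin D.n) {P : K[X]} (hP : P ≠ 0) {W B : D.O} {m : ℕ} (hB : D.ev k B ≠ 0)
    (h : D.of P * W = D.y ^ m * B) :
    D.am W ≠ 0 ∧ D.Val k (D.sL 1 (D.am W) / D.am W) (D.ζ ^ m) := by
  have h1 : D.am W ≠ 0 := D.am_ne (by
    rintro rfl
    rw [mul_zero] at h
    exact mul_ne_zero (pow_ne_zero _ D.y_ne) (fun h0 => hB (by rw [h0, map_zero])) h.symm)
  refine ⟨h1, D.of (C (D.ζ ^ m)) * D.s 1 B, B, hB, ?_, by simp [ev_s]⟩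
  have h2 := congrArg (D.s 1) h
  rw [map_mul, map_mul, s_of, map_pow, s_y, pow_one, mul_pow, ← map_pow, ← C_pow] at h2
  rw [div_mul_eq_mul_div, div_eq_iff h1, sL_am, ← map_mul, ← map_mul]
  refine congrArg _ (mul_left_cancel₀ (D.of_ne hP) ?_)
  rw [← mul_assoc, h2, mul_left_comm, h]
  ring

/-- `w = ∑ k, y ^ m k * (f / (x - e k))`. -/
theorem exists_twist (m : Fin D.n → ℕ) (hm : ∀ k, m k < D.q) :
    ∃ w : D.L, w ≠ 0 ∧ ∀ k, D.Val k (D.sL 1 w / w) (D.ζ ^ m k) := by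
  have h : ∀ k, D.am (∑ l, D.y ^ m l * D.of (D.lbF l)) ≠ 0 ∧
      D.Val k (D.sL 1 (D.am (∑ l, D.y ^ m l * D.of (D.lbF l))) /
        D.am (∑ l, D.y ^ m l * D.of (D.lbF l))) (D.ζ ^ m k) := fun k => by
    obtain ⟨c, hc⟩ : D.of D.f ∣
        D.of (D.lbF k) * ∑ l ∈ univ.erase k, D.y ^ m l * D.of (D.lbF l) := by
      rw [Finset.mul_sum]
      refine Finset.dvd_sum fun l hl => ?_
      rw [mul_left_comm, ← map_mul]
      refine (map_dvd D.of (D.f_dvd_iff.2 fun i => ?_)).mul_left _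
      rcases eq_or_ne i k with rfl | hi
      · rw [eval_mul, D.lbF_ne (Finset.ne_of_mem_erase hl).symm, mul_zero]
      · rw [eval_mul, D.lbF_ne hi, zero_mul]
    refine D.nob_val k (P := D.lbF k) (fun h => D.lbF_self k (by simp [h]))
      (B := D.of (D.lbF k) ^ 2 + D.y ^ (D.q - m k) * c) ?_ ?_
    · simpa [Nat.sub_ne_zero_of_lt (hm k)] using D.lbF_self k
    · rw [← Finset.add_sum_erase _ _ (Finset.mem_univ k), mul_add, hc, ← y_pow, mul_add,
        ← mul_assoc (D.y ^ m k), ← pow_add, Nat.add_sub_cancel' (hm k).le]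
      ring
  exact ⟨_, (h ⟨0, D.q_pos.trans_le D.q_le_n⟩).1, fun k => (h k).2⟩

/-- Twist so that the values are `r (e k)`, then use `w = ∑ i < q, r ^ (q - 1 - i) * gi g i`, which
satisfies `g * s w = r * w + (c u - r ^ q)` and has the values `q r (e k) ^ (q - 1) ≠ 0`. -/
theorem exists_normSol [IsAlgClosed K] {c : K} {u r : K[X]} (hc : c ≠ 0) (hu : IsCoprime u D.f)
    (hr : D.f ∣ r ^ D.q - C c * u) : ∃ g, D.NormSol c u r g := by
  have : NeZero D.q := ⟨D.hq.ne_zero⟩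
  obtain ⟨g0, h0⟩ := D.exists_norm (C c * u)
  have h1 : ∀ k, (C c * u).eval (D.e k) ≠ 0 := fun k => by
    simpa [hc] using D.cop_iff.1 hu k
  have h2 : ∀ k, r.eval (D.e k) ^ D.q = (C c * u).eval (D.e k) := fun k => by
    have h := D.f_dvd_iff.1 hr k
    rwa [eval_sub, eval_pow, sub_eq_zero] at h
  have hr0 : ∀ k, r.eval (D.e k) ≠ 0 := fun k h => h1 k (by
    rw [← h2, h, zero_pow D.hq.ne_zero])
  choose v v1 v2 using fun k => D.val_of_norm k (h1 k) h0
  have v0 : ∀ k, v k ≠ 0 := fun k h => h1 k (by rw [← v2, h, zero_pow D.hq.ne_zero])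
  choose m m1 m2 using fun k => D.hζ.eq_pow_of_pow_eq_one (ξ := r.eval (D.e k) / v k)
    (by rw [div_pow, h2, v2, div_self (h1 k)])
  obtain ⟨w0, w1, w2⟩ := D.exists_twist m m1
  have tw : ∀ g w : D.L, w ≠ 0 → D.gi (g * (D.sL 1 w / w)) D.q = D.gi g D.q := fun g w hw => by
    rw [gi_mul, D.gi_div hw, sL_q, div_self hw, mul_one]
  obtain ⟨g, g1, g2⟩ : ∃ g, D.gi g D.q = D.am (D.of (C c * u)) ∧
      ∀ k, D.Val k g (r.eval (D.e k)) := ⟨_, (tw g0 w0 w1).trans h0, fun k => by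
    have h := (v1 k).mul (w2 k)
    rwa [m2, mul_div_cancel₀ _ (v0 k)] at h⟩
  set w := ∑ i ∈ range D.q, D.am (D.of (r ^ (D.q - 1 - i))) * D.gi g i with hw
  have w3 : ∀ k, D.Val k w (D.q * r.eval (D.e k) ^ (D.q - 1)) := fun k => by
    have h := Val.sum (t := range D.q) fun i _ =>
      (Val.am k (D.of (r ^ (D.q - 1 - i)))).mul ((g2 k).gi i)
    rwa [Finset.sum_congr rfl (g := fun _ => r.eval (D.e k) ^ (D.q - 1)) fun i hi => by
      rw [ev_of, eval_pow, ← pow_add, Nat.sub_add_cancel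
        (Nat.le_sub_one_of_lt (Finset.mem_range.1 hi))], Finset.sum_const, Finset.card_range,
      nsmul_eq_mul] at h
  have w4 : ∀ k, (D.q : K) * r.eval (D.e k) ^ (D.q - 1) ≠ 0 := fun k =>
    mul_ne_zero D.q_ne (pow_ne_zero _ (hr0 k))
  have w5 : w ≠ 0 := (w3 ⟨0, D.q_pos.trans_le D.q_le_n⟩).ne (w4 _)
  have w6 : g * D.sL 1 w - D.am (D.of r) * w = D.am (D.of (C c * u - r ^ D.q)) := by
    have h := Finset.sum_range_sub (fun i => D.am (D.of (r ^ (D.q - i))) * D.gi g i) D.q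
    rw [Nat.sub_self, pow_zero, map_one, map_one, one_mul, g1, gi_zero, mul_one, Nat.sub_zero,
      ← map_sub, ← map_sub] at h
    rw [← h, hw, map_sum, Finset.mul_sum, Finset.mul_sum, ← Finset.sum_sub_distrib]
    refine Finset.sum_congr rfl fun i hi => ?_
    have h3 : D.q - i = D.q - 1 - i + 1 := by have := Finset.mem_range.1 hi; omega
    rw [map_mul, sL_am, s_of, gi_succ, h3, pow_succ, Nat.sub_sub, add_comm 1, map_mul, map_mul]
    ring
  obtain ⟨s, a, s1, s2⟩ := den_of_val fun k => ⟨_, (w3 k).inv (w4 k)⟩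
  obtain ⟨t, ht⟩ := hr
  refine ⟨g * (D.sL 1 w / w), (tw g w w5).trans g1, s, -(D.of t * a), s1, ?_⟩
  rw [← neg_sub (r ^ D.q), ht, sub_eq_iff_eq_add] at w6
  rw [mul_div_assoc', w6]
  simp only [map_add, map_mul, map_neg, ← s2]
  field_simp
  ring

end Vale.Agent.P319A.Crv
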