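import Vale.Agent.P319A.Rank
import Vale.Agent.P319A.Latt
import Vale.Agent.P319A.NormB

/-!
The division step: solvability of the two linear systems and the resulting relation of ideals.
-/

open Polynomial Finset LaurentSeries

namespace Vale.Agent.P319A.Crv

variable {K : Type} [Field K] {D : Crv K} {I : Ideal D.O} {c : K} {u r : K[X]} {g : D.L}
  {M : Submodule D.O D.L} {τ : ℕ → ℤ}

/-- The rank one operator `x ↦ α tr (x β)`, with `a i = α * s ^ i β / gi g i`. -/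
theorem rank_one_op (h : D.Hy I u r c τ) (hg : D.NormSol c u r g) (hM : D.Lat I g M) {m : ℤ}
    {α β : D.L} (hα : α ∈ M) (hw : D.Wt' (D.kap g τ) m α)
    (hα1 : (D.ιL 0 α).coeff (-(m - D.kap g τ 0)) = 1)
    (hβ : ∀ x ∈ M, ∃ P, D.tr (x * β) = D.am (D.of P))
    (hβw : ∀ j < D.q, Dg (D.ιL j β) (D.kap g τ j - m))
    (hβ1 : (D.ιL 0 β).coeff (-(D.kap g τ 0 - m)) = 1) :
    ∃ b, D.Lam I u r b ∧ D.Om u τ b ∧ ∀ x, D.op u g b x = α * D.tr (x * β) := by
  have hu := h.nm.monic.ne_zero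
  have hg0 := hg.ne h.hc hu
  have hf := D.am_ne (D.of_ne (mul_ne_zero D.f_monic.ne_zero hu))
  have h1 : ∀ x, ∑ i ∈ range D.q, α * D.sL i β / D.gi g i * D.gi g i * D.sL i x =
      α * D.tr (x * β) := fun x => by
    rw [tr, Finset.mul_sum]
    refine Finset.sum_congr rfl fun i _ => ?_
    rw [div_mul_cancel₀ _ (D.gi_ne hg0 i), map_mul]
    ring
  obtain ⟨b, hb, hb'⟩ := lam_of_mem h.nm hg hM (fun i => α * D.sL i β / D.gi g i) fun x hx => by
    obtain ⟨P, hP⟩ := hβ x hx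
    rw [h1, hP, mul_comm]
    exact enm_mul hα _
  have h2 : ∀ i < D.q, ∀ j, D.ι j (b i) =
      xi (D.f * u) * D.ιL j α * D.ιL (j + i) β * (D.ιL j (D.gi g i))⁻¹ := fun i hi j => by
    rw [← ιL_am, hb' i hi, map_mul (D.ιL j), map_div₀, map_mul (D.ιL j), ιL_am, ι_of, ιL_sL]
    ring
  have h3 : ∀ j, Dg (D.ιL j β) (D.kap g τ j - m) := fun j =>
    (Wt.all (κ := fun j => -D.kap g τ j) (m := -m) (fun j => by rw [kap_per h hg.1])
      (fun j hj => (hβw j hj).mono (by simp only; omega)) j).mono (by omega)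
  refine ⟨b, hb, ⟨fun i hi j hj => ?_, ?_⟩, fun x => ?_⟩
  · rw [h2 i hi]
    refine ((((Dg_dg _).mul (hw j hj)).mul (h3 _)).mul (Dg_dg _)).mono ?_
    rw [dg_inv, rnk_fu h, dg_gi_kap h hg.1]
    omega
  · have h4 : Dg (xi (D.f * u)) (D.n + u.natDegree) := (Dg_dg _).mono (rnk_fu h).le
    have h5 := (h4.mul (hw.wt 0 D.q_pos)).coeff_mul (h3 0)
    rw [h4.coeff_mul (hw.wt 0 D.q_pos), hα1, hβ1, ← Nat.cast_add, coeff_xi_neg, ← D.f_natDegree,
      ← D.f_monic.natDegree_mul h.nm.monic, (D.f_monic.mul h.nm.monic).coeff_natDegree,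
      D.f_monic.natDegree_mul h.nm.monic, D.f_natDegree] at h5
    rw [h2 0 D.q_pos, gi_zero, map_one, inv_one, mul_one, show -(D.n + u.natDegree : ℤ) =
      -(((D.n + u.natDegree : ℕ) : ℤ) + (m - D.kap g τ 0) + (D.kap g τ 0 - m)) by push_cast; ring]
    simpa using h5
  · rw [← h1, op]
    refine Finset.sum_congr rfl fun i hi => ?_
    rw [hb' i (Finset.mem_range.1 hi), mul_div_cancel_left₀ _ hf]

theorem ns1 [IsAlgClosed K] (h : D.Hy I u r c τ) : ∃ b, D.Lam I u r b ∧ D.Om u τ b := by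
  obtain ⟨g, hg⟩ := D.exists_normSol h.hc h.nm.cop h.hr
  obtain ⟨M, hM⟩ := D.exists_lat h.nm h.hc hg
  obtain ⟨s, hs, hden⟩ := hM.den
  obtain ⟨m, α, β, h1, h2, h3, h4, h5, h6⟩ :=
    D.exists_dual M hM.one (ide_cop_ne hs) hden (D.kap g τ)
  obtain ⟨b, hb, hb', -⟩ := rank_one_op h hg hM h1 h2 h3 h4 h5 h6
  exact ⟨b, hb, hb'⟩

theorem ns2 [IsAlgClosed K] (h : D.Hy I u r c τ) {d : ℕ → D.O} (hL : D.Lam I u r d)
    (hd : D.Om u τ d) : ∃ b, D.Lam I u r b ∧ D.Om u τ b ∧ D.Fixd c u d b := by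
  obtain ⟨g, hg⟩ := D.exists_normSol h.hc h.nm.cop h.hr
  obtain ⟨M, hM⟩ := D.exists_lat h.nm h.hc hg
  obtain ⟨s, hs, hden⟩ := hM.den
  obtain ⟨m, α, β, h1, h2, h3, h4, h5, h6⟩ :=
    D.exists_dual M hM.one (ide_cop_ne hs) hden (D.kap g τ)
  obtain ⟨α', h1', h2', h3', h7⟩ := exists_fixed h hg hM hL hd h1 h2
  obtain ⟨b, hb, hb', hop⟩ := rank_one_op h hg hM h1' h2' (h3'.trans h3) h4 h5 h6
  refine ⟨b, hb, hb', (fixd_iff hg.1 h.hc h.nm.monic.ne_zero d b).2 fun j _ => ?_⟩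
  obtain ⟨P, hP⟩ := h4 _ (enm_am hM.one (D.y ^ j))
  rw [hop, hP, mul_comm α', op_of_mul, h7]

theorem nsa_ζ {j : ℕ} (hj : j ≤ D.q) (i : ℕ) : D.ζ ^ (i * (D.q - j)) = D.ζ⁻¹ ^ (j * i) := by
  obtain ⟨k, hk⟩ := Nat.exists_eq_add_of_le hj
  rw [inv_pow]
  refine eq_inv_of_mul_eq_one_left ?_
  rw [← pow_add, mul_comm j, ← mul_add, Nat.sub_add_cancel hj, mul_comm, pow_mul,
    D.hζ.pow_eq_one, one_pow]

/-- `op b (y ^ j) = P j * α`, so by `op_dft` `b i / (f u) * gi g i = α * s ^ i β'` with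
`β' = (1 / q) ∑ P j y⁻¹ ^ j`; then `g' = g * s α / α` equals `a / β`. -/
theorem ns3 [IsAlgClosed K] (h : D.Hy I u r c τ) {d b : ℕ → D.O} (hL : D.Lam I u r d)
    (hd : D.Om u τ d) (hL' : D.Lam I u r b) (hb : D.Om u τ b) (hF : D.Fixd c u d b) {β : D.O}
    (hβ : D.of u * β = b 0) : β ≠ 0 ∧
      (∀ i, i + 1 < D.q → β * D.s 1 (b i) = D.of (C c) * D.s 1 (b (D.q - 1)) * b (i + 1)) ∧
      D.nrm (D.of (C c) * D.s 1 (b (D.q - 1))) = C c * u * D.nrm β := by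
  have _ := hL
  obtain ⟨g, hg⟩ := D.exists_normSol h.hc h.nm.cop h.hr
  obtain ⟨M, hM⟩ := D.exists_lat h.nm h.hc hg
  have hu := h.nm.monic.ne_zero
  have hg0 := hg.ne h.hc hu
  have hu' := D.am_ne (D.of_ne hu)
  have hf := D.am_ne (D.of_ne D.f_monic.ne_zero)
  have hq := D.am_ne (D.of_ne (C_ne_zero.2 D.q_ne))
  obtain ⟨α, hα⟩ := fixed_rank h hg hM hd
  have h1 : ∀ j < D.q, ∃ P, D.op u g b (D.am (D.y ^ j)) = D.am (D.of P) * α := fun j hj =>
    hα _ (op_mem h.nm hg hM hL' (enm_am hM.one _)) ((fixd_iff hg.1 h.hc hu d b).1 hF j hj)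
  choose! P hP using h1
  set β' := ∑ j ∈ range D.q, D.of (P j) * D.y ^ (D.q - j) with hβ'
  have hE : ∀ i < D.q, D.am (D.of (C (D.q : K))) * D.am (b i) * D.gi g i =
      D.am (D.of u) * α * D.am (D.s i β') := fun i hi => by
    have h2 := D.op_dft (fun l => D.am (b l) / D.am (D.of (D.f * u)) * D.gi g l) 1 hi
    have h3 : ∑ j ∈ range D.q, D.am (D.of (C (D.ζ⁻¹ ^ (j * i))) * D.y ^ (D.q - j)) *
        ∑ l ∈ range D.q, D.am (b l) / D.am (D.of (D.f * u)) * D.gi g l *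
          D.sL l (D.am (D.y ^ j) * 1) = α * D.am (D.s i β') := by
      rw [hβ', map_sum, map_sum, Finset.mul_sum]
      refine Finset.sum_congr rfl fun j hj => ?_
      have hj' := Finset.mem_range.1 hj
      rw [mul_one, ← op, hP j hj', map_mul (D.s i), s_of, enm_s_pow, nsa_ζ hj'.le]
      simp only [map_mul]
      ring
    rw [h3, map_one] at h2
    rw [mul_assoc (D.am (D.of u)), ← h2]
    simp only [map_mul]
    field_simp
  have hb0 : b 0 ≠ 0 := fun h0 => by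
    have h2 := hb.2
    rw [h0, map_zero] at h2
    simp at h2
  have hβ0 : β ≠ 0 := fun h0 => hb0 (by rw [← hβ, h0, mul_zero])
  have h2 : D.am (D.of (C (D.q : K))) * D.am β = α * D.am β' := by
    have h3 := hE 0 D.q_pos
    rw [gi_zero, s_zero, ← hβ, map_mul] at h3
    apply mul_left_cancel₀ hu'
    rw [← mul_assoc (D.am (D.of u)) α, ← h3]
    ring
  have hE' : ∀ i < D.q, D.am (D.of (C (D.q : K))) * D.am (D.s 1 (b i)) * D.gi g (i + 1) =
      g * D.am (D.of u) * D.sL 1 α * D.am (D.s (i + 1) β') := fun i hi => by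
    have h3 := congrArg (D.sL 1) (hE i hi)
    simp only [map_mul (D.sL 1), sL_am, s_of, s_s, add_comm 1] at h3
    rw [gi_succ, mul_left_comm, h3]
    ring
  have h3 : D.am (D.of (C (D.q : K))) * D.am (D.of (C c) * D.s 1 (b (D.q - 1))) =
      g * D.sL 1 α * D.am β' := by
    have h4 := hE' (D.q - 1) (Nat.sub_one_lt D.hq.ne_zero)
    rw [Nat.sub_add_cancel D.q_pos, hg.1, s_q] at h4
    apply mul_left_cancel₀ hu'
    simp only [map_mul] at h4 ⊢
    linear_combination h4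
  have hα0 : α ≠ 0 := fun h0 => by
    rw [h0, zero_mul] at h2
    exact mul_ne_zero hq (D.am_ne hβ0) h2
  refine ⟨hβ0, fun i hi => D.am_injective ?_, ?_⟩
  · apply mul_left_cancel₀ (mul_ne_zero (mul_ne_zero hq hq) (D.gi_ne hg0 (i + 1)))
    have h4 := hE (i + 1) hi
    have h5 := hE' i (by omega)
    rw [map_mul D.am β, map_mul D.am _ (b (i + 1))]
    linear_combination (D.am (D.of (C (D.q : K))) * D.am (D.s 1 (b i)) * D.gi g (i + 1)) * h2 +
      (α * D.am β') * h5 - (D.am (D.of (C (D.q : K))) * D.am (b (i + 1)) * D.gi g (i + 1)) * h3 -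
      (g * D.sL 1 α * D.am β') * h4
  · have h4 : D.am (D.of (C c) * D.s 1 (b (D.q - 1))) = g * (D.sL 1 α / α) * D.am β := by
      apply mul_left_cancel₀ hq
      rw [h3, mul_left_comm, h2]
      field_simp
    refine D.of_injective (D.am_injective ?_)
    rw [← gi_am, h4, gi_mul, gi_mul, gi_am, hg.1, D.gi_div hα0, sL_q, div_self hα0, mul_one,
      ← map_mul, ← map_mul]

end Vale.Agent.P319A.Crv
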