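import Vale.Agent.P319A.NS

/-!
Consequences of the division step.
-/

open Polynomial Finset LaurentSeries

namespace Vale.Agent.P319A.Crv

variable {K : Type} [Field K] {D : Crv K} {I : Ideal D.O} {c : K} {u r : K[X]} {τ : ℕ → ℤ}

theorem ns_rel (hI : D.Nm I u) (hc : c ≠ 0) {b : ℕ → D.O} {β : D.O} (hβ : D.of u * β = b 0)
    (hb : ∀ i, i + 1 < D.q → β * D.s 1 (b i) = D.of (C c) * D.s 1 (b (D.q - 1)) * b (i + 1))
    {A : Ideal D.O} (hA : Ideal.span {D.of u} * A =
      ∑ i ∈ range D.q, Ideal.span {b i} * D.Ii I i) :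
    D.Rel I A (D.of (C c) * D.s 1 (b (D.q - 1))) β ∧ β ∈ A := by
  have hu := D.of_ne hI.monic.ne_zero
  obtain ⟨k, hk⟩ := Nat.exists_eq_add_of_le' D.q_pos
  constructor
  · have h0 : Ideal.span {D.of u} ≠ 0 := by simpa using hu
    have h1 := congrArg (Ideal.mapHom (D.s 1)) hA
    rw [map_mul, map_sum] at h1
    simp only [map_mul, Ideal.mapHom_apply, ide_map_span, s_of] at h1
    apply mul_left_cancel₀ h0
    have h2 : Ideal.span {D.of u} * (Ideal.span {β} * (I * A.map (D.s 1))) =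
        ∑ i ∈ range D.q, Ideal.span {β * D.s 1 (b i)} * D.Ii I (i + 1) := by
      rw [mul_left_comm, mul_left_comm _ I, h1, Finset.mul_sum, Finset.mul_sum]
      refine Finset.sum_congr rfl fun i _ => ?_
      rw [Ii_succ, ← Ideal.span_singleton_mul_span_singleton]
      ring
    rw [h2, mul_left_comm, hA, Finset.mul_sum]
    conv_lhs => rw [hk, Finset.sum_range_succ]
    conv_rhs => rw [show range D.q = range (k + 1) by rw [hk], Finset.sum_range_succ']
    congr 1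
    · refine Finset.sum_congr rfl fun i hi => ?_
      rw [hb i (by have := Finset.mem_range.1 hi; omega), ← mul_assoc,
        Ideal.span_singleton_mul_span_singleton]
    · rw [← hk, hI.norm, Ii_zero, Ideal.mul_top, Ideal.span_singleton_mul_span_singleton,
        Ideal.span_singleton_mul_span_singleton, ← hβ, show D.q - 1 = k by omega, mul_assoc (D.of _),
        Ideal.span_singleton_mul_left_unit ((isUnit_C.2 hc.isUnit).map D.of)]
      congr 2
      ring
  · have h1 : b 0 ∈ Ideal.span {D.of u} * A := by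
      rw [hA]
      refine Finset.single_le_sum (f := fun i => Ideal.span {b i} * D.Ii I i)
        (fun _ _ => bot_le) (Finset.mem_range.2 D.q_pos) ?_
      rw [Ii_zero, Ideal.mul_top]
      exact Ideal.mem_span_singleton_self _
    obtain ⟨z, hz, h2⟩ := Ideal.mem_span_singleton_mul.1 h1
    rwa [← mul_left_cancel₀ hu (h2.trans hβ.symm)]

theorem nsb_mod {q : ℕ} {x : ℕ → ℤ} (h : ∀ j, x (j + q) = x j) (j l : ℕ) :
    x (j % q + l) = x (j + l) := by
  rw [← Function.Periodic.map_mod_nat h, Nat.mod_add_mod, Function.Periodic.map_mod_nat h]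

theorem nsb_low {q : ℕ} (hq : 0 < q) {x : ℕ → ℤ} (h : ∀ j, x (j + q) = x j) {B : ℤ}
    (hB : ∀ j, x j ≤ B) (hs : 0 ≤ ∑ j ∈ range q, x j) (j : ℕ) : -((q - 1) * B) ≤ x j := by
  have hj := Finset.mem_range.2 (Nat.mod_lt j hq)
  rw [← Finset.add_sum_erase _ _ hj, Function.Periodic.map_mod_nat h] at hs
  have h1 := Finset.sum_le_card_nsmul ((range q).erase (j % q)) x B fun i _ => hB i
  rw [Finset.card_erase_of_mem hj, Finset.card_range, nsmul_eq_mul, Nat.cast_pred hq] at h1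
  have h2 : ∑ i ∈ (range q).erase (j % q), x i ≤ (q - 1) * B := h1
  omega

theorem nsb_om (h : D.Hy I u r c τ) {b : ℕ → D.O} (hb : D.Om u τ b) {i : ℕ} (hi : i < D.q)
    (h0 : b i ≠ 0) (j : ℕ) : D.deg j (b i) ≤ D.n + u.natDegree - ts τ j i := by
  have h1 := (hb.1 i hi _ (Nat.mod_lt j D.q_pos)).dg_le (D.ι_ne _ h0)
  have h2 : ts τ (j % D.q) i = ts τ j i := Finset.sum_congr rfl fun l _ => nsb_mod h.per j l
  rw [ι_mod, h2] at h1
  rw [deg]
  split_ifs at h1 <;> omega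

theorem ns_deg (h : D.Hy I u r c τ) {b : ℕ → D.O} (hb : D.Om u τ b) {β : D.O}
    (hβ : D.of u * β = b 0) (hβ0 : β ≠ 0)
    (hN : D.nrm (D.of (C c) * D.s 1 (b (D.q - 1))) = C c * u * D.nrm β) :
    (D.nrm β).natDegree ≤ D.q * D.n ∧ ∀ j, |D.deg j β| ≤ D.q * D.n ∧
      |D.deg j (D.of (C c) * D.s 1 (b (D.q - 1))) - D.deg j β - τ j| ≤ D.q ^ 2 * D.n := by
  have hu := h.nm.monic.ne_zero
  have hn : (0 : ℤ) ≤ D.n := Nat.cast_nonneg _
  have hq : (2 : ℤ) ≤ D.q := by exact_mod_cast D.two_le_q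
  have h1 : ∀ j, D.deg j β ≤ D.n := fun j => by
    have h2 := nsb_om h hb D.q_pos (hβ ▸ mul_ne_zero (D.of_ne hu) hβ0) j
    rw [← hβ, D.deg_mul j (D.of_ne hu) hβ0, deg_of, ts, Finset.sum_range_zero] at h2
    omega
  have h2 := nsb_low D.q_pos (fun j => D.deg_add_q j β) h1
    (by rw [D.deg_sum hβ0]; exact Nat.cast_nonneg _)
  have hc := C_ne_zero.2 h.hc
  have ha : D.of (C c) * D.s 1 (b (D.q - 1)) ≠ 0 := fun h0 => by
    rw [h0, ← map_zero D.of, nrm_of, zero_pow D.hq.ne_zero] at hN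
    exact mul_ne_zero (mul_ne_zero hc hu) (D.nrm_ne hβ0) hN.symm
  have hb0 : b (D.q - 1) ≠ 0 := fun h0 => ha (by rw [h0, map_zero, mul_zero])
  have h3 : ∀ j, D.deg j (D.of (C c) * D.s 1 (b (D.q - 1))) - D.deg j β - τ j ≤ D.q * D.n :=
    fun j => by
      have h4 := nsb_om h hb (Nat.sub_one_lt D.hq.ne_zero) hb0 (j + 1)
      have h5 := rnk_ts h j
      obtain ⟨k, hk⟩ := Nat.exists_eq_add_of_le' D.q_pos
      have h6 : ts τ j D.q = ts τ (j + 1) (D.q - 1) + τ j := by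
        rw [hk, ts, ts, Finset.sum_range_succ', Nat.add_sub_cancel]
        congr 1
        exact Finset.sum_congr rfl fun l _ => by rw [add_assoc, add_comm 1]
      rw [D.deg_mul j (D.of_ne hc) (D.s_ne 1 hb0), deg_of, natDegree_C, deg_s]
      have h7 := h2 j
      rw [Nat.cast_zero]
      linarith
  have h4 := nsb_low D.q_pos
    (x := fun j => D.deg j (D.of (C c) * D.s 1 (b (D.q - 1))) - D.deg j β - τ j)
    (fun j => by rw [deg_add_q, deg_add_q, h.per]) h3 (by
      rw [Finset.sum_sub_distrib, Finset.sum_sub_distrib, D.deg_sum ha, D.deg_sum hβ0, h.sum, hN,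
        natDegree_mul (mul_ne_zero hc hu) (D.nrm_ne hβ0), natDegree_C_mul h.hc]
      push_cast
      omega)
  refine ⟨?_, fun j => ⟨abs_le.2 ⟨?_, ?_⟩, abs_le.2 ⟨?_, ?_⟩⟩⟩
  · have h5 := Finset.sum_le_card_nsmul (range D.q) (fun j => D.deg j β) D.n fun i _ => h1 i
    rw [D.deg_sum hβ0, Finset.card_range, nsmul_eq_mul] at h5
    exact_mod_cast h5
  · have := h2 j
    nlinarith
  · have := h1 j
    nlinarith
  · have := h4 j
    nlinarith [mul_nonneg hn hn, mul_nonneg (zero_le_two.trans hq) hn]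
  · have := h3 j
    nlinarith [mul_nonneg (zero_le_two.trans hq) hn]

/-- The coordinates of a solution have bounded degree. -/
theorem Om.coLe {b : ℕ → D.O} (hb : D.Om u τ b) {B : ℕ} (hτ : ∀ j, |τ j| ≤ B) {i : ℕ}
    (hi : i < D.q) : D.CoLe (b i) (D.n + u.natDegree + D.q * B) := by
  refine D.coLe_of_Dg fun j hj => (hb.1 i hi j hj).mono ?_
  have h1 := Finset.card_nsmul_le_sum (range i) (fun l => τ (j + l)) (-B : ℤ)
    fun l _ => (abs_le.1 (hτ _)).1
  rw [Finset.card_range, nsmul_eq_mul] at h1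
  have h2 : (i : ℤ) * B ≤ D.q * B := by exact_mod_cast Nat.mul_le_mul_right B hi.le
  rw [ts]
  push_cast
  split_ifs <;> linarith

theorem nrm_gh {gh β a : D.O} {t : K[X]} (h : gh * β = D.of t * a) (hβ0 : β ≠ 0)
    (hN : D.nrm a = C c * u * D.nrm β) : D.nrm gh = C c * u * t ^ D.q := by
  apply mul_right_cancel₀ (D.nrm_ne hβ0)
  rw [← nrm_mul, h, nrm_mul, nrm_of, hN]
  ring

/-- A division exists over the algebraic closure (take `c = 1`, `r` interpolating `q`-th roots of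
the `u (e k)`, `τ j = if j % q = 0 then deg u else 0`, and for `A` the ideal quotient). -/
theorem div_exists [IsAlgClosed K] (hI : D.Nm I u) : ∃ (I' : Ideal D.O) (t : K[X]) (gh : D.O),
    D.Nm I' t ∧ D.Rel I I' gh (D.of t) ∧ D.nrm gh = u * t ^ D.q := by
  classical
  choose ρ hρ using fun k => IsAlgClosed.exists_pow_nat_eq (u.eval (D.e k)) D.q_pos
  have h : D.Hy I u (Lagrange.interpolate Finset.univ D.e ρ) 1
      fun j => if j % D.q = 0 then u.natDegree else 0 :=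
    ⟨hI, one_ne_zero, D.f_dvd_iff.2 fun k => by
      rw [eval_sub, eval_pow, Lagrange.eval_interpolate_at_node _ D.he.injOn (Finset.mem_univ k),
        hρ, C_1, one_mul, sub_self], fun j => by rw [Nat.add_mod_right], by
      rw [Finset.sum_eq_single 0 (fun l hl h0 => by
        rw [Nat.mod_eq_of_lt (Finset.mem_range.1 hl), if_neg h0]) (by simp [D.hq.ne_zero])]
      simp⟩
  obtain ⟨d, hd, hd'⟩ := ns1 h
  obtain ⟨b, hb, hb', hF⟩ := ns2 h hd hd'
  obtain ⟨β, hβ⟩ := hb.1 0 D.q_pos 1 (by rw [Ii_zero]; trivial)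
  rw [mul_one] at hβ
  obtain ⟨h1, h2, h3⟩ := ns3 h hd hd' hb hb' hF hβ.symm
  obtain ⟨A, hA⟩ : Ideal.span {D.of u} ∣ ∑ i ∈ range D.q, Ideal.span {b i} * D.Ii I i :=
    Finset.dvd_sum fun i hi => Ideal.dvd_iff_le.2 fun x hx => by
      obtain ⟨z, hz, rfl⟩ := Ideal.mem_span_singleton_mul.1 hx
      exact Ideal.mem_span_singleton.2 (hb.1 i (Finset.mem_range.1 hi) z hz)
  obtain ⟨h4, h5⟩ := ns_rel hI one_ne_zero hβ.symm h2 hA.symm
  obtain ⟨t, ht, -⟩ := post_spec (D.nrm_ne h1) (D.nrm_mem h5)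
  obtain ⟨gh, h6, h7⟩ := rel_sat h4 h5 h1 ht
  exact ⟨_, t, gh, ht, h7, by rw [nrm_gh h6 h1 h3, C_1, one_mul]⟩

end Vale.Agent.P319A.Crv
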