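import Vale.Agent.P319A.LBasic

/-!
Solutions of the norm equation over an algebraically closed field.
-/

open Polynomial Finset

namespace Vale.Agent.P319A.Crv

variable {K : Type} [Field K] (D : Crv K)

theorem nor_abs {V : Type} [CommRing V] [Algebra K[X] V] [Module.Finite K[X] V]
    (hr : Module.finrank K[X] V ≤ D.q) (hi : Function.Injective (algebraMap K[X] V))
    (T : V →ₐ[K[X]] V) (w Φ : V) (hT : algebraMap K[X] V (C D.ζ) * T w = w)
    (hq : T ^ D.q = 1) (hΦ : ∏ j ∈ range D.q, (T ^ j) Φ = algebraMap K[X] V D.f) :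
    ∃ s : K[X], s ≠ 0 ∧ ∃ b, algebraMap K[X] V (D.nrm b) = algebraMap K[X] V s ^ D.q * w ^ D.q := by
  let Y : Module.End K[X] V := LinearMap.mulLeft K[X] Φ ∘ₗ T.toLinearMap
  have hY : ∀ v, Y v = Φ * T v := fun v => rfl
  have h1 : ∀ i v, (Y ^ i) v = (∏ j ∈ range i, (T ^ j) Φ) * (T ^ i) v := fun i => by
    induction i with
    | zero => simp
    | succ i ih =>
      intro v
      rw [pow_succ, Module.End.mul_apply, ih, hY, map_mul, Finset.prod_range_succ, pow_succ,
        AlgHom.mul_apply, mul_assoc]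
  have h2 : aeval Y D.F = 0 := by
    ext v
    rw [F, map_sub, map_pow, aeval_X, aeval_C, LinearMap.sub_apply, h1, hq, hΦ,
      Module.algebraMap_end_apply, Algebra.smul_def, AlgHom.one_apply, sub_self,
      LinearMap.zero_apply]
  let ρ : D.O →ₐ[K[X]] Module.End K[X] V := Ideal.Quotient.liftₐ (Ideal.span {D.F}) (aeval Y)
    fun a ha => by
      obtain ⟨c, rfl⟩ := Ideal.mem_span_singleton'.1 ha
      rw [map_mul, h2, mul_zero]
  have ρy : ρ D.y = Y := aeval_X Y
  have ρo : ∀ P v, ρ (D.of P) v = algebraMap K[X] V P * v := fun P v => by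
    rw [show ρ (D.of P) = _ from ρ.commutes P, Module.algebraMap_end_apply, Algebra.smul_def]
  have ρm : ∀ b b' v, ρ (b * b') v = ρ b (ρ b' v) := fun b b' v => by
    rw [map_mul, Module.End.mul_apply]
  have h3 : ∀ b v, ρ (D.s 1 b) (w * v) = w * ρ b v := fun b => by
    have k1 : ∀ b b', (∀ v, ρ (D.s 1 b) (w * v) = w * ρ b v) →
        (∀ v, ρ (D.s 1 b') (w * v) = w * ρ b' v) →
        ∀ v, ρ (D.s 1 (b * b')) (w * v) = w * ρ (b * b') v := fun b b' h h' v => by
      rw [map_mul (D.s 1), ρm, ρm, h', h]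
    have k2 : ∀ P v, ρ (D.s 1 (D.of P)) (w * v) = w * ρ (D.of P) v := fun P v => by
      rw [s_of, ρo, ρo, mul_left_comm]
    have k3 : ∀ v, ρ (D.s 1 D.y) (w * v) = w * ρ D.y v := fun v => by
      rw [s_y, ρm, ρo, ρy, hY, hY, pow_one, map_mul]
      conv_rhs => rw [← hT]
      ring
    have k4 : ∀ l v, ρ (D.s 1 (D.y ^ l)) (w * v) = w * ρ (D.y ^ l) v := fun l => by
      induction l with
      | zero => simp
      | succ l ih =>
        rw [pow_succ]
        exact k1 _ _ ih k3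
    intro v
    rw [← D.sum_co b]
    simp only [map_sum, LinearMap.sum_apply, Finset.mul_sum]
    exact Finset.sum_congr rfl fun l _ => k1 _ _ (k2 _) (k4 l) v
  let Λ : D.O × K[X] →ₗ[K[X]] V :=
    (LinearMap.applyₗ (1 : V) ∘ₗ ρ.toLinearMap).coprod (LinearMap.toSpanSingleton K[X] V (-w))
  have h4 : ¬Function.Injective Λ := fun h => by
    have := D.F_monic.free_adjoinRoot
    have h5 := LinearMap.finrank_le_finrank_of_injective h
    have h6 : Module.finrank K[X] D.O = D.q :=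
      (finrank_quotient_span_eq_natDegree' D.F_monic).trans natDegree_X_pow_sub_C
    rw [Module.finrank_prod, h6, Module.finrank_self] at h5
    omega
  rw [injective_iff_map_eq_zero] at h4
  push Not at h4
  obtain ⟨⟨b, s⟩, h5, h6⟩ := h4
  have h7 : ρ b 1 = algebraMap K[X] V s * w := by
    have h8 : ρ b 1 + s • -w = 0 := h5
    rwa [smul_neg, ← sub_eq_add_neg, sub_eq_zero, Algebra.smul_def] at h8
  have h8 : ∀ i, ρ (∏ j ∈ range i, D.s j b) 1 = algebraMap K[X] V s ^ i * w ^ i := fun i => by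
    induction i with
    | zero => simp
    | succ i ih =>
      have h9 : ∏ j ∈ range (i + 1), D.s j b = D.s 1 (∏ j ∈ range i, D.s j b) * b := by
        rw [Finset.prod_range_succ', s_zero, map_prod]
        simp only [s_s, add_comm 1]
      rw [h9, ρm, h7, ← Algebra.smul_def, map_smul, ← mul_one w, h3, ih, Algebra.smul_def]
      ring
  have h9 := h8 D.q
  rw [← of_nrm, ρo, mul_one] at h9
  refine ⟨s, ?_, b, h9⟩
  rintro rfl
  rw [map_zero, zero_pow D.hq.ne_zero, zero_mul, map_eq_zero_iff _ hi] at h9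
  exact D.nrm_ne (fun h => h6 (by rw [h]; rfl)) h9

theorem nor_lin [IsAlgClosed K] (a : K) :
    ∃ s : K[X], s ≠ 0 ∧ ∃ b, D.nrm b = s ^ D.q * (X - C a) := by
  let G : K[X][X] := X ^ D.q - C (X - C a)
  have hG : G.Monic := monic_X_pow_sub_C _ D.hq.ne_zero
  have := hG.finite_adjoinRoot
  let ι : K[X] →+* AdjoinRoot G := algebraMap K[X] (AdjoinRoot G)
  let w := AdjoinRoot.root G
  have hw : w ^ D.q = ι (X - C a) := by
    have h := AdjoinRoot.eval₂_root G
    rwa [eval₂_sub, eval₂_X_pow, eval₂_C, sub_eq_zero] at h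
  have hi : Function.Injective ι := AdjoinRoot.of.injective_of_degree_ne_zero (by
    rw [degree_X_pow_sub_C D.q_pos]; exact_mod_cast D.hq.ne_zero)
  have hz : D.ζ⁻¹ ^ D.q = 1 := D.hζ.inv.pow_eq_one
  let T : AdjoinRoot G →ₐ[K[X]] AdjoinRoot G :=
    AdjoinRoot.liftAlgHom G (Algebra.ofId _ _) (ι (C D.ζ⁻¹) * w) (by
      rw [eval₂_sub, eval₂_X_pow, eval₂_C, mul_pow, hw, ← map_pow, ← C_pow, hz, C_1, map_one,
        one_mul]
      exact sub_self _)
  have hT : T w = ι (C D.ζ⁻¹) * w := AdjoinRoot.liftAlgHom_root _ _ _ _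
  have hTj : ∀ j, (T ^ j) w = ι (C (D.ζ⁻¹ ^ j)) * w := fun j => by
    induction j with
    | zero => simp
    | succ j ih =>
      rw [pow_succ', AlgHom.mul_apply, ih, map_mul, T.commutes, hT, pow_succ, C_mul, map_mul,
        mul_assoc]
  choose r hr using fun i => IsAlgClosed.exists_pow_nat_eq (D.e i - a) D.q_pos
  obtain ⟨c, hc⟩ := IsAlgClosed.exists_pow_nat_eq (∏ j ∈ range D.q, D.ζ ^ j) D.q_pos
  have h1 : ∀ i, ∏ j ∈ range D.q, (T ^ j) (ι (C c) * (w - ι (C (r i)))) = ι (X - C (D.e i)) :=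
    fun i => by
      have h2 := congrArg (eval₂RingHom (ι.comp C) w) (X_pow_sub_C_eq_prod D.hζ D.q_pos (hr i))
      simp only [map_sub, map_pow, map_prod, coe_eval₂RingHom, eval₂_X, eval₂_C,
        RingHom.comp_apply, hw] at h2
      rw [sub_sub_sub_cancel_right] at h2
      simp only [map_mul, Finset.prod_mul_distrib, ι, AlgHom.commutes, Finset.prod_const,
        Finset.card_range]
      rw [map_sub, h2, ← map_pow, ← C_pow, hc, map_prod, map_prod, ← Finset.prod_mul_distrib]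
      refine Finset.prod_congr rfl fun j _ => ?_
      rw [map_sub, hTj, AlgHom.commutes, mul_sub, ← mul_assoc, ← map_mul, ← C_mul, ← mul_pow,
        mul_inv_cancel₀ D.ζ_ne, one_pow, C_1, map_one, one_mul, ← map_mul, ← C_mul]
  obtain ⟨s, hs, b, hb⟩ := D.nor_abs (V := AdjoinRoot G)
    ((finrank_quotient_span_eq_natDegree' hG).trans natDegree_X_pow_sub_C).le hi T w
    (∏ i, ι (C c) * (w - ι (C (r i))))
    (by rw [hT, ← mul_assoc, ← map_mul, ← C_mul, mul_inv_cancel₀ D.ζ_ne, C_1, map_one, one_mul])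
    (AdjoinRoot.algHom_ext (by rw [hTj, hz, C_1, map_one, one_mul, AlgHom.one_apply]))
    (by
      simp only [map_prod (T ^ _)]
      rw [Finset.prod_comm, Finset.prod_congr rfl fun i _ => h1 i, f, map_prod])
  exact ⟨s, hs, b, hi (by rw [map_mul, map_pow, ← hw]; exact hb)⟩

/-- `x - a` is a norm. Let `F = FractionRing K[X]` (or `RatFunc K`), `V = F[w] / (w ^ q - (x - a))`,
`τ w = ζ w`, `r i ^ q = e i - a`, `Φ = c ∏ (w - r i)` with `c` chosen such that
`∏ j < q, τ ^ j Φ = f`. The `F`-linear operator `Y = Φ τ` of `V` has `Y ^ q = f`, so `L` acts on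
`V` (`y ↦ Y`; the image is commutative: use the subalgebra generated by `Y`, or avoid the action by
working with the `F`-linear map `∑ b l y ^ l ↦ ∑ b l Y ^ l 1`). The map `ℓ ↦ ℓ · 1` is injective
(`L` is a field), so bijective (both sides have dimension `q`): `w = g · 1`. From `Y w = ζ w Y` get
`w (ℓ · v) = s ^ (q - 1) ℓ · (w v)` and `w ^ q · 1 = gi g q · 1`. -/
theorem exists_norm_lin [IsAlgClosed K] (a : K) :
    ∃ g : D.L, D.gi g D.q = D.am (D.of (X - C a)) := by
  obtain ⟨s, hs, b, hb⟩ := D.nor_lin a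
  refine ⟨D.am b * (D.am (D.of s))⁻¹, ?_⟩
  rw [gi_mul, gi_inv, gi_am, gi_am, hb, nrm_of, map_mul, map_mul, mul_comm,
    inv_mul_cancel_left₀ (D.am_ne (D.of_ne (pow_ne_zero _ hs)))]

theorem exists_norm [IsAlgClosed K] (u : K[X]) : ∃ g : D.L, D.gi g D.q = D.am (D.of u) := by
  induction IsAlgClosed.splits u using Submonoid.closure_induction with
  | mem u hu =>
    rcases hu with ⟨a, rfl⟩ | ⟨a, rfl⟩
    · obtain ⟨c, rfl⟩ := IsAlgClosed.exists_pow_nat_eq a D.q_pos
      exact ⟨D.am (D.of (C c)), by rw [gi_am, nrm_of, C_pow]⟩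
    · simpa using D.exists_norm_lin (-a)
  | one => exact ⟨1, by simp [gi]⟩
  | mul u v _ _ h h' =>
    obtain ⟨g, hg⟩ := h
    obtain ⟨g', hg'⟩ := h'
    exact ⟨g * g', by rw [gi_mul, hg, hg', map_mul, map_mul]⟩

end Vale.Agent.P319A.Crv
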