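import Vale.Agent.P319A.Frob
import Vale.Agent.P319A.ModL

/-!
Rationality of divisor classes. Let `V = Additive FIˣ × (ZMod q → ℤ)` modulo the principal divisors
`(spanSingleton a, fun j => dg (ιL j.val a))`. Then `σ` (shift on the second factor) and `fr`
(identity on the second factor) act on `V`, commute, `σ ^ q = 1`, and `σ x = x → fr x = x` by
`inv_class`. For `x I = (I, 0)` the relation `Rel I I' a b` gives
`(1 - fr) (1 - σ) x I' = (1 - fr) x I`. Apply `module_lemma`.
-/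

open Polynomial Finset LaurentSeries nonZeroDivisors

namespace Vale.Agent.P319A.Crv

variable {K : Type} [Field K] {D : Crv K} {φ ψ : K →+* K}

theorem Chain.ne_bot {j : ℕ} {I : Ideal D.O} (h : D.Chain φ j I) : I ≠ ⊥ := by
  cases h with
  | zero _ h => exact fun h0 => h (le_bot_iff.1 (h0 ▸ le_sat _))
  | succ _ _ _ h _ => exact h

variable (D)

/-- Divisors with the points at infinity. -/
abbrev PicDv : Type := Additive (D.FI)ˣ × (ZMod D.q → ℤ)

/-- The degree at a point at infinity. -/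
noncomputable def picDg (j : ZMod D.q) (x : D.L) : ℤ := dg (D.ιL j.val x)

theorem picDg_nat (k : ℕ) (x : D.L) : D.picDg k x = dg (D.ιL k x) := by
  have h : Function.Periodic D.ιL D.q := D.ιL_add_q
  rw [picDg, ZMod.val_natCast, h.map_mod_nat]

theorem picDg_mul (j : ZMod D.q) {x y : D.L} (hx : x ≠ 0) (hy : y ≠ 0) :
    D.picDg j (x * y) = D.picDg j x + D.picDg j y := by
  rw [picDg, map_mul]
  exact dg_mul ((_root_.map_ne_zero _).2 hx) ((_root_.map_ne_zero _).2 hy)

theorem picDg_inv (j : ZMod D.q) (x : D.L) : D.picDg j x⁻¹ = -D.picDg j x := by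
  rw [picDg, map_inv₀, dg_inv, picDg]

theorem picDg_σ (j : ZMod D.q) (x : D.L) : D.picDg j (D.extL D.σ x) = D.picDg (j + 1) x := by
  have : NeZero D.q := ⟨D.hq.ne_zero⟩
  have e : j + 1 = ((j.val + 1 : ℕ) : ZMod D.q) := by simp
  rw [e, picDg_nat, extL_σ, picDg, ιL_sL]

/-- Principal divisors. -/
def picP : Submodule ℤ D.PicDv where
  carrier := {v | ∃ g : D.L, g ≠ 0 ∧
    ((Additive.toMul v.1 : (D.FI)ˣ) : D.FI) = FractionalIdeal.spanSingleton _ g ∧
      ∀ j, v.2 j = D.picDg j g}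
  zero_mem' := ⟨1, one_ne_zero, FractionalIdeal.spanSingleton_one.symm, fun j => by
    rw [picDg, map_one, dg_one]; rfl⟩
  add_mem' := by
    rintro v w ⟨g, h0, h1, h2⟩ ⟨g', h0', h1', h2'⟩
    refine ⟨g * g', mul_ne_zero h0 h0', ?_, fun j => ?_⟩
    · rw [Prod.fst_add, toMul_add, Units.val_mul, h1, h1',
        FractionalIdeal.spanSingleton_mul_spanSingleton]
    · rw [Prod.snd_add, Pi.add_apply, h2, h2', picDg_mul _ _ h0 h0']
  smul_mem' := by
    rintro c v ⟨g, h0, h1, h2⟩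
    refine ⟨g ^ c, zpow_ne_zero _ h0, ?_, fun j => ?_⟩
    · rw [Prod.smul_fst, toMul_zsmul, Units.val_zpow_eq_zpow_val, h1]
      cases c with
      | ofNat n => simp [FractionalIdeal.spanSingleton_pow]
      | negSucc n => simp [FractionalIdeal.spanSingleton_pow, FractionalIdeal.spanSingleton_inv]
    · rw [Prod.smul_snd, Pi.smul_apply, h2, smul_eq_mul]
      cases c with
      | ofNat n => simp [picDg, dg_pow]
      | negSucc n =>
        rw [zpow_negSucc, picDg_inv, picDg, picDg, map_pow, dg_pow, Int.negSucc_eq]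
        push_cast
        ring

/-- The divisor class group. -/
abbrev PicV : Type := D.PicDv ⧸ D.picP

/-- The action on divisors. -/
noncomputable def picA (τ : D.O ≃+* D.O) (c : ZMod D.q) : D.PicDv →ₗ[ℤ] D.PicDv :=
  LinearMap.prodMap
    (MonoidHom.toAdditive (Units.map (D.extF τ).toMonoidHom)).toIntLinearMap
    (LinearMap.funLeft ℤ ℤ (· + c))

theorem picA_fst (τ : D.O ≃+* D.O) (c : ZMod D.q) (v : D.PicDv) :
    ((Additive.toMul (D.picA τ c v).1 : (D.FI)ˣ) : D.FI) =
      D.extF τ (Additive.toMul v.1 : (D.FI)ˣ) := rfl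

theorem picA_snd (τ : D.O ≃+* D.O) (c : ZMod D.q) (v : D.PicDv) (j : ZMod D.q) :
    (D.picA τ c v).2 j = v.2 (j + c) := rfl

theorem pic_ext {v w : D.PicDv}
    (h1 : ((Additive.toMul v.1 : (D.FI)ˣ) : D.FI) = (Additive.toMul w.1 : (D.FI)ˣ))
    (h2 : ∀ j, v.2 j = w.2 j) : v = w :=
  Prod.ext (Additive.toMul.injective (Units.ext h1)) (funext h2)

theorem picA_iter (τ : D.O ≃+* D.O) (c : ZMod D.q) (N : ℕ) (v : D.PicDv) :
    ((Additive.toMul ((D.picA τ c ^ N) v).1 : (D.FI)ˣ) : D.FI) =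
      (D.extF τ)^[N] (Additive.toMul v.1 : (D.FI)ˣ) ∧
    ∀ j, ((D.picA τ c ^ N) v).2 j = v.2 (j + N * c) := by
  induction N with
  | zero => simp
  | succ N ih =>
    rw [pow_succ', Module.End.mul_apply, picA_fst, ih.1, Function.iterate_succ_apply']
    refine ⟨rfl, fun j => ?_⟩
    rw [picA_snd, ih.2, Nat.cast_succ, add_mul, one_mul, add_assoc, add_comm c]

/-- The action on classes. -/
noncomputable def picB (τ : D.O ≃+* D.O) (c : ZMod D.q)
    (h : ∀ j x, D.picDg j (D.extL τ x) = D.picDg (j + c) x) : Module.End ℤ D.PicV :=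
  Submodule.mapQ _ _ (D.picA τ c) (by
    rintro v ⟨g, h0, h1, h2⟩
    exact ⟨D.extL τ g, (_root_.map_ne_zero _).2 h0, by rw [picA_fst, h1, extF_span], fun j => by
      rw [picA_snd, h2, h]⟩)

theorem picB_mk (τ : D.O ≃+* D.O) (c : ZMod D.q) (h) (v : D.PicDv) :
    D.picB τ c h (D.picP.mkQ v) = D.picP.mkQ (D.picA τ c v) := rfl

theorem picB_pow (τ : D.O ≃+* D.O) (c : ZMod D.q) (h) (N : ℕ) (v : D.PicDv) :
    (D.picB τ c h ^ N) (D.picP.mkQ v) = D.picP.mkQ ((D.picA τ c ^ N) v) := by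
  induction N with
  | zero => rfl
  | succ N ih => rw [pow_succ', pow_succ', Module.End.mul_apply, ih, picB_mk]; rfl

theorem pic_eq {v w : D.PicDv} : D.picP.mkQ v = D.picP.mkQ w ↔ ∃ g : D.L, g ≠ 0 ∧
    ((Additive.toMul v.1 : (D.FI)ˣ) : D.FI) =
      FractionalIdeal.spanSingleton _ g * ((Additive.toMul w.1 : (D.FI)ˣ) : D.FI) ∧
    ∀ j, v.2 j = D.picDg j g + w.2 j := by
  rw [Submodule.mkQ_apply, Submodule.mkQ_apply, Submodule.Quotient.eq]
  refine exists_congr fun g => and_congr_right fun _ => and_congr ?_ (forall_congr' fun j => ?_)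
  · rw [Prod.fst_sub, toMul_sub, Units.val_div_eq_div_val, div_eq_iff (Units.ne_zero _)]
  · rw [Prod.snd_sub, Pi.sub_apply, sub_eq_iff_eq_add]

/-- The divisor of an ideal. -/
noncomputable def picX (I : Ideal D.O) (hI : I ≠ ⊥) : D.PicDv :=
  (Additive.ofMul (Units.mk0 (I : D.FI) (FractionalIdeal.coeIdeal_ne_zero.2 hI)), 0)

variable {D}

theorem picDg_fr (h : D.Fx φ) (hφ : Function.Bijective φ) (j : ZMod D.q) (x : D.L) :
    D.picDg j (D.extL (frE h hφ) x) = D.picDg (j + 0) x := by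
  rw [add_zero]
  exact dg_extL_frE h hφ _ x

theorem pic_comm (h : D.Fx φ) (hφ : Function.Bijective φ) :
    Commute (D.picB D.σ 1 D.picDg_σ) (D.picB (frE h hφ) 0 (picDg_fr h hφ)) := by
  refine LinearMap.ext fun x => ?_
  obtain ⟨v, rfl⟩ := D.picP.mkQ_surjective x
  simp only [Module.End.mul_apply, picB_mk]
  congr 1
  refine D.pic_ext ?_ fun j => ?_
  · simp only [picA_fst]
    exact D.extF_comm (fun b => (fr_s h 1 b).symm) _
  · simp only [picA_snd, add_zero]

theorem pic_σ_pow : D.picB D.σ 1 D.picDg_σ ^ D.q = 1 := by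
  refine LinearMap.ext fun x => ?_
  obtain ⟨v, rfl⟩ := D.picP.mkQ_surjective x
  rw [picB_pow, Module.End.one_apply]
  congr 1
  refine D.pic_ext ?_ fun j => ?_
  · rw [(D.picA_iter _ _ _ _).1, extF_σ_q]
  · rw [(D.picA_iter _ _ _ _).2, ZMod.natCast_self, zero_mul, add_zero]

theorem pic_ker [IsAlgClosed K] (h : D.Fx φ) (hφ : Function.Bijective φ) (x : D.PicV)
    (hx : D.picB D.σ 1 D.picDg_σ x = x) : D.picB (frE h hφ) 0 (picDg_fr h hφ) x = x := by
  obtain ⟨v, rfl⟩ := D.picP.mkQ_surjective x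
  rw [picB_mk, pic_eq] at hx ⊢
  obtain ⟨γ, -, h1, -⟩ := hx
  rw [picA_fst] at h1
  obtain ⟨w, W, hw, h2, h3⟩ := inv_class h hφ (Units.ne_zero _) h1
  have hw' : D.extL (frE h hφ) w ≠ 0 := (_root_.map_ne_zero _).2 hw
  refine ⟨D.extL (frE h hφ) w * w⁻¹, mul_ne_zero hw' (inv_ne_zero hw), ?_, fun j => ?_⟩
  · rw [picA_fst, h2, map_mul, h3, extF_span, ← mul_assoc,
      FractionalIdeal.spanSingleton_mul_spanSingleton, inv_mul_cancel_right₀ hw]
  · rw [picA_snd, D.picDg_mul _ hw' (inv_ne_zero hw), picDg_fr, picDg_inv]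
    simp

theorem pic_chain (h : D.Fx φ) (hφ : Function.Bijective φ) {j : ℕ} {I : Ideal D.O}
    (hI : D.Chain φ j I) : ((1 - D.picB D.σ 1 D.picDg_σ) ^ j *
      (1 - D.picB (frE h hφ) 0 (picDg_fr h hφ))) (D.picP.mkQ (D.picX I hI.ne_bot)) = 0 := by
  induction hI with
  | @zero A hA h0 =>
    rw [pow_zero, one_mul, LinearMap.sub_apply, Module.End.one_apply, picB_mk, sub_eq_zero]
    congr 1
    refine D.pic_ext ?_ fun _ => rfl
    show ((D.sat A : Ideal D.O) : D.FI) = D.extF (frE h hφ) (D.sat A : Ideal D.O)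
    rw [extF_coe, sat_map _ (by rw [frE_apply, fr_of, h.map_f])]
    congr 2
    exact (map_fr_of_ratI h hA).symm
  | @succ j I I' a b hI ha hb h0 hr ih =>
    have hc : Commute (1 - D.picB D.σ 1 D.picDg_σ) (1 - D.picB (frE h hφ) 0 (picDg_fr h hφ)) :=
      (Commute.one_left _).sub_left ((Commute.one_right _).sub_right (pic_comm h hφ))
    have a0 := D.am_ne ha
    have b0 := D.am_ne hb
    have key : D.picP.mkQ (D.picX I hI.ne_bot + D.picA D.σ 1 (D.picX I' h0) +
        (0, fun j => D.picDg j (D.am a * (D.am b)⁻¹))) = D.picP.mkQ (D.picX I' h0) := by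
      refine D.pic_eq.2 ⟨D.am a * (D.am b)⁻¹, mul_ne_zero a0 (inv_ne_zero b0), ?_, fun j => ?_⟩
      · show (I : D.FI) * D.extF D.σ (I' : D.FI) * 1 = _ * (I' : D.FI)
        have h1 := congrArg (fun J : Ideal D.O => (J : D.FI)) hr
        simp only [FractionalIdeal.coeIdeal_mul, FractionalIdeal.coeIdeal_span_singleton] at h1
        rw [extF_coe, mul_one, mul_comm (D.am a), ← FractionalIdeal.spanSingleton_mul_spanSingleton,
          mul_assoc]
        erw [← h1]
        rw [← mul_assoc, FractionalIdeal.spanSingleton_mul_spanSingleton]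
        erw [inv_mul_cancel₀ b0]
        rw [FractionalIdeal.spanSingleton_one, one_mul]
        rfl
      · simp [picX, picA_snd]
    have k2 : (1 - D.picB (frE h hφ) 0 (picDg_fr h hφ))
        (D.picP.mkQ (0, fun j => D.picDg j (D.am a * (D.am b)⁻¹))) = 0 := by
      rw [LinearMap.sub_apply, Module.End.one_apply, picB_mk, sub_eq_zero]
      congr 1
      exact D.pic_ext (map_one _).symm fun j => by rw [picA_snd, add_zero]
    have k3 : (1 - D.picB D.σ 1 D.picDg_σ) (D.picP.mkQ (D.picX I' h0)) =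
        D.picP.mkQ (D.picX I hI.ne_bot) +
          D.picP.mkQ (0, fun j => D.picDg j (D.am a * (D.am b)⁻¹)) := by
      rw [map_add, map_add] at key
      rw [LinearMap.sub_apply, Module.End.one_apply, picB_mk, sub_eq_iff_eq_add]
      exact key.symm.trans (add_right_comm _ _ _)
    rw [pow_succ, mul_assoc, hc.eq, Module.End.mul_apply, Module.End.mul_apply, k3, map_add, k2,
      add_zero]
    exact ih

theorem pic_fixed [IsAlgClosed K] (h : D.Fx φ) (hφ : Function.Bijective φ) (h' : D.Fx ψ)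
    {t j : ℕ} (hψ : ∀ x, ψ x = φ^[D.q ^ t] x) (hj : j ≤ t * (D.q - 1)) {I : Ideal D.O}
    (hI : D.Chain φ j I) : ∃ a b : D.O, a ≠ 0 ∧ b ≠ 0 ∧
      Ideal.span {b} * I.map (fr h') = Ideal.span {a} * I ∧ ∀ k, D.deg k a = D.deg k b := by
  have h1 := module_lemma D.hq _ _ (pic_comm h hφ) pic_σ_pow (pic_ker h hφ) hj (pic_chain h hφ hI)
  rw [picB_pow, pic_eq] at h1
  obtain ⟨g, g0, h2, h3⟩ := h1
  have hψ' : Function.Bijective ψ := by
    rw [show (ψ : K → K) = φ^[D.q ^ t] from funext hψ]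
    exact hφ.iterate _
  rw [(D.picA_iter _ _ _ _).1,
    ← D.extF_iterate (τ := frE h hφ) (τ' := frE h' hψ') (N := D.q ^ t)
      fun b => fr_iterate h h' hψ b] at h2
  obtain ⟨s, a, hs, e⟩ := D.exists_den g
  have b0 := D.of_ne hs
  have a0 : a ≠ 0 := fun h0 => mul_ne_zero (D.am_ne b0) g0 (by rw [e, h0, map_zero])
  refine ⟨a, D.of s, a0, b0, ?_, fun k => ?_⟩
  · apply FractionalIdeal.coeIdeal_injective (K := D.L)
    have h4 : D.extF (frE h' hψ') (I : D.FI) = FractionalIdeal.spanSingleton _ g * (I : D.FI) := h2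
    rw [extF_coe] at h4
    simp only [FractionalIdeal.coeIdeal_mul, FractionalIdeal.coeIdeal_span_singleton]
    erw [h4]
    rw [← mul_assoc, FractionalIdeal.spanSingleton_mul_spanSingleton]
    erw [e]
    rfl
  · have h4 := h3 k
    rw [(D.picA_iter _ _ _ _).2] at h4
    have h5 : D.picDg k g = 0 := by simpa [picX] using h4.symm
    have h6 := D.picDg_mul k (D.am_ne b0) g0
    rw [e, h5, add_zero, picDg_nat, picDg_nat, ιL_am, ιL_am] at h6
    exact h6

end Vale.Agent.P319A.Crv
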