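import Vale.Agent.P319A.Dual
import Vale.Agent.P319A.EndM

/-!
Operators satisfying the conditions at infinity have a fixed space of rank one.
-/

open Polynomial Finset LaurentSeries

namespace Vale.Agent.P319A.Crv

variable {K : Type} [Field K] (D : Crv K)

/-- The offsets of the weights. -/
noncomputable def kap (g : D.L) (τ : ℕ → ℤ) (j : ℕ) : ℤ :=
  ∑ l ∈ range j, (dg (D.ιL l g) - τ l)

variable {D} {I : Ideal D.O} {c : K} {u r : K[X]} {g : D.L} {M : Submodule D.O D.L} {τ : ℕ → ℤ}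

theorem rnk_ts (h : D.Hy I u r c τ) (j : ℕ) : ts τ j D.q = u.natDegree := by
  induction j with
  | zero => simpa [ts] using h.sum
  | succ j ih =>
    have h1 := Finset.sum_range_succ (fun l => τ (j + l)) D.q
    rw [Finset.sum_range_succ', h.per] at h1
    rw [← ih, ts, ts]
    simp only [add_zero, add_left_inj] at h1
    rw [← h1]
    exact Finset.sum_congr rfl fun l _ => by rw [add_assoc, add_comm 1]

theorem dg_gi_kap (h : D.Hy I u r c τ) (hg : D.gi g D.q = D.am (D.of (C c * u))) (j i : ℕ) :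
    dg (D.ιL j (D.gi g i)) = ts τ j i + D.kap g τ (j + i) - D.kap g τ j := by
  rw [D.dg_gi (enm_ne hg h.hc h.nm.monic.ne_zero), kap, kap, Finset.sum_range_add, ts]
  simp only [Finset.sum_sub_distrib]
  ring

theorem kap_per (h : D.Hy I u r c τ) (hg : D.gi g D.q = D.am (D.of (C c * u))) (j : ℕ) :
    D.kap g τ (j + D.q) = D.kap g τ j := by
  have h1 := dg_gi_kap h hg j D.q
  rw [hg, ιL_am, ι_of, dg_xi, natDegree_C_mul h.hc, rnk_ts h] at h1
  omega

theorem Wt.all {κ : ℕ → ℤ} (hκ : ∀ j, κ (j + D.q) = κ j) {m : ℤ} {α : D.L} (h : D.Wt κ m α)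
    (j : ℕ) : Dg (D.ιL j α) (m - κ j) := by
  induction j using Nat.strong_induction_on with
  | _ j ih =>
    rcases lt_or_ge j D.q with hj | hj
    · exact h j hj
    · obtain ⟨k, rfl⟩ := Nat.exists_eq_add_of_le' hj
      rw [hκ, ιL_add_q]
      exact ih k (Nat.lt_add_of_pos_right D.q_pos)

theorem Wt.mono {κ : ℕ → ℤ} {m m' : ℤ} {α : D.L} (h : D.Wt κ m α) (hm : m ≤ m') :
    D.Wt κ m' α := fun j hj => (h j hj).mono (by omega)

theorem Wt'.wt {κ : ℕ → ℤ} {m : ℤ} {α : D.L} (h : D.Wt' κ m α) : D.Wt κ m α :=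
  fun j hj => (h j hj).mono (by split_ifs <;> omega)

theorem Wt.wt' {κ : ℕ → ℤ} {m : ℤ} {α : D.L} (h : D.Wt κ (m - 1) α) : D.Wt' κ m α :=
  fun j hj => (h j hj).mono (by split_ifs <;> omega)

theorem Wt.sub {κ : ℕ → ℤ} {m : ℤ} {α β : D.L} (h : D.Wt κ m α) (h' : D.Wt κ m β) :
    D.Wt κ m (α - β) := fun j hj => by rw [map_sub]; exact (h j hj).sub (h' j hj)

theorem Wt.add {κ : ℕ → ℤ} {m : ℤ} {α β : D.L} (h : D.Wt κ m α) (h' : D.Wt κ m β) :
    D.Wt κ m (α + β) := fun j hj => by rw [map_add]; exact (h j hj).add (h' j hj)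

theorem Wt.zero (κ : ℕ → ℤ) (m : ℤ) : D.Wt κ m 0 := fun j _ => by rw [map_zero]; exact Dg.zero _

theorem Wt'.pred {κ : ℕ → ℤ} {m : ℤ} {α : D.L} (h : D.Wt' κ m α)
    (h0 : (D.ιL 0 α).coeff (-(m - κ 0)) = 0) : D.Wt κ (m - 1) α := fun j hj => by
  rcases eq_or_ne j 0 with rfl | hj0
  · exact ((h.wt 0 hj).pred h0).mono (by omega)
  · exact (h j hj).mono (by rw [if_neg hj0]; omega)

theorem rnk_exists_wt (κ : ℕ → ℤ) (x : D.L) : ∃ m, D.Wt κ m x := by
  refine ⟨∑ j ∈ range D.q, |dg (D.ιL j x) + κ j|, fun j hj => (Dg_dg _).mono ?_⟩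
  have h2 := Finset.single_le_sum (f := fun j => |dg (D.ιL j x) + κ j|)
    (fun i _ => abs_nonneg _) (Finset.mem_range.2 hj)
  have h3 := le_abs_self (dg (D.ιL j x) + κ j)
  omega

/-- A group of vectors, all with leading terms at the first point, has rank at most one. -/
theorem rank_one (κ : ℕ → ℤ) (G : AddSubgroup D.L)
    (hx : ∀ P, ∀ x ∈ G, D.am (D.of P) * x ∈ G) {s : K[X]} (hs : s ≠ 0)
    (hden : ∀ x ∈ G, ∃ o, D.am (D.of s) * x = D.am o)
    (hW : ∀ m, ∀ x ∈ G, D.Wt κ m x → D.Wt' κ m x) :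
    ∃ α ∈ G, (∀ x ∈ G, ∃ P, x = D.am (D.of P) * α) ∧
      ∃ m, D.Wt κ m α ∧ ∀ x ∈ G, D.Wt κ (m - 1) x → x = 0 := by
  by_cases h0 : ∀ x ∈ G, x = 0
  · exact ⟨0, G.zero_mem, fun x h => ⟨0, by rw [h0 x h, mul_zero]⟩, 0, Wt.zero _ _,
      fun x h _ => h0 x h⟩
  obtain ⟨m₀, h₀⟩ := D.exists_wt_zero κ hs
  obtain ⟨m, ⟨α, hα, hα0, hw⟩, hm⟩ := Int.exists_least_of_bdd
    (P := fun m => ∃ α ∈ G, α ≠ 0 ∧ D.Wt κ m α)
    ⟨m₀, by
      rintro m ⟨α, hα, hα0, hw⟩
      by_contra h2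
      exact hα0 (h₀ α (hden α hα) (hw.mono (by omega)))⟩
    (by
      push Not at h0
      obtain ⟨x, hx, hx0⟩ := h0
      obtain ⟨m, hm⟩ := rnk_exists_wt κ x
      exact ⟨m, x, hx, hx0, hm⟩)
  have h1 : ∀ x ∈ G, D.Wt κ (m - 1) x → x = 0 := fun x hx' h => by
    by_contra h2
    have := hm _ ⟨x, hx', h2, h⟩
    omega
  have ha : (D.ιL 0 α).coeff (-(m - κ 0)) ≠ 0 := fun h => hα0 (h1 α hα ((hW m α hα hw).pred h))
  have h2 : ∀ N : ℕ, ∀ x ∈ G, D.Wt κ (m + N - 1) x → ∃ P, x = D.am (D.of P) * α := fun N => by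
    induction N with
    | zero => exact fun x hx' h => ⟨0, by rw [h1 x hx' (h.mono (by simp))]; simp⟩
    | succ N ih =>
      intro x hx' h
      have h' : D.Wt κ (m + N) x := h.mono (by push_cast; omega)
      let e := (D.ιL 0 x).coeff (-(m + N - κ 0)) / (D.ιL 0 α).coeff (-(m - κ 0))
      have h3 : D.Wt κ (m + N) (D.am (D.of (monomial N e)) * α) := fun j hj => by
        rw [map_mul, ιL_am, ι_of, laur_xi_monomial]
        exact ((Dg.single _ _).mul (hw j hj)).mono (by omega)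
      have h4 := G.sub_mem hx' (hx (monomial N e) α hα)
      obtain ⟨P, hP⟩ := ih _ h4 ((hW _ _ h4 (h'.sub h3)).pred (by
        rw [map_sub, HahnSeries.coeff_sub, map_mul, ιL_am, ι_of, laur_xi_monomial,
          HahnSeries.coeff_single_mul, show -(m + N - κ 0) - -(N : ℤ) = -(m - κ 0) by ring,
          div_mul_cancel₀ _ ha, sub_self]))
      exact ⟨P + monomial N e, by rw [map_add, map_add, add_mul, ← hP, sub_add_cancel]⟩
  refine ⟨α, hα, fun x hx' => ?_, m, hw, h1⟩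
  obtain ⟨m', hm'⟩ := rnk_exists_wt κ x
  exact h2 (m' + 1 - m).toNat x hx' (hm'.mono (by omega))

theorem rnk_fu (h : D.Hy I u r c τ) : dg (xi (D.f * u)) = D.n + u.natDegree := by
  rw [dg_xi, D.f_monic.natDegree_mul h.nm.monic, f_natDegree, Nat.cast_add]

theorem rnk_ι (d : ℕ → D.O) (α : D.L) (j : ℕ) : D.ιL j (D.op u g d α) = ∑ i ∈ range D.q,
    D.ι j (d i) * (xi (D.f * u))⁻¹ * D.ιL j (D.gi g i) * D.ιL (j + i) α := by
  simp only [op, map_sum, map_mul (D.ιL j), div_eq_mul_inv, map_inv₀, ιL_am, ι_of, ιL_sL]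

theorem rnk_term (h : D.Hy I u r c τ) (hg : D.gi g D.q = D.am (D.of (C c * u))) {d : ℕ → D.O}
    (hd : D.Om u τ d) {i j : ℕ} (hi : i < D.q) (hj : j < D.q) {z : K⸨X⸩} {m : ℤ}
    (hz : Dg z (m - D.kap g τ (j + i))) :
    Dg (D.ι j (d i) * (xi (D.f * u))⁻¹ * D.ιL j (D.gi g i) * z)
      (m - D.kap g τ j - if j = 0 then 0 else 1) := by
  refine ((((hd.1 i hi j hj).mul (Dg_dg _)).mul (Dg_dg _)).mul hz).mono ?_
  rw [dg_inv, rnk_fu h, dg_gi_kap h hg]
  omega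

theorem op_wt (h : D.Hy I u r c τ) (hg : D.gi g D.q = D.am (D.of (C c * u))) {d : ℕ → D.O}
    (hd : D.Om u τ d) {m : ℤ} {α : D.L} (hα : D.Wt (D.kap g τ) m α) :
    D.Wt' (D.kap g τ) m (D.op u g d α) := fun j hj => by
  rw [rnk_ι]
  exact Dg.sum fun i hi =>
    rnk_term h hg hd (Finset.mem_range.1 hi) hj (hα.all (kap_per h hg) _)

theorem op_wt' (h : D.Hy I u r c τ) (hg : D.gi g D.q = D.am (D.of (C c * u))) {d : ℕ → D.O}
    (hd : D.Om u τ d) {m : ℤ} {α : D.L} (hα : D.Wt' (D.kap g τ) m α) :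
    D.Wt (D.kap g τ) (m - 1) (D.op u g d α - α) := fun j hj => by
  rw [map_sub]
  rcases eq_or_ne j 0 with rfl | hj0
  · obtain ⟨k, hk⟩ := Nat.exists_eq_add_of_le' D.q_pos
    have hfu : xi (D.f * u) ≠ 0 := (map_ne_zero_iff _ xi_injective).2
      (mul_ne_zero D.f_monic.ne_zero h.nm.monic.ne_zero)
    rw [rnk_ι, hk, Finset.sum_range_succ', add_sub_assoc]
    refine (Dg.sum fun i hi => ?_).add ?_
    · have hi' : i + 1 < D.q := by have := Finset.mem_range.1 hi; omega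
      refine (rnk_term h hg hd hi' hj (m := m - 1) ?_).mono (by simp)
      rw [zero_add]
      exact (hα _ hi').mono (by rw [if_neg (Nat.succ_ne_zero i)]; omega)
    · have h1 : D.ι 0 (d 0) * (xi (D.f * u))⁻¹ * D.ιL 0 (D.gi g 0) * D.ιL (0 + 0) α - D.ιL 0 α =
          (D.ι 0 (d 0) - xi (D.f * u)) * (xi (D.f * u))⁻¹ * D.ιL 0 α := by
        rw [gi_zero, map_one]
        field_simp
      have h2 : Dg (D.ι 0 (d 0)) (D.n + u.natDegree) := (hd.1 0 hj 0 hj).mono (by simp [ts])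
      have h3 : Dg (xi (D.f * u)) (D.n + u.natDegree) := (Dg_dg _).mono (rnk_fu h).le
      have h4 := (h2.sub h3).pred (by
        rw [HahnSeries.coeff_sub, hd.2, ← Nat.cast_add, coeff_xi_neg, ← D.f_natDegree,
          ← D.f_monic.natDegree_mul h.nm.monic, (D.f_monic.mul h.nm.monic).coeff_natDegree,
          sub_self])
      rw [h1]
      refine ((h4.mul (Dg_dg _)).mul (hα.wt 0 hj)).mono ?_
      rw [dg_inv, rnk_fu h]
      omega
  · exact ((op_wt h hg hd hα.wt j hj).sub (hα j hj)).mono (by rw [if_neg hj0]; omega)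

/-- The operator as a linear map. -/
noncomputable def rnkE (u : K[X]) (g : D.L) (d : ℕ → D.O) : Module.End ℤ D.L :=
  (AddMonoidHom.mk' (D.op u g d) (op_add d)).toIntLinearMap

theorem rnkE_apply (d : ℕ → D.O) (x : D.L) : rnkE u g d x = D.op u g d x := rfl

theorem rnk_pow {S : D.L → Prop} {T : Module.End ℤ D.L} (h : ∀ x, S x → S (T x)) (k : ℕ) :
    ∀ x, S x → S ((T ^ k) x) := by
  induction k with
  | zero => exact fun x hx => hx
  | succ k ih => exact fun x hx => by rw [pow_succ', Module.End.mul_apply]; exact h _ (ih x hx)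

/-- With `δ = op u g d`: the group `G` of `v ∈ M` killed by a power of `1 - δ` satisfies the
hypotheses of `rank_one` (`v = δ (∑ (1 - δ) ^ i v)`), so `δ = 1` on `G`; and `δ ^ k α ∈ G` for
large `k` because `δ ^ 2 - δ` lowers the weight. -/
theorem exists_fixed (h : D.Hy I u r c τ) (hg : D.NormSol c u r g) (hM : D.Lat I g M)
    {d : ℕ → D.O} (hL : D.Lam I u r d) (hd : D.Om u τ d) {m : ℤ} {α : D.L} (hα : α ∈ M)
    (hw : D.Wt' (D.kap g τ) m α) : ∃ α' ∈ M, D.Wt' (D.kap g τ) m α' ∧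
      (D.ιL 0 α').coeff (-(m - D.kap g τ 0)) = (D.ιL 0 α).coeff (-(m - D.kap g τ 0)) ∧
      D.op u g d α' = α' := by
  obtain ⟨s, hs, hden⟩ := hM.den
  set δ := rnkE u g d with hδ
  have hδM : ∀ x ∈ M, δ x ∈ M := fun x hx => op_mem h.nm hg hM hL hx
  have hε : ∀ x, (1 - δ) x = x - D.op u g d x := fun x => rfl
  have hεM : ∀ x ∈ M, (1 - δ) x ∈ M := fun x hx => M.sub_mem hx (hδM x hx)
  have hεP : ∀ P (k : ℕ) x,
      ((1 - δ) ^ k) (D.am (D.of P) * x) = D.am (D.of P) * ((1 - δ) ^ k) x :=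
    fun P k => by
      induction k with
      | zero => exact fun x => rfl
      | succ k ih =>
        intro x
        rw [pow_succ, Module.End.mul_apply, Module.End.mul_apply, hε, hε, op_of_mul, ← mul_sub, ih]
  let G : AddSubgroup D.L :=
    { carrier := {v | v ∈ M ∧ ∃ k : ℕ, ((1 - δ) ^ k) v = 0}
      add_mem' := by
        rintro v w ⟨hv, k, hk⟩ ⟨hw, l, hl⟩
        refine ⟨M.add_mem hv hw, k + l, ?_⟩
        rw [map_add, pow_add, Module.End.mul_apply _ _ w, hl, map_zero, add_zero, ← pow_add,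
          add_comm, pow_add, Module.End.mul_apply, hk, map_zero]
      zero_mem' := ⟨M.zero_mem, 0, map_zero _⟩
      neg_mem' := by
        rintro v ⟨hv, k, hk⟩
        exact ⟨M.neg_mem hv, k, by rw [map_neg, hk, neg_zero]⟩ }
  have hW : ∀ m, ∀ x ∈ G, D.Wt (D.kap g τ) m x → D.Wt' (D.kap g τ) m x := by
    rintro m x ⟨-, k, hk⟩ hx
    have h1 := LinearMap.congr_fun (mul_neg_geom_sum (1 - δ) k) x
    rw [sub_sub_cancel, Module.End.mul_apply, LinearMap.sub_apply, hk, sub_zero,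
      Module.End.one_apply] at h1
    rw [← h1]
    refine op_wt h hg.1 hd ?_
    rw [LinearMap.sum_apply]
    exact Finset.sum_induction _ (D.Wt (D.kap g τ) m) (fun _ _ => Wt.add) (Wt.zero _ _)
      fun i _ => rnk_pow (S := D.Wt (D.kap g τ) m) (T := 1 - δ)
        (fun y hy => by rw [hε]; exact hy.sub (op_wt h hg.1 hd hy).wt) i x hx
  obtain ⟨α₀, hα₀, hgen, m₀, hw₀, hz⟩ := rank_one (D.kap g τ) G
    (by
      rintro P x ⟨hx, k, hk⟩
      exact ⟨enm_mul hx _, k, by rw [hεP, hk, mul_zero]⟩) (ide_cop_ne hs)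
    (fun x hx => hden x hx.1) hW
  have h1 : D.op u g d α₀ - α₀ = 0 := by
    refine hz _ ?_ (op_wt' h hg.1 hd (hW _ _ hα₀ hw₀))
    obtain ⟨hm, k, hk⟩ := hα₀
    rw [← neg_sub, ← hε]
    refine G.neg_mem ⟨hεM _ hm, k, ?_⟩
    rw [← Module.End.mul_apply, ← pow_succ, pow_succ', Module.End.mul_apply, hk, map_zero]
  have h2 : ∀ x ∈ G, D.op u g d x = x := fun x hx => by
    obtain ⟨P, rfl⟩ := hgen x hx
    rw [op_of_mul, sub_eq_zero.1 h1]
  obtain ⟨m₁, h₁⟩ := D.exists_wt_zero (D.kap g τ) (ide_cop_ne hs)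
  have h3 : ∀ k : ℕ, (((1 - δ) * δ) ^ k) α ∈ M ∧
      D.Wt (D.kap g τ) (m - k) ((((1 - δ) * δ) ^ k) α) := fun k => by
    induction k with
    | zero => exact ⟨hα, hw.wt.mono (by simp)⟩
    | succ k ih =>
      rw [pow_succ', Module.End.mul_apply, Module.End.mul_apply]
      refine ⟨hεM _ (hδM _ ih.1), ?_⟩
      have h4 := (Wt.zero _ _).sub (op_wt' h hg.1 hd (op_wt h hg.1 hd ih.2))
      rw [zero_sub, neg_sub] at h4
      exact h4.mono (by push_cast; omega)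
  have h4 := h₁ _ (hden _ (h3 (m - m₁).toNat).1) ((h3 (m - m₁).toNat).2.mono (by omega))
  rw [((Commute.one_left δ).sub_left (Commute.refl δ)).mul_pow, Module.End.mul_apply] at h4
  have h5 := rnk_pow (S := fun x => x ∈ M ∧ D.Wt' (D.kap g τ) m x ∧
    (D.ιL 0 x).coeff (-(m - D.kap g τ 0)) = (D.ιL 0 α).coeff (-(m - D.kap g τ 0))) (T := δ)
    (fun x hx => ⟨hδM x hx.1, op_wt h hg.1 hd hx.2.1.wt, by
      have h6 := op_wt' h hg.1 hd hx.2.1 0 D.q_pos (-(m - D.kap g τ 0)) (by omega)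
      rw [map_sub, HahnSeries.coeff_sub, sub_eq_zero] at h6
      exact h6.trans hx.2.2⟩) (m - m₁).toNat α ⟨hα, hw, rfl⟩
  exact ⟨_, h5.1, h5.2.1, h5.2.2, h2 _ ⟨h5.1, _, h4⟩⟩

theorem fixed_rank (h : D.Hy I u r c τ) (hg : D.NormSol c u r g) (hM : D.Lat I g M)
    {d : ℕ → D.O} (hd : D.Om u τ d) : ∃ α : D.L, ∀ x ∈ M, D.op u g d x = x →
      ∃ P, x = D.am (D.of P) * α := by
  obtain ⟨s, hs, hden⟩ := hM.den
  let G : AddSubgroup D.L :=
    { carrier := {v | v ∈ M ∧ D.op u g d v = v}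
      add_mem' := by
        rintro v w ⟨hv, hk⟩ ⟨hw, hl⟩
        exact ⟨M.add_mem hv hw, by rw [op_add, hk, hl]⟩
      zero_mem' := ⟨M.zero_mem, map_zero (rnkE u g d)⟩
      neg_mem' := by
        rintro v ⟨hv, hk⟩
        exact ⟨M.neg_mem hv, (map_neg (rnkE u g d) v).trans (congrArg _ hk)⟩ }
  obtain ⟨α, -, hgen, -⟩ := rank_one (D.kap g τ) G
    (fun P x hx => ⟨enm_mul hx.1 _, by rw [op_of_mul, hx.2]⟩) (ide_cop_ne hs)
    (fun x hx => hden x hx.1) (fun m x hx hw => hx.2 ▸ op_wt h hg.1 hd hw)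
  exact ⟨α, fun x hx hx' => hgen x ⟨hx, hx'⟩⟩

end Vale.Agent.P319A.Crv
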