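import Vale.Agent.P319A.Pic
import Vale.Agent.P319A.NSB

/-!
Rationality of the roots needed in a division step, and the global step.
-/

open Polynomial Finset LaurentSeries

namespace Vale.Agent.P319A.Crv

variable {K : Type} [Field K] {D : Crv K} {φ ψ : K →+* K}

theorem rat_map (h' : D.Fx ψ) (J : Ideal D.O) :
    (J.map (D.s 1)).map (fr h') = (J.map (fr h')).map (D.s 1) := by
  rw [Ideal.map_map, Ideal.map_map]
  congr 1
  exact RingHom.ext (fr_s h' 1)

theorem rat_ring {R : Type} [CommSemiring R] {x1 x2 x3 x4 x5 x6 x7 x8 x9 x10 x11 I J : R}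
    (h1 : x6 * (I * x9) = x1 * J) (h2 : x2 * (I * x10) = x5 * x11) (hab : x4 * x11 = x7 * J)
    (h4 : x8 * x10 = x3 * x9) : x1 * x2 * x3 * x4 * J = x5 * x6 * x7 * x8 * J :=
  calc x1 * x2 * x3 * x4 * J = x2 * x3 * x4 * (x1 * J) := by ring
    _ = x2 * x4 * x6 * I * (x3 * x9) := by rw [← h1]; ring
    _ = x4 * x6 * x8 * (x2 * (I * x10)) := by rw [← h4]; ring
    _ = x5 * x6 * x8 * (x4 * x11) := by rw [h2]; ring
    _ = x5 * x6 * x7 * x8 * J := by rw [hab]; ring

theorem rat_unit {ε x y : D.O} (hε : IsUnit ε) (hx : x ≠ 0) (e : x * ε = y)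
    (hd : ∀ k, D.deg k x = D.deg k y) : ∃ c : K, ε = D.of (C c) := by
  refine D.const_of_Dg fun k _ => ?_
  have h1 := hd k
  rw [← e, D.deg_mul k hx hε.ne_zero] at h1
  have h2 : dg (D.ι k ε) = 0 := by
    rw [deg, deg] at h1
    omega
  exact h2 ▸ Dg_dg _

theorem rat_const (h' : D.Fx ψ) {I J : Ideal D.O} {T : K[X]} {G a b : D.O} (hR : D.RatI ψ I)
    (hJ : D.Nm J T) (hG : G ≠ 0) (hrel : D.Rel I J G (D.of T)) (ha : a ≠ 0) (hb : b ≠ 0)
    (hab : Ideal.span {b} * J.map (fr h') = Ideal.span {a} * J)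
    (hd : ∀ k, D.deg k a = D.deg k b) :
    ∃ c : K, ∀ k, ψ (D.ev k G / T.eval (D.e k)) = c * (D.ev k G / T.eval (D.e k)) := by
  have hT := D.of_ne hJ.monic.ne_zero
  have hT' := D.of_ne (hJ.monic.map ψ).ne_zero
  have h1 : Ideal.span {D.of T} * (I * J.map (D.s 1)) = Ideal.span {G} * J := hrel
  have h2 := congrArg (Ideal.map (fr h')) h1
  rw [Ideal.map_mul, Ideal.map_mul, Ideal.map_mul, ide_map_span, ide_map_span, fr_of,
    map_fr_of_ratI h' hR, rat_map] at h2
  have h4 := congrArg (Ideal.map (D.s 1)) hab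
  rw [Ideal.map_mul, Ideal.map_mul, ide_map_span, ide_map_span] at h4
  have h5 : Ideal.span {G * D.of (T.map ψ) * D.s 1 a * b} =
      Ideal.span {fr h' G * D.of T * a * D.s 1 b} := by
    refine mul_right_cancel₀ (hJ.ne_bot : J ≠ 0) ?_
    simp only [← Ideal.span_singleton_mul_span_singleton]
    exact rat_ring h1 h2 hab h4
  obtain ⟨ε, hε⟩ := Ideal.span_singleton_eq_span_singleton.1 h5
  have hsa := D.s_ne 1 ha
  have hsb := D.s_ne 1 hb
  have hG' : fr h' G ≠ 0 := fun k => D.nrm_ne hG (map_injective ψ ψ.injective (by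
    rw [← nrm_fr h', k, Polynomial.map_zero]
    exact D.of_injective (by
      rw [of_nrm, map_zero]
      exact Finset.prod_eq_zero (Finset.mem_range.2 D.q_pos) (map_zero _))))
  obtain ⟨c, hc⟩ := rat_unit ε.isUnit
    (mul_ne_zero (mul_ne_zero (mul_ne_zero hG hT') hsa) hb) hε fun k => by
      rw [D.deg_mul k (mul_ne_zero (mul_ne_zero hG hT') hsa) hb,
        D.deg_mul k (mul_ne_zero hG hT') hsa, D.deg_mul k hG hT',
        D.deg_mul k (mul_ne_zero (mul_ne_zero hG' hT) ha) hsb,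
        D.deg_mul k (mul_ne_zero hG' hT) ha, D.deg_mul k hG' hT, deg_fr, deg_of, deg_of,
        natDegree_map, deg_s, deg_s, hd, hd]
      ring
  obtain ⟨x, hx⟩ : b ∣ a * D.of T := Ideal.mem_span_singleton.1 (Ideal.mul_le_left
    (hab ▸ Ideal.mul_mem_mul (Ideal.mem_span_singleton_self a) hJ.mem_self))
  obtain ⟨y, hy⟩ : a ∣ b * D.of (T.map ψ) := Ideal.mem_span_singleton.1 (Ideal.mul_le_left
    (hab ▸ Ideal.mul_mem_mul (Ideal.mem_span_singleton_self b)
      (fr_of h' T ▸ Ideal.mem_map_of_mem _ hJ.mem_self)))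
  have hxy : D.of T * D.of (T.map ψ) = x * y :=
    mul_left_cancel₀ ha (by linear_combination D.of (T.map ψ) * hx + x * hy)
  have hsx := congrArg (D.s 1) hx
  rw [map_mul, map_mul, s_of] at hsx
  have h6 : G * D.of (T.map ψ) * D.s 1 x * ε = fr h' G * D.of T * x :=
    mul_left_cancel₀ (mul_ne_zero hb hsb) (by
      linear_combination D.of T * hε - G * D.of (T.map ψ) * b * ε * hsx +
        fr h' G * D.of T * D.s 1 b * hx)
  refine ⟨c, fun k => ?_⟩
  have e1 := D.cop_iff.1 hJ.cop k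
  have e2 : D.ev k (D.of (T.map ψ)) = ψ (T.eval (D.e k)) := by rw [← fr_of h', ev_fr, ev_of]
  have e3 : ψ (T.eval (D.e k)) ≠ 0 := (_root_.map_ne_zero ψ).2 e1
  have e4 := congrArg (D.ev k) hxy
  rw [map_mul, map_mul, e2, ev_of] at e4
  have e5 : D.ev k x ≠ 0 := left_ne_zero_of_mul (e4 ▸ mul_ne_zero e1 e3)
  have e6 := congrArg (D.ev k) h6
  simp only [map_mul, e2, ev_s, ev_fr, hc, D.ev_of k T, D.ev_of k (C c), eval_C] at e6
  rw [map_div₀, div_eq_iff e3, mul_div_assoc', div_mul_eq_mul_div, eq_div_iff e1]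
  exact mul_right_cancel₀ e5 (by linear_combination -e6)

/-- Take a division `(I', t, gh)` from `div_exists`, and `a, b` from `pic_fixed` for `I'`.
Applying `fr` to the relation shows that `fr gh * t * a * s b` and `gh * fr t * s a * b` generate
the same ideal, so differ by a unit of degree zero at all points at infinity, a constant `c'`.
The values of `a / b` at the ramification points are nonzero, so `v k = ev k gh / t (e k)` has
`ψ (v k) = c' v k` (or the inverse), `v k ^ q = u (e k)`; take `ρ = v k * v i ^ (q - 1)`. -/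
theorem rational [IsAlgClosed K] (h : D.Fx φ) (hφ : Function.Bijective φ) (h' : D.Fx ψ)
    {t j : ℕ} (hψ : ∀ x, ψ x = φ^[D.q ^ t] x) (hj : j + 1 ≤ t * (D.q - 1)) {I : Ideal D.O}
    (hI : D.Chain φ j I) {u : K[X]} (hN : D.Nm I u) (hR : D.RatI ψ I) (hu : u.map ψ = u)
    (i k : Fin D.n) : ∃ ρ : K, ρ ^ D.q = u.eval (D.e i) ^ (D.q - 1) * u.eval (D.e k) ∧ ψ ρ = ρ := by
  obtain ⟨J, T, G, hJ, hrel, hn⟩ := div_exists hN
  have hG : G ≠ 0 := by
    rintro rfl
    refine mul_ne_zero hN.monic.ne_zero (pow_ne_zero D.q hJ.monic.ne_zero) (hn ▸ ?_)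
    exact D.of_injective (by
      rw [of_nrm, map_zero]
      exact Finset.prod_eq_zero (Finset.mem_range.2 D.q_pos) (map_zero _))
  obtain ⟨a, b, ha, hb, hab, hd⟩ := pic_fixed h hφ h' hψ hj
    (hI.succ hG (D.of_ne hJ.monic.ne_zero) hJ.ne_bot hrel)
  obtain ⟨c, hc⟩ := rat_const h' hR hJ hG hrel ha hb hab hd
  have h1 : ∀ k, (D.ev k G / T.eval (D.e k)) ^ D.q = u.eval (D.e k) := fun k => by
    rw [div_pow, ← eval_nrm, hn, eval_mul, eval_pow,
      mul_div_cancel_right₀ _ (pow_ne_zero _ (D.cop_iff.1 hJ.cop k))]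
  have h2 : c ^ D.q = 1 := by
    have h3 := congrArg (· ^ D.q) (hc k)
    simp only [mul_pow, ← map_pow, h1] at h3
    rw [← ev_of, ← ev_fr h', fr_of, hu, ev_of] at h3
    exact (mul_right_cancel₀ (D.cop_iff.1 hN.cop k) ((one_mul _).trans h3)).symm
  refine ⟨(D.ev i G / T.eval (D.e i)) ^ (D.q - 1) * (D.ev k G / T.eval (D.e k)), ?_, ?_⟩
  · rw [mul_pow, ← pow_mul, mul_comm (D.q - 1), pow_mul, h1, h1]
  · rw [map_mul, map_pow, hc, hc, mul_pow, mul_mul_mul_comm, ← pow_succ,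
      Nat.sub_add_cancel D.q_pos, h2, one_mul]

end Vale.Agent.P319A.Crv
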