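import Vale.Agent.P319A.CAlg

/-!
Characters of table algebras and the meaning of the ring operations.
-/

open Polynomial Finset

namespace Vale.Agent.P319A

/-- A ring map from a table algebra to `R`, given on the basis. -/
structure Ch (A : Alg) (R : Type) [CommRing R] where
  /-- the values on the basis -/
  v : ℕ → R
  hp : (A.p : R) = 0
  pos : 0 < A.p
  dpos : 0 < A.d
  v0 : v 0 = 1
  vm : ∀ i < A.d, ∀ j < A.d, ∑ k ∈ range A.d, (((A.e i j).getD k 0 : ℕ) : R) * v k = v i * v j

/-- All entries have length at most `d`. -/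
def Sh (d : ℕ) (P : Pol) : Prop := ∀ v ∈ P, v.length ≤ d

/-- The character of the prime field. -/
def ch1 (p : ℕ) (R : Type) [CommRing R] (hp : 0 < p) (h : (p : R) = 0) : Ch (A1 p) R where
  v _ := 1
  hp := h
  pos := hp
  dpos := Nat.one_pos
  v0 := rfl
  vm i hi j hj := by
    obtain rfl : i = 0 := by simpa [Alg.d, A1] using hi
    obtain rfl : j = 0 := by simpa [Alg.d, A1] using hj
    simp [Alg.d, Alg.e, A1]

/-- The character of the prime field with values in `ZMod p`. -/
def z1 (p : ℕ) [h : Fact p.Prime] : Ch (A1 p) (ZMod p) := ch1 p _ h.out.pos (ZMod.natCast_self p)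

theorem sa_getD {β : Type} (N : ℕ) (F : ℕ → β) (k : ℕ) (d : β) :
    ((List.range N).map F).getD k d = if k < N then F k else d := by
  split_ifs with h
  · simp [List.getD_eq_getElem?_getD, h]
  · exact List.getD_eq_default _ _ (by simpa using h)

theorem sa_sum {M : Type} [AddCommMonoid M] (N : ℕ) (F : ℕ → M) :
    ((List.range N).map F).sum = ∑ a ∈ range N, F a := by
  induction N with
  | zero => simp
  | succ N ih => simp [List.range_succ, Finset.sum_range_succ, ih]

theorem sa_map_getD {β γ : Type} (l : List β) (F : β → γ) (k : ℕ) (d : β) (d' : γ) :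
    (l.map F).getD k d' = if k < l.length then F (l.getD k d) else d' := by
  split_ifs with h
  · simp [List.getD_eq_getElem?_getD, h]
  · exact List.getD_eq_default _ _ (by simpa using h)

theorem sa_take_getD {β : Type} (l : List β) (N k : ℕ) (d : β) :
    (l.take N).getD k d = if k < N then l.getD k d else d := by
  simp only [List.getD_eq_getElem?_getD, List.getElem?_take]
  split_ifs <;> simp

namespace Ch

variable {A : Alg} {R S : Type} [CommRing R] [CommRing S] (π : Ch A R)

/-- The value of an element. -/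
def ev (a : Vec) : R := ∑ k ∈ range A.d, ((a.getD k 0 : ℕ) : R) * π.v k

/-- The value of a polynomial. -/
noncomputable def pd (P : Pol) : R[X] := ∑ a ∈ range P.length, monomial a (π.ev (P.getD a []))

/-- A good log: all elements with value zero pass the zero test. -/
def Gd (L : List Vec) : Prop := ∀ v ∈ L, π.ev v = 0 → A.isZ v = true

/-- Injectivity. -/
def Inj : Prop := ∀ v, π.ev v = 0 → A.isZ v = true

/-- All values lie in the field with `Q` elements. -/
def Fix (Q : ℕ) : Prop := 2 ≤ Q ∧ ∀ v, π.ev v ^ Q = π.ev v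

/-- The last entry has value one. -/
def Mo (P : Pol) : Prop := 0 < P.length ∧ π.ev (P.getD (P.length - 1) []) = 1

/-- Composition with a ring map. -/
def map (ψ : R →+* S) : Ch A S where
  v k := ψ (π.v k)
  hp := by rw [← map_natCast ψ, π.hp, map_zero]
  pos := π.pos
  dpos := π.dpos
  v0 := by rw [π.v0, map_one]
  vm i hi j hj := by rw [← map_mul, ← π.vm i hi j hj, map_sum]; simp

/-- A family of characters as a character to the product. -/
def pi {ι : Type} (π : ι → Ch A R) (h : 0 < A.p) (h' : 0 < A.d) : Ch A (ι → R) where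
  v k i := (π i).v k
  hp := funext fun i => (π i).hp
  pos := h
  dpos := h'
  v0 := funext fun i => (π i).v0
  vm a ha b hb := funext fun i => by simpa [Finset.sum_apply] using (π i).vm a ha b hb

theorem gd_append {L L' : List Vec} : π.Gd (L ++ L') ↔ π.Gd L ∧ π.Gd L' := by
  simp only [Gd, List.mem_append, or_imp, forall_and]

theorem gd_flatMap {β : Type} {l : List β} {F : β → List Vec} :
    π.Gd (l.flatMap F) ↔ ∀ x ∈ l, π.Gd (F x) := by
  simp only [Gd, List.mem_flatMap, forall_exists_index, and_imp]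
  exact ⟨fun h x hx v hv => h v x hx hv, fun h v x hx hv => h x hx v hv⟩

theorem Inj.gd {π : Ch A R} (h : π.Inj) (L : List Vec) : π.Gd L := fun v _ => h v

include π in
theorem cast_rd (x : ℕ) : ((rd A.p x : ℕ) : R) = x := by
  rw [rd, min_eq_left (Nat.mod_lt _ π.pos).le]
  conv_rhs => rw [← Nat.mod_add_div x A.p, Nat.cast_add, Nat.cast_mul, π.hp, zero_mul, add_zero]

theorem ev_tab (F : ℕ → ℕ) : π.ev (A.tab F) = ∑ k ∈ range A.d, (F k : R) * π.v k :=
  Finset.sum_congr rfl fun k hk => by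
    rw [Alg.tab, sa_getD, if_pos (Finset.mem_range.1 hk), π.cast_rd]

@[simp] theorem ev_nil : π.ev [] = 0 := by simp [ev]

@[simp] theorem ev_lit (x : ℕ) : π.ev [x] = x := by
  rw [ev, Finset.sum_eq_single 0 (fun k _ hk => ?_) (by simp [π.dpos.ne'])]
  · simp [π.v0]
  · obtain ⟨k, rfl⟩ := Nat.exists_eq_succ_of_ne_zero hk
    simp

theorem ev_e {i j : ℕ} (hi : i < A.d) (hj : j < A.d) : π.ev (A.e i j) = π.v i * π.v j :=
  π.vm i hi j hj

@[simp] theorem ev_nv (a : Vec) : π.ev (A.nv a) = π.ev a := π.ev_tab _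

@[simp] theorem ev_add (a b : Vec) : π.ev (A.add a b) = π.ev a + π.ev b := by
  rw [Alg.add, ev_tab]
  simp only [ev, Nat.cast_add, add_mul, Finset.sum_add_distrib]

@[simp] theorem ev_sub (a b : Vec) : π.ev (A.sub a b) = π.ev a - π.ev b := by
  rw [Alg.sub, ev_tab, ev, ev, ← Finset.sum_sub_distrib]
  refine Finset.sum_congr rfl fun k _ => ?_
  rw [Nat.cast_add, Nat.cast_mul, Nat.cast_sub π.pos, π.hp]
  push_cast
  ring

@[simp] theorem ev_neg (a : Vec) : π.ev (A.neg a) = -π.ev a := by simp [Alg.neg]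

theorem ev_sum (l : List Vec) : π.ev (A.sum l) = (l.map π.ev).sum := by
  rw [Alg.sum, ev_tab]
  induction l with
  | nil => simp
  | cons a l ih =>
    rw [List.map_cons, List.sum_cons, ← ih, ev, ← Finset.sum_add_distrib]
    simp only [List.map_cons, List.sum_cons, Nat.cast_add, add_mul]

theorem ev_sum_range (N : ℕ) (F : ℕ → Vec) :
    π.ev (A.sum ((List.range N).map F)) = ∑ a ∈ range N, π.ev (F a) := by
  rw [ev_sum, List.map_map, sa_sum]
  rfl

@[simp] theorem ev_mul (a b : Vec) : π.ev (A.mul a b) = π.ev a * π.ev b := by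
  rw [Alg.mul, ev_tab, ev, ev, Finset.sum_mul_sum]
  simp only [sa_sum, Nat.cast_sum, Nat.cast_mul, Finset.sum_mul]
  rw [Finset.sum_comm]
  refine Finset.sum_congr rfl fun i hi => ?_
  rw [Finset.sum_comm]
  refine Finset.sum_congr rfl fun j hj => ?_
  rw [mul_mul_mul_comm, ← π.vm i (Finset.mem_range.1 hi) j (Finset.mem_range.1 hj),
    Finset.mul_sum]
  exact Finset.sum_congr rfl fun k _ => mul_assoc _ _ _

@[simp] theorem ev_pow (a : Vec) (n : ℕ) : π.ev (A.pow a n) = π.ev a ^ n := by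
  rw [Alg.pow, List.foldl_reverse]
  induction n using Nat.binaryRec' with
  | zero => simp
  | bit b n h ih =>
    rw [Nat.bits_append_bit n b h, List.foldr_cons, Nat.bit_val]
    cases b
    · simp [ih, two_mul, pow_add]
    · simp [ih, two_mul, pow_add]

theorem ev_prod (l : List Vec) : π.ev (A.prod l) = (l.map π.ev).prod := by
  have h : ∀ x, π.ev (l.foldl A.mul x) = π.ev x * (l.map π.ev).prod := by
    induction l with
    | nil => simp
    | cons a l ih => simp [ih, mul_assoc]
  rw [Alg.prod, h]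
  simp

theorem ev_of_isZ {a : Vec} (h : A.isZ a = true) : π.ev a = 0 := by
  simp only [Alg.isZ, List.all_eq_true, List.mem_range, beq_iff_eq] at h
  refine Finset.sum_eq_zero fun k hk => ?_
  rw [← π.cast_rd, rd, h k (Finset.mem_range.1 hk)]
  simp

theorem Fix.pow_pred {K : Type} [Field K] {π : Ch A K} {Q : ℕ} (hQ : π.Fix Q) {a : Vec}
    (h : π.ev a ≠ 0) : π.ev a ^ (Q - 1) = 1 := by
  refine mul_right_cancel₀ h ?_
  rw [← pow_succ, Nat.sub_add_cancel (by linarith [hQ.1]), hQ.2, one_mul]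

theorem ev_inv {K : Type} [Field K] (π : Ch A K) {Q : ℕ} (hQ : π.Fix Q) {a : Vec}
    (h : π.ev a ≠ 0) : π.ev (A.inv Q a) = (π.ev a)⁻¹ := by
  refine eq_inv_of_mul_eq_one_left ?_
  rw [Alg.inv, ev_pow, ← pow_succ, ← hQ.pow_pred h]
  congr 1
  have := hQ.1
  omega

/-- Only the first `d` entries modulo `p` matter. -/
theorem ev_take_rd {N : ℕ} (h : A.d ≤ N) (a : Vec) : π.ev ((a.take N).map (rd A.p)) = π.ev a :=
  Finset.sum_congr rfl fun k hk => by
    have h1 : rd A.p 0 = 0 := by simp [rd]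
    rw [← h1, List.getD_map, π.cast_rd, sa_take_getD, if_pos ((Finset.mem_range.1 hk).trans_le h),
      h1]

theorem ev_map (ψ : R →+* S) (a : Vec) : (π.map ψ).ev a = ψ (π.ev a) := by
  simp [ev, map]

theorem ev_pi {ι : Type} (π : ι → Ch A R) (h h') (a : Vec) (i : ι) :
    (pi π h h').ev a i = (π i).ev a := by
  simp [ev, pi, Finset.sum_apply]

theorem coeff_pd (P : Pol) (a : ℕ) : (π.pd P).coeff a = π.ev (P.getD a []) := by
  simp only [pd, finsetSum_coeff, coeff_monomial, Finset.sum_ite_eq', Finset.mem_range]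
  split_ifs with h
  · rfl
  · rw [List.getD_eq_default _ _ (not_lt.1 h), ev_nil]

theorem pd_map (ψ : R →+* S) (P : Pol) : (π.map ψ).pd P = (π.pd P).map ψ := by
  ext a
  rw [coeff_map, coeff_pd, coeff_pd, ev_map]

theorem pd_ext {P P' : Pol} (h : ∀ a, π.ev (P.getD a []) = π.ev (P'.getD a [])) :
    π.pd P = π.pd P' := by
  ext a
  rw [coeff_pd, coeff_pd, h]

@[simp] theorem pd_nil : π.pd [] = 0 := by simp [pd]

theorem pd_cons (c : Vec) (P : Pol) : π.pd (c :: P) = C (π.ev c) + X * π.pd P := by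
  ext a
  rcases a with _ | a
  · simp [coeff_pd]
  · simp [coeff_pd, coeff_X_mul, coeff_C_succ]

@[simp] theorem pd_single (c : Vec) : π.pd [c] = C (π.ev c) := by simp [pd_cons]

theorem degree_pd_lt (P : Pol) : (π.pd P).degree < P.length :=
  (degree_lt_iff_coeff_zero _ _).2 fun m hm => by
    rw [coeff_pd, List.getD_eq_default _ _ hm, ev_nil]

theorem natDegree_pd_le (P : Pol) : (π.pd P).natDegree ≤ P.length - 1 :=
  natDegree_le_iff_coeff_eq_zero.2 fun m hm => by
    rw [coeff_pd, List.getD_eq_default _ _ (by omega), ev_nil]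

@[simp] theorem pd_padd (P P' : Pol) : π.pd (A.padd P P') = π.pd P + π.pd P' := by
  ext a
  rw [coeff_add, coeff_pd, coeff_pd, coeff_pd, Alg.padd, sa_getD]
  split_ifs with h
  · exact π.ev_add _ _
  · rw [List.getD_eq_default _ _ (by omega), List.getD_eq_default _ _ (by omega), ev_nil, add_zero]

@[simp] theorem pd_psub (P P' : Pol) : π.pd (A.psub P P') = π.pd P - π.pd P' := by
  ext a
  rw [coeff_sub, coeff_pd, coeff_pd, coeff_pd, Alg.psub, sa_getD]
  split_ifs with h
  · exact π.ev_sub _ _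
  · rw [List.getD_eq_default _ _ (by omega), List.getD_eq_default _ _ (by omega), ev_nil, sub_zero]

@[simp] theorem pd_pmul (P P' : Pol) : π.pd (A.pmul P P') = π.pd P * π.pd P' := by
  ext a
  have h1 : (π.pd P * π.pd P').coeff a = ∑ b ∈ range P.length,
      if b ≤ a then π.ev (P.getD b []) * π.ev (P'.getD (a - b) []) else 0 := by
    rw [pd, Finset.sum_mul, finsetSum_coeff]
    refine Finset.sum_congr rfl fun b _ => ?_
    rw [← C_mul_X_pow_eq_monomial, mul_assoc, coeff_C_mul, coeff_X_pow_mul', coeff_pd, mul_ite,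
      mul_zero]
  rw [h1, coeff_pd, Alg.pmul, sa_getD]
  split_ifs with h
  · rw [ev_sum_range]
    refine Finset.sum_congr rfl fun b _ => ?_
    by_cases h2 : b ≤ a <;> simp [h2]
  · refine π.ev_nil.trans (Finset.sum_eq_zero fun b hb => ?_).symm
    rw [Finset.mem_range] at hb
    rw [List.getD_eq_default P' _ (by omega), ev_nil, mul_zero, ite_self]

theorem pd_psum (l : List Pol) : π.pd (A.psum l) = (l.map π.pd).sum := by
  ext a
  have h1 : (l.map π.pd).sum.coeff a = (l.map fun P => π.ev (P.getD a [])).sum := by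
    induction l with
    | nil => simp
    | cons P l ih => rw [List.map_cons, List.sum_cons, coeff_add, ih, coeff_pd]; rfl
  rw [h1, coeff_pd, Alg.psum, sa_getD]
  split_ifs with h
  · rw [ev_sum, List.map_map]
    rfl
  · refine π.ev_nil.trans (List.sum_eq_zero fun x hx => ?_).symm
    obtain ⟨P, hP, rfl⟩ := List.mem_map.1 hx
    rw [List.getD_eq_default _ _ ((List.sublist_flatten_of_mem hP).length_le.trans (not_lt.1 h)),
      ev_nil]

theorem pd_psum_range (N : ℕ) (F : ℕ → Pol) :
    π.pd (A.psum ((List.range N).map F)) = ∑ a ∈ range N, π.pd (F a) := by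
  rw [pd_psum, List.map_map, sa_sum]
  rfl

@[simp] theorem pd_psm (c : Vec) (P : Pol) : π.pd (A.psm c P) = C (π.ev c) * π.pd P := by
  ext a
  rw [coeff_C_mul, coeff_pd, coeff_pd, Alg.psm, sa_map_getD _ _ _ []]
  split_ifs with h
  · exact π.ev_mul _ _
  · rw [List.getD_eq_default _ _ (not_lt.1 h), ev_nil, mul_zero]

@[simp] theorem ev_peval (P : Pol) (x : Vec) : π.ev (A.peval P x) = (π.pd P).eval (π.ev x) := by
  simp only [Alg.peval, ev_sum_range, ev_mul, ev_pow, pd, eval_finsetSum, eval_monomial]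

theorem pd_pfix {N : ℕ} {P : Pol} (h : (π.pd P).degree < N) : π.pd (A.pfix N P) = π.pd P :=
  π.pd_ext fun a => by
    rw [Alg.pfix, sa_getD]
    split_ifs with h1
    · exact π.ev_nv _
    · rw [ev_nil, ← coeff_pd, (degree_lt_iff_coeff_zero _ _).1 h a (not_lt.1 h1)]

theorem pd_take {N : ℕ} {P : Pol} (h : (π.pd P).degree < N) : π.pd (P.take N) = π.pd P :=
  π.pd_ext fun a => by
    rw [sa_take_getD]
    split_ifs with h1
    · rfl
    · rw [ev_nil, ← coeff_pd, (degree_lt_iff_coeff_zero _ _).1 h a (not_lt.1 h1)]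

theorem sa_ev_nv (P : Pol) (a : ℕ) : π.ev ((P.map A.nv).getD a []) = π.ev (P.getD a []) := by
  rw [sa_map_getD _ _ _ []]
  split_ifs with h
  · exact π.ev_nv _
  · rw [List.getD_eq_default _ _ (not_lt.1 h)]

@[simp] theorem pd_map_nv (P : Pol) : π.pd (P.map A.nv) = π.pd P :=
  π.pd_ext (π.sa_ev_nv P)

theorem pd_xpow {N a : ℕ} (h : a < N) : π.pd (xpow N a) = X ^ a := by
  ext c
  rw [coeff_pd, xpow, sa_getD, coeff_X_pow]
  by_cases h1 : c = a
  · simp [h1, h]
  · have h2 : (c == a) = false := by simpa using h1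
    simp [h1, h2]

theorem mo_xpow (N : ℕ) : π.Mo (xpow (N + 1) N) := by
  refine ⟨by simp [xpow], ?_⟩
  rw [← coeff_pd, π.pd_xpow N.lt_succ_self]
  simp [xpow]

theorem Mo.map_nv {π : Ch A R} {P : Pol} (h : π.Mo P) : π.Mo (P.map A.nv) :=
  ⟨by simpa using h.1, by rw [sa_ev_nv, List.length_map, h.2]⟩

theorem Mo.monic {π : Ch A R} {P : Pol} (h : π.Mo P) : (π.pd P).Monic :=
  monic_of_natDegree_le_of_coeff_eq_one _ (π.natDegree_pd_le P) (by rw [coeff_pd, h.2])

theorem Mo.natDegree [Nontrivial R] {π : Ch A R} {P : Pol} (h : π.Mo P) :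
    (π.pd P).natDegree = P.length - 1 :=
  natDegree_eq_of_le_of_coeff_ne_zero (π.natDegree_pd_le P)
    (by rw [coeff_pd, h.2]; exact one_ne_zero)

theorem mo_of_monic {P : Pol} (h : (π.pd P).Monic) (h' : (π.pd P).natDegree + 1 = P.length) :
    π.Mo P :=
  ⟨by omega, by rw [← coeff_pd, ← h', Nat.add_sub_cancel, h.coeff_natDegree]⟩

theorem Mo.map {π : Ch A R} {P : Pol} (h : π.Mo P) (ψ : R →+* S) : (π.map ψ).Mo P :=
  ⟨h.1, by rw [ev_map, h.2, map_one]⟩

theorem sa_ev_sh1 {p : ℕ} [Fact p.Prime] [Algebra (ZMod p) R] {P : Pol} (h : Sh 1 P) (a : ℕ) :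
    π.ev (P.getD a []) = algebraMap (ZMod p) R ((z1 p).ev (P.getD a [])) := by
  rcases lt_or_ge a P.length with h1 | h1
  · have h2 := h _ (List.getD_eq_getElem P [] h1 ▸ List.getElem_mem h1 : P.getD a [] ∈ P)
    generalize P.getD a [] = v at h2
    rcases v with _ | ⟨x, _ | ⟨y, v⟩⟩
    · simp
    · simp
    · simp at h2
  · rw [List.getD_eq_default _ _ h1, ev_nil, ev_nil, map_zero]

/-- Polynomials over the prime field. -/
theorem pd_of_sh1 {p : ℕ} [Fact p.Prime] [Algebra (ZMod p) R] {P : Pol} (h : Sh 1 P) :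
    π.pd P = ((z1 p).pd P).map (algebraMap (ZMod p) R) := by
  ext a
  rw [coeff_map, coeff_pd, coeff_pd, π.sa_ev_sh1 (p := p) h]

theorem mo_of_sh1 {p : ℕ} [Fact p.Prime] [Algebra (ZMod p) R] {P : Pol} (h : Sh 1 P)
    (h' : (z1 p).Mo P) : π.Mo P :=
  ⟨h'.1, by rw [π.sa_ev_sh1 (p := p) h, h'.2, map_one]⟩

end Ch

theorem ev_ch1 (p : ℕ) (R : Type) [CommRing R] (hp h) (a : Vec) :
    (ch1 p R hp h).ev a = ((a.getD 0 0 : ℕ) : R) := by
  simp [Ch.ev, ch1, Alg.d, A1]

theorem z1_inj (p : ℕ) [Fact p.Prime] : (z1 p).Inj := fun v h => by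
  rw [z1, ev_ch1, ZMod.natCast_eq_zero_iff] at h
  simpa [Alg.isZ, Alg.d, A1, Alg.p] using Nat.mod_eq_zero_of_dvd h

theorem z1_fix (p : ℕ) [Fact p.Prime] : (z1 p).Fix p :=
  ⟨(Fact.out : p.Prime).two_le, fun _ => ZMod.pow_card _⟩

theorem Sh.mono {d d' : ℕ} {P : Pol} (h : Sh d P) (hd : d ≤ d') : Sh d' P :=
  fun v hv => (h v hv).trans hd

theorem Sh.getD {d : ℕ} {P : Pol} (h : Sh d P) (a : ℕ) : (P.getD a []).length ≤ d := by
  rcases lt_or_ge a P.length with h1 | h1
  · exact h _ (List.getD_eq_getElem P [] h1 ▸ List.getElem_mem h1)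
  · rw [List.getD_eq_default _ _ h1]
    exact Nat.zero_le _

theorem sh_lift1 (v : List ℕ) : Sh 1 (lift1 v) := fun x hx => by
  obtain ⟨a, -, rfl⟩ := List.mem_map.1 hx
  rfl

namespace Alg

variable (A : Alg)

@[simp] theorem length_tab (F : ℕ → ℕ) : (A.tab F).length = A.d := by simp [tab]

@[simp] theorem length_nv (a : Vec) : (A.nv a).length = A.d := A.length_tab _

@[simp] theorem length_mul (a b : Vec) : (A.mul a b).length = A.d := A.length_tab _

@[simp] theorem length_sub (a b : Vec) : (A.sub a b).length = A.d := A.length_tab _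

@[simp] theorem length_neg (a : Vec) : (A.neg a).length = A.d := A.length_tab _

@[simp] theorem length_sum (l : List Vec) : (A.sum l).length = A.d := A.length_tab _

@[simp] theorem length_chunk (a : ℕ) (v : Vec) : (A.chunk a v).length = A.d := by simp [chunk]

@[simp] theorem length_flat (m : ℕ) (P : Pol) : (A.flat m P).length = m * A.d := by simp [flat]

theorem sh_map_nv (P : Pol) : Sh A.d (P.map A.nv) := fun x hx => by
  obtain ⟨a, -, rfl⟩ := List.mem_map.1 hx
  exact (A.length_nv a).le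

theorem sh_psm (c : Vec) (P : Pol) : Sh A.d (A.psm c P) := fun x hx => by
  obtain ⟨a, -, rfl⟩ := List.mem_map.1 hx
  exact (A.length_mul c a).le

@[simp] theorem ext_p (g : Pol) : (A.ext g).p = A.p := rfl

@[simp] theorem ext_d (g : Pol) : (A.ext g).d = (g.length - 1) * A.d := by simp [ext, d]

@[simp] theorem A1_p (p : ℕ) : (A1 p).p = p := rfl

@[simp] theorem A1_d (p : ℕ) : (A1 p).d = 1 := rfl

end Alg

end Vale.Agent.P319A
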