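import Vale.Agent.P319A.CLin
import Vale.Agent.P319A.SAlg

/-!
Extraction of `q`-th roots and the Newton identities.
-/

open Finset

namespace Vale.Agent.P319A

theorem cinv_spec {q w : ℕ} (hq : 0 < q) (h : Nat.Coprime q w) :
    ∃ k, q * cinv q w = 1 + k * w := by
  have : NeZero q := ⟨hq.ne'⟩
  have h1 := first_true (f := fun k => (1 + k * w) % q == 0) (ZMod.val_lt (-(w : ZMod q)⁻¹)) (by
    rw [beq_iff_eq, ← Nat.dvd_iff_mod_eq_zero, ← ZMod.natCast_eq_zero_iff]
    push_cast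
    rw [ZMod.natCast_zmod_val, neg_mul, mul_comm, ZMod.coe_mul_inv_eq_one w h.symm, add_neg_cancel])
  exact ⟨_, Nat.mul_div_cancel' (Nat.dvd_of_mod_eq_zero (beq_iff_eq.1 h1))⟩

theorem vq_spec {B q N : ℕ} (hq : q.Prime) (hN : N ≠ 0) (hB : N < 2 ^ B) :
    vq B q N = padicValNat q N := by
  have := Fact.mk hq
  have h1 : ∀ V B : ℕ, (List.range B).countP (fun k => decide (k < V)) = min V B := fun V B => by
    induction B with
    | zero => simp
    | succ B ih =>
      rw [List.range_succ, List.countP_append, ih, List.countP_singleton]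
      split_ifs with h <;> simp only [decide_eq_true_eq] at h <;> omega
  have h2 : padicValNat q N < B := (Nat.pow_lt_pow_iff_right one_lt_two).1
    (((Nat.pow_le_pow_left hq.two_le _).trans (Nat.le_of_dvd (Nat.pos_of_ne_zero hN)
      pow_padicValNat_dvd)).trans_lt hB)
  rw [vq, ← min_eq_left h2.le, ← h1]
  refine List.countP_congr fun k hk => ?_
  rw [min_eq_left (List.mem_range.1 hk), beq_iff_eq, ← Nat.dvd_iff_mod_eq_zero,
    padicValNat_dvd_iff_le hN, decide_eq_true_eq]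
  rfl

theorem samm_ind {K : Type} [Field K] {q : ℕ} (hq : q.Prime) (hqK : (q : K) ≠ 0) {ζ τ : K}
    (h1 : ζ ^ q = 1) (h2 : ζ ≠ 1) (h3 : τ ^ q = 1) (F : ℕ → K) : ∃ c, τ * ζ ^ c = 1 ∧
      ∑ c ∈ range q, (q : K)⁻¹ * (∑ l ∈ range q, (τ * ζ ^ c) ^ l) * F c = F c := by
  have := Fact.mk hq
  have h4 : IsPrimitiveRoot ζ q := IsPrimitiveRoot.iff_orderOf.2 (orderOf_eq_prime h1 h2)
  have t0 : τ ≠ 0 := fun h => by simp [h, hq.ne_zero] at h3
  obtain ⟨c, hc, e⟩ := h4.eq_pow_of_pow_eq_one (ξ := τ⁻¹) (by rw [inv_pow, h3, inv_one])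
  refine ⟨c, by rw [e, mul_inv_cancel₀ t0], ?_⟩
  rw [Finset.sum_eq_single c (fun b hb hbc => ?_) (by simp [hc]), e, mul_inv_cancel₀ t0]
  · simp [hqK]
  · have h5 : τ * ζ ^ b ≠ 1 := fun h => hbc (h4.pow_inj (Finset.mem_range.1 hb) hc
      (by rw [e, eq_inv_of_mul_eq_one_right h]))
    rw [geom_sum_eq h5, mul_pow, h3, pow_right_comm, h1]
    simp

namespace Ch

variable {A : Alg}

/-- With `Q - 1 = q ^ V w`, after `i` steps `τ = x ^ q / a` satisfies `τ ^ q ^ (V - 1 - i) = 1`.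
In a step `τ ^ q ^ (V - 2 - i)` is a power of the primitive root `ζ₀ = s ^ ((Q - 1) / q)`, and
`(1 / q) ∑ l < q, (τ' ζ₀ ^ c) ^ l` is the indicator of `τ' ζ₀ ^ c = 1`. -/
theorem amm_spec {K : Type} [Field K] (π : Ch A K) {Q q : ℕ} (hQ : π.Fix Q) (hq : q.Prime)
    (hd : q ∣ Q - 1) (hqK : (q : K) ≠ 0) {s a : Vec} (hs : π.ev s ≠ 0)
    (hs' : π.ev s ^ ((Q - 1) / q) ≠ 1) (ha : π.ev a ^ ((Q - 1) / q) = 1) :
    π.ev (A.amm Q q s a) ^ q = π.ev a := by
  have := Fact.mk hq
  have Q0 : Q - 1 ≠ 0 := by have := hQ.1; omega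
  rw [Alg.amm, vq_spec hq Q0 ((Nat.sub_le _ _).trans_lt (Nat.lt_size_self Q))]
  obtain ⟨V, hV⟩ := Nat.exists_eq_add_one_of_ne_zero ((dvd_iff_padicValNat_ne_zero Q0).1 hd)
  obtain ⟨w, hw⟩ := pow_padicValNat_dvd (p := q) (n := Q - 1)
  have h1 : Nat.Coprime q w := (Nat.Prime.coprime_iff_not_dvd hq).2 fun h =>
    pow_succ_padicValNat_not_dvd (p := q) Q0 (by
      rw [pow_succ]; exact (Nat.mul_dvd_mul_left _ h).trans hw.symm.dvd)
  rw [hV] at hw ⊢
  have h2 : (Q - 1) / q ^ (V + 1) = w := by rw [hw, Nat.mul_div_cancel_left _ (pow_pos hq.pos _)]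
  have h3 : (Q - 1) / q = q ^ V * w := by
    rw [hw, pow_succ', mul_assoc, Nat.mul_div_cancel_left _ hq.pos]
  have a0 : π.ev a ≠ 0 := fun h => by
    rw [h, zero_pow (Nat.div_pos (Nat.le_of_dvd (Nat.pos_of_ne_zero Q0) hd) hq.pos).ne'] at ha
    exact zero_ne_one ha
  have key : ∀ i ≤ V, (π.ev ((List.range i).foldl (fun x i => A.ammStep Q q s a (V + 1) i x)
      (A.pow a (cinv q w))) ^ q * (π.ev a)⁻¹) ^ q ^ (V - i) = 1 := fun i hi => by
    induction i with
    | zero =>
      obtain ⟨k, hk⟩ := cinv_spec hq.pos h1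
      rw [List.range_zero, List.foldl_nil, ev_pow, ← pow_mul, mul_comm _ q, hk, pow_add, pow_one,
        mul_right_comm, mul_inv_cancel₀ a0, one_mul, ← pow_mul, mul_assoc, mul_comm k, mul_comm w,
        Nat.sub_zero, ← h3, pow_mul, ha, one_pow]
    | succ i ih =>
      rw [List.range_succ, List.foldl_append, List.foldl_cons, List.foldl_nil]
      generalize (List.range i).foldl _ _ = x at ih ⊢
      obtain ⟨j, rfl⟩ : ∃ j, V = i + 1 + j := Nat.exists_eq_add_of_le hi
      obtain ⟨c, c1, c2⟩ := samm_ind hq hqK (ζ := π.ev s ^ ((Q - 1) / q))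
        (τ := (π.ev x ^ q * (π.ev a)⁻¹) ^ q ^ j)
        (by rw [← pow_mul, Nat.div_mul_cancel hd, hQ.pow_pred hs]) hs'
        (by rw [← pow_mul, ← pow_succ, ← ih (by omega)]; congr 2; omega)
        fun c => π.ev s ^ (w * q ^ i * c)
      have e1 : π.ev (A.inv Q [q]) = (q : K)⁻¹ := by rw [π.ev_inv hQ (by simpa using hqK), ev_lit]
      simp only [Alg.ammStep, ev_mul, ev_sum_range, ev_pow, π.ev_inv hQ a0, e1, h2,
        show i + 1 + j + 1 - 2 - i = j by omega, show min i (i + 1 + j + 1) = i by omega,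
        pow_mul _ ((Q - 1) / q), c2, show i + 1 + j - (i + 1) = j by omega]
      rw [← c1, h3]
      ring
  have h4 := key V le_rfl
  rw [Nat.sub_self, pow_zero, pow_one, mul_inv_eq_one₀ a0] at h4
  rw [Nat.succ_sub_one, h2, h4]

/-- `MvPolynomial.mul_esymm_eq_sum`; `(k + 1) ^ (p - 2)` is the inverse of `k + 1` modulo `p`. -/
theorem newt_spec {R : Type} [CommRing R] (π : Ch A R) (hp : A.p.Prime) {n : ℕ} (hn : n < A.p)
    (z : Fin n → R) {ps : Pol} (h : ∀ k ≤ n, π.ev (ps.getD k []) = ∑ i, z i ^ k) :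
    π.ev (A.newt n ps) = ∏ i, z i := by
  let e : ℕ → R := fun k => MvPolynomial.eval z (MvPolynomial.esymm (Fin n) R k)
  have h1 : ∀ k, ((k + 1 : ℕ) : R) * e (k + 1) =
      ∑ j ∈ range (k + 1), (-1) ^ j * (e (k - j) * ∑ i, z i ^ (j + 1)) := fun k => by
    have := congrArg (MvPolynomial.eval z) (MvPolynomial.mul_esymm_eq_sum (Fin n) R (k + 1))
    rw [map_mul, map_natCast, Finset.sum_filter, Finset.Nat.sum_antidiagonal_succ', if_neg (lt_irrefl _),
      zero_add, ← Finset.Nat.sum_antidiagonal_swap, Finset.Nat.sum_antidiagonal_eq_sum_range_succ_mk,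
      Finset.mul_sum, map_sum] at this
    refine this.trans (Finset.sum_congr rfl fun j hj => ?_)
    obtain ⟨m, rfl⟩ := Nat.exists_eq_add_of_le (Nat.lt_succ_iff.1 (Finset.mem_range.1 hj))
    simp only [Prod.fst_swap, Prod.snd_swap, Nat.add_sub_cancel_left, MvPolynomial.psum, e]
    rw [if_pos (by omega), ← mul_assoc, ← mul_assoc, ← pow_add,
      show j + m + 1 + 1 + m = 2 * (m + 1) + j by omega, pow_add, pow_mul]
    simp [mul_assoc]
  have h2 : ∀ k < n, ((k + 1 : ℕ) : R) ^ (A.p - 2) * ((k + 1 : ℕ) : R) = 1 := fun k hk => by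
    have := Nat.ModEq.pow_totient ((Nat.coprime_of_lt_prime (Nat.succ_ne_zero k) (by omega) hp).symm)
    rw [← pow_succ, ← Nat.cast_pow, ← π.cast_rd, rd, show A.p - 2 + 1 = A.p.totient by
      rw [Nat.totient_prime hp]; have := hp.two_le; omega, this, ← rd, π.cast_rd, Nat.cast_one]
  have key : ∀ k ≤ n, ∀ es, es = (List.range k).foldl (fun es k => es ++
      [A.mul (A.pow [k + 1] (A.p - 2)) (A.sum ((List.range n).map fun j =>
        bif decide (j ≤ k) then A.mul (A.pow (A.neg [1]) j)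
          (A.mul (es.getD (k - j) []) (ps.getD (j + 1) [])) else []))]) [[1]] →
      es.length = k + 1 ∧ ∀ j ≤ k, π.ev (es.getD j []) = e j := fun k hk => by
    induction k with
    | zero => rintro _ rfl; simp [e]
    | succ k ih =>
      rintro _ rfl
      rw [List.range_succ, List.foldl_append, List.foldl_cons, List.foldl_nil]
      obtain ⟨a1, a2⟩ := ih (by omega) _ rfl
      generalize (List.range k).foldl _ _ = es at a1 a2 ⊢
      refine ⟨by simp [a1], fun j hj => ?_⟩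
      rcases hj.eq_or_lt with rfl | hj
      · rw [List.getD_append_right _ _ _ _ a1.le, a1, Nat.sub_self, List.getD_cons_zero, ev_mul,
          ev_pow, ev_lit, ev_sum_range, ← one_mul (e _), ← h2 k hk, mul_assoc, h1,
          ← Finset.sum_subset (Finset.range_subset_range.2 hk) fun j _ hj => by
            simp [show ¬ j ≤ k by simpa using hj]]
        refine congrArg _ (Finset.sum_congr rfl fun j hj => ?_)
        have hj' := Nat.lt_succ_iff.1 (Finset.mem_range.1 hj)
        simp only [hj', decide_true, cond_true, ev_mul, ev_pow, ev_neg, ev_lit, Nat.cast_one,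
          a2 _ (Nat.sub_le k j), h (j + 1) (by omega)]
      · rw [List.getD_append _ _ _ _ (by omega), a2 j (by omega)]
  refine ((key n le_rfl _ rfl).2 n le_rfl).trans ?_
  have := Finset.powersetCard_self (Finset.univ : Finset (Fin n))
  rw [Finset.card_univ, Fintype.card_fin] at this
  simp [e, MvPolynomial.esymm, this]

end Ch

end Vale.Agent.P319A
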