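import Vale.Agent.P319A.SAlg

/-!
Long division, leading coefficients, and characters of extensions.
-/

open Polynomial Finset

namespace Vale.Agent.P319A

theorem sp_sum {M : Type} [AddCommMonoid M] (m d : ℕ) (g : ℕ → M) :
    ∑ k ∈ range (m * d), g k = ∑ a ∈ range m, ∑ i ∈ range d, g (a * d + i) := by
  induction m with
  | zero => simp
  | succ m ih => rw [Nat.succ_mul, Finset.sum_range_add, ih, Finset.sum_range_succ]

theorem sp_div {d i : ℕ} (a : ℕ) (h : i < d) : (a * d + i) / d = a := by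
  rw [add_comm, Nat.add_mul_div_right _ _ (by omega), Nat.div_eq_of_lt h, zero_add]

theorem sp_mod {d i : ℕ} (a : ℕ) (h : i < d) : (a * d + i) % d = i := by
  rw [add_comm, Nat.add_mul_mod_self_right, Nat.mod_eq_of_lt h]

theorem sp_lt {d i a m : ℕ} (h : a < m) (h' : i < d) : a * d + i < m * d := by
  have := Nat.mul_le_mul_right d (Nat.succ_le_of_lt h)
  rw [Nat.succ_mul] at this
  omega

namespace Alg

variable (A : Alg)

@[simp] theorem length_pmod (u P : Pol) : (A.pmod u P).length = u.length - 1 := by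
  simp [pmod, pfix]

theorem sh_pmod (u P : Pol) : Sh A.d (A.pmod u P) := fun x hx => by
  obtain ⟨a, -, rfl⟩ := List.mem_map.1 hx
  exact (A.length_nv _).le

theorem sp_pdm_cons (u P : Pol) (x : Vec) : A.pdm u (x :: P) = A.dstep u (A.pdm u P) x := by
  simp [pdm]

theorem sp_pdm_len (u P : Pol) :
    (A.pdm u P).2.length ≤ u.length - 1 ∧ (A.pdm u P).1.length = P.length := by
  induction P with
  | nil => simp [pdm]
  | cons x P ih => simp [sp_pdm_cons, dstep, ih.2]

theorem length_pdiv (u P : Pol) : (A.pdiv u P).length = P.length - (u.length - 1) := by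
  simp [pdiv, (A.sp_pdm_len u P).2]

theorem length_gen (g : Pol) : (A.gen g).length = (A.ext g).d := by simp [gen]

theorem isZ_ext {g : Pol} {v : Vec} (h : ∀ a < g.length - 1, A.isZ (A.chunk a v) = true) :
    (A.ext g).isZ v = true := by
  simp only [isZ, List.all_eq_true, List.mem_range, beq_iff_eq, ext_d, ext_p] at h ⊢
  intro k hk
  have h0 : 0 < A.d := Nat.pos_of_ne_zero fun h0 => by simp [h0] at hk
  have h1 := h (k / A.d) ((Nat.div_lt_iff_lt_mul h0).2 hk) (k % A.d) (Nat.mod_lt _ h0)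
  rwa [chunk, sa_getD, if_pos (Nat.mod_lt _ h0), Nat.div_add_mod'] at h1

theorem chunk_drop (o a : ℕ) (v : Vec) : A.chunk a (v.drop (o * A.d)) = A.chunk (o + a) v := by
  simp only [chunk, List.getD_eq_getElem?_getD, List.getElem?_drop, add_mul, add_assoc]

end Alg

namespace Ch

variable {A : Alg} {R : Type} [CommRing R] (π : Ch A R)

theorem pdm_spec {u : Pol} (hu : π.Mo u) (P : Pol) :
    π.pd P = π.pd u * π.pd (A.pdm u P).1 + π.pd (A.pdm u P).2 ∧
      (A.pdm u P).2.length ≤ u.length - 1 ∧ (A.pdm u P).1.length = P.length := by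
  refine ⟨?_, A.sp_pdm_len u P⟩
  induction P with
  | nil => simp [Alg.pdm]
  | cons x P ih =>
    have h1 := (A.sp_pdm_len u P).1
    rw [Alg.sp_pdm_cons, Alg.dstep, pd_cons, ih]
    generalize A.pdm u P = s at h1
    have h2 : π.pd (x :: s.2) = C (π.ev ((x :: s.2).getD (u.length - 1) [])) * π.pd u +
        π.pd ((List.range (u.length - 1)).map fun b => A.sub ((x :: s.2).getD b [])
          (A.mul ((x :: s.2).getD (u.length - 1) []) (u.getD b []))) := by
      ext a
      rw [coeff_add, coeff_C_mul, coeff_pd, coeff_pd, coeff_pd, sa_getD]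
      split_ifs with h
      · rw [ev_sub, ev_mul, add_sub_cancel]
      · rcases (not_lt.1 h).eq_or_lt with rfl | h3
        · rw [hu.2, ev_nil, mul_one, add_zero]
        · rw [List.getD_eq_default _ _ (by simp; omega), List.getD_eq_default u _ (by omega),
            ev_nil, mul_zero, add_zero]
    rw [pd_cons] at h2
    rw [pd_cons]
    linear_combination h2

theorem sp_deg [Nontrivial R] {u : Pol} (hu : π.Mo u) :
    (π.pd u).degree = (u.length - 1 : ℕ) := by
  rw [degree_eq_natDegree hu.monic.ne_zero, hu.natDegree]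

theorem sp_dm {u : Pol} (hu : π.Mo u) (P : Pol) :
    π.pd P /ₘ π.pd u = π.pd (A.pdm u P).1 ∧ π.pd P %ₘ π.pd u = π.pd (A.pdm u P).2 := by
  nontriviality R
  obtain ⟨h1, h2, -⟩ := π.pdm_spec hu P
  refine div_modByMonic_unique _ _ hu.monic ⟨by rw [h1, add_comm], ?_⟩
  rw [π.sp_deg hu]
  exact (π.degree_pd_lt _).trans_le (by exact_mod_cast h2)

theorem pd_pmod {u : Pol} (hu : π.Mo u) (P : Pol) : π.pd (A.pmod u P) = π.pd P %ₘ π.pd u := by
  rw [(π.sp_dm hu P).2, Alg.pmod, pd_pfix]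
  exact (π.degree_pd_lt _).trans_le (by exact_mod_cast (A.sp_pdm_len u P).1)

theorem pd_pdiv {u : Pol} (hu : π.Mo u) (P : Pol) : π.pd (A.pdiv u P) = π.pd P /ₘ π.pd u := by
  nontriviality R
  rw [Alg.pdiv, pd_take, (π.sp_dm hu P).1]
  rw [← (π.sp_dm hu P).1]
  rcases eq_or_ne (π.pd P /ₘ π.pd u) 0 with h | h
  · rw [h, degree_zero]
    exact WithBot.bot_lt_coe _
  · have h1 := not_lt.1 (mt (divByMonic_eq_zero_iff hu.monic).2 h)
    have h2 : π.pd P ≠ 0 := fun h2 => h (by rw [h2, zero_divByMonic])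
    have h3 := (natDegree_lt_iff_degree_lt h2).2 (π.degree_pd_lt P)
    have h4 := natDegree_le_natDegree h1
    rw [← natDegree_lt_iff_degree_lt h, natDegree_divByMonic _ hu.monic]
    rw [hu.natDegree] at h4 ⊢
    omega

theorem pd_ppowm {u : Pol} (hu : π.Mo u) (P : Pol) (k : ℕ) :
    π.pd (A.ppowm u P k) = π.pd P ^ k %ₘ π.pd u := by
  unfold Alg.ppowm
  induction k with
  | zero => simp [π.pd_pmod hu]
  | succ k ih =>
    rw [List.range_succ, List.foldl_append, List.foldl_cons, List.foldl_nil, π.pd_pmod hu,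
      pd_pmul, ih, pow_succ]
    refine modByMonic_eq_of_dvd_sub hu.monic ?_
    rw [← sub_mul, modByMonic_eq_sub_mul_div, sub_sub_cancel_left]
    exact (dvd_mul_right _ _).neg_right.mul_right _

theorem monicize_spec {K : Type} [Field K] (π : Ch A K) {Q : ℕ} (hQ : π.Fix Q) {P : Pol}
    (hG : π.Gd P) (hP : π.pd P ≠ 0) : π.Mo (A.monicize Q P) ∧
      π.ev (A.plc P) = (π.pd P).leadingCoeff ∧
      π.pd (A.monicize Q P) = C (π.pd P).leadingCoeff⁻¹ * π.pd P ∧
      (A.monicize Q P).length = (π.pd P).natDegree + 1 := by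
  have h1 := (natDegree_lt_iff_degree_lt hP).2 (π.degree_pd_lt P)
  have h2 : π.ev (P.getD (π.pd P).natDegree []) = (π.pd P).leadingCoeff := (π.coeff_pd _ _).symm
  have h3 := leadingCoeff_ne_zero.2 hP
  have h4 : A.plen P = (π.pd P).natDegree + 1 := by
    have h5 : (fun k => !A.isZ (P.getD (P.length - 1 - k) []))
        (P.length - 1 - (π.pd P).natDegree) = true := by
      rw [← h2] at h3
      simp only [show P.length - 1 - (P.length - 1 - (π.pd P).natDegree) = (π.pd P).natDegree by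
        omega, Bool.not_eq_true']
      exact Bool.eq_false_iff.2 fun h => h3 (π.ev_of_isZ h)
    have h6 := first_le_of (N := P.length)
      (f := fun k => !A.isZ (P.getD (P.length - 1 - k) [])) h5
    have h7 := first_true (N := P.length)
      (f := fun k => !A.isZ (P.getD (P.length - 1 - k) [])) (by omega) h5
    rw [Alg.plen]
    generalize first P.length _ = F at h6 h7
    have h8 : P.length - 1 - F < P.length := by omega
    have h9 : (π.pd P).coeff (P.length - 1 - F) ≠ 0 := fun h => by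
      rw [hG _ (List.getD_eq_getElem P [] h8 ▸ List.getElem_mem h8) (π.coeff_pd _ _ ▸ h)] at h7
      simp at h7
    have := le_natDegree_of_ne_zero h9
    omega
  have h5 : π.ev (A.plc P) = (π.pd P).leadingCoeff := by rw [Alg.plc, h4, Nat.add_sub_cancel, h2]
  have h6 : π.pd (A.monicize Q P) = C (π.pd P).leadingCoeff⁻¹ * π.pd P := by
    rw [Alg.monicize, pd_psm, π.ev_inv hQ (h5 ▸ h3), h5, pd_take]
    rw [h4, degree_eq_natDegree hP]
    exact_mod_cast Nat.lt_succ_self _
  have h7 : (A.monicize Q P).length = (π.pd P).natDegree + 1 := by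
    simp only [Alg.monicize, Alg.psm, List.length_map, List.length_take, h4]
    omega
  refine ⟨⟨by omega, ?_⟩, h5, h6, h7⟩
  rw [← coeff_pd, h6, h7, Nat.add_sub_cancel, coeff_C_mul]
  exact inv_mul_cancel₀ h3

theorem sp_eval (P : Pol) (ρ : R) :
    (π.pd P).eval ρ = ∑ a ∈ range P.length, π.ev (P.getD a []) * ρ ^ a := by
  simp only [pd, eval_finsetSum, eval_monomial]

theorem sp_mod_eval {g : Pol} {ρ : R} (hg : π.Mo g) (hρ : (π.pd g).eval ρ = 0) (P : Pol) :
    ∑ a ∈ range (g.length - 1), π.ev ((A.pmod g P).getD a []) * ρ ^ a = (π.pd P).eval ρ := by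
  rw [← A.length_pmod g P, ← sp_eval, π.pd_pmod hg, modByMonic_eq_sub_mul_div, eval_sub, eval_mul,
    hρ, zero_mul, sub_zero]

theorem sum_flat (m : ℕ) (P : Pol) (ρ : R) :
    ∑ k ∈ range (m * A.d), (((A.flat m P).getD k 0 : ℕ) : R) * (π.v (k % A.d) * ρ ^ (k / A.d)) =
      ∑ a ∈ range m, π.ev (P.getD a []) * ρ ^ a := by
  rw [sp_sum]
  refine Finset.sum_congr rfl fun a ha => ?_
  rw [ev, Finset.sum_mul]
  refine Finset.sum_congr rfl fun i hi => ?_
  rw [Finset.mem_range] at ha hi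
  rw [Alg.flat, sa_getD, if_pos (sp_lt ha hi), sp_div a hi, sp_mod a hi, π.cast_rd, mul_assoc]

theorem ext_vm {g : Pol} {ρ : R} (hg : π.Mo g) (hρ : (π.pd g).eval ρ = 0) :
    ∀ i < (A.ext g).d, ∀ j < (A.ext g).d, ∑ k ∈ range (A.ext g).d,
      ((((A.ext g).e i j).getD k 0 : ℕ) : R) * (π.v (k % A.d) * ρ ^ (k / A.d)) =
      π.v (i % A.d) * ρ ^ (i / A.d) * (π.v (j % A.d) * ρ ^ (j / A.d)) := by
  intro i hi j hj
  rw [Alg.ext_d] at hi hj ⊢
  have h1 := (Nat.div_lt_iff_lt_mul π.dpos).2 hi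
  have h2 := (Nat.div_lt_iff_lt_mul π.dpos).2 hj
  rw [Alg.e, Alg.ext, sa_getD, if_pos hi, sa_getD, if_pos hj, sum_flat, π.sp_mod_eval hg hρ,
    sp_eval, List.length_map, List.length_range, Finset.sum_eq_single (i / A.d + j / A.d)]
  · rw [sa_getD, if_pos (by omega), beq_self_eq_true, cond_true,
      π.ev_e (Nat.mod_lt _ π.dpos) (Nat.mod_lt _ π.dpos), pow_add, mul_mul_mul_comm]
  · intro c hc h
    rw [sa_getD, if_pos (Finset.mem_range.1 hc), beq_eq_false_iff_ne.2 h, cond_false, ev_nil,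
      zero_mul]
  · intro h
    exact absurd (Finset.mem_range.2 (by omega)) h

/-- The character of `A[X] / g` sending `X` to a root `ρ` of `g`. -/
def ext (g : Pol) (ρ : R) (hg : π.Mo g) (h2 : 2 ≤ g.length) (hρ : (π.pd g).eval ρ = 0) :
    Ch (A.ext g) R where
  v k := π.v (k % A.d) * ρ ^ (k / A.d)
  hp := π.hp
  pos := π.pos
  dpos := by rw [Alg.ext_d]; exact Nat.mul_pos (by omega) π.dpos
  v0 := by simp [π.v0]
  vm := π.ext_vm hg hρ

variable {g : Pol} {ρ : R} (hg : π.Mo g) (h2 : 2 ≤ g.length) (hρ : (π.pd g).eval ρ = 0)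

theorem ev_ext (v : Vec) : (π.ext g ρ hg h2 hρ).ev v =
    ∑ a ∈ range (g.length - 1), π.ev (A.chunk a v) * ρ ^ a := by
  rw [ev, Alg.ext_d, sp_sum]
  refine Finset.sum_congr rfl fun a _ => ?_
  rw [ev, Finset.sum_mul]
  refine Finset.sum_congr rfl fun i hi => ?_
  rw [Finset.mem_range] at hi
  rw [Alg.chunk, sa_getD, if_pos hi, mul_assoc]
  simp only [ext, sp_div a hi, sp_mod a hi]

theorem ev_chunks {m a : ℕ} (h : a < m) (v : Vec) :
    π.ev ((A.chunks m v).getD a []) = π.ev (A.chunk a v) := by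
  rw [Alg.chunks, sa_getD, if_pos h]

theorem sp_len (m : ℕ) (v : Vec) : (A.chunks m v).length = m := by simp [Alg.chunks]

theorem ev_ext' (v : Vec) :
    (π.ext g ρ hg h2 hρ).ev v = (π.pd (A.chunks (g.length - 1) v)).eval ρ := by
  rw [ev_ext, sp_eval, sp_len]
  exact Finset.sum_congr rfl fun a ha => by rw [π.ev_chunks (Finset.mem_range.1 ha)]

theorem ev_flat (P : Pol) : (π.ext g ρ hg h2 hρ).ev (A.flat (g.length - 1) P) =
    ∑ a ∈ range (g.length - 1), π.ev (P.getD a []) * ρ ^ a := by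
  rw [← sum_flat, ev, Alg.ext_d]
  rfl

theorem ev_low {v : Vec} (h : v.length ≤ A.d) : (π.ext g ρ hg h2 hρ).ev v = π.ev v := by
  rw [ev_ext, Finset.sum_eq_single 0]
  · rw [pow_zero, mul_one]
    exact Finset.sum_congr rfl fun i hi => by
      rw [Alg.chunk, sa_getD, if_pos (Finset.mem_range.1 hi), zero_mul, zero_add]
  · intro a _ ha
    refine mul_eq_zero_of_left (Finset.sum_eq_zero fun i hi => ?_) _
    have h1 := Nat.le_mul_of_pos_left A.d (Nat.pos_of_ne_zero ha)
    rw [Alg.chunk, sa_getD, if_pos (Finset.mem_range.1 hi), List.getD_eq_default _ _ (by omega),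
      Nat.cast_zero, zero_mul]
  · intro h1
    exact absurd (Finset.mem_range.2 (by omega)) h1

theorem ev_gen : (π.ext g ρ hg h2 hρ).ev (A.gen g) = ρ := by
  rw [Alg.gen, ev_flat, π.sp_mod_eval hg hρ]
  simp [pd_cons]

theorem pd_low {P : Pol} (h : Sh A.d P) : (π.ext g ρ hg h2 hρ).pd P = π.pd P := by
  ext a
  rw [coeff_pd, coeff_pd, π.ev_low hg h2 hρ (h.getD a)]

theorem mo_low {P : Pol} (h : Sh A.d P) (h' : π.Mo P) : (π.ext g ρ hg h2 hρ).Mo P :=
  ⟨h'.1, by rw [π.ev_low hg h2 hρ (h.getD _), h'.2]⟩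

theorem ext_fx (ψ : R →+* R) (h : ∀ v, ψ (π.ev v) = π.ev v) (h' : ψ ρ = ρ) (v : Vec) :
    ψ ((π.ext g ρ hg h2 hρ).ev v) = (π.ext g ρ hg h2 hρ).ev v := by
  simp only [ev_ext, map_sum, map_mul, map_pow, h, h']

theorem ev_chunk_flat {m a : ℕ} (h : a < m) (P : Pol) :
    π.ev (A.chunk a (A.flat m P)) = π.ev (P.getD a []) :=
  Finset.sum_congr rfl fun i hi => by
    rw [Finset.mem_range] at hi
    rw [Alg.chunk, sa_getD, if_pos hi, Alg.flat, sa_getD, if_pos (sp_lt h hi), sp_div a hi,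
      sp_mod a hi, π.cast_rd]

theorem sp_isZ (hπ : π.Inj) {v : Vec} (h : π.pd (A.chunks (g.length - 1) v) = 0) :
    (A.ext g).isZ v = true :=
  A.isZ_ext fun a ha => hπ _ (by rw [← π.ev_chunks ha, ← coeff_pd, h, coeff_zero])

/-- Joint injectivity for a full set of distinct roots. -/
theorem ext_inj {K : Type} [Field K] (π : Ch A K) (hπ : π.Inj) {g : Pol} (hg : π.Mo g)
    (h2 : 2 ≤ g.length) {n : ℕ} (hn : g.length - 1 ≤ n) (ρ : Fin n → K)
    (hi : Function.Injective ρ) (hρ : ∀ i, (π.pd g).eval (ρ i) = 0) {v : Vec}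
    (h : ∀ i, (π.ext g (ρ i) hg h2 (hρ i)).ev v = 0) : (A.ext g).isZ v = true := by
  refine π.sp_isZ hπ (eq_zero_of_natDegree_lt_card_of_eval_eq_zero _ hi
    (fun i => by rw [← π.ev_ext' hg h2 (hρ i), h]) ?_)
  have h1 := π.natDegree_pd_le (A.chunks (g.length - 1) v)
  rw [sp_len] at h1
  rw [Fintype.card_fin]
  omega

/-- An element with the same value at all roots. -/
theorem ext_const {K : Type} [Field K] (π : Ch A K) {g : Pol} (hg : π.Mo g)
    (h2 : 2 ≤ g.length) {n : ℕ} (hn : g.length - 1 ≤ n) (ρ : Fin n → K)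
    (hi : Function.Injective ρ) (hρ : ∀ i, (π.pd g).eval (ρ i) = 0) {v : Vec} {c : K}
    (h : ∀ i, (π.ext g (ρ i) hg h2 (hρ i)).ev v = c) : π.ev (A.chunk 0 v) = c := by
  have h1 := π.natDegree_pd_le (A.chunks (g.length - 1) v)
  rw [sp_len] at h1
  have h3 := eq_zero_of_natDegree_lt_card_of_eval_eq_zero
    (π.pd (A.chunks (g.length - 1) v) - C c) hi
    (fun i => by rw [eval_sub, ← π.ev_ext' hg h2 (hρ i), h, eval_C, sub_self])
    (by rw [natDegree_sub_C, Fintype.card_fin]; omega)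
  rw [← π.ev_chunks (m := g.length - 1) (by omega), ← coeff_pd, sub_eq_zero.1 h3, coeff_C_zero]

/-- The universal character of `A[X] / g`. -/
noncomputable def adj (g : Pol) (hg : π.Mo g) (h2 : 2 ≤ g.length) :
    Ch (A.ext g) (AdjoinRoot (π.pd g)) :=
  (π.map (AdjoinRoot.of _)).ext g (AdjoinRoot.root _) (hg.map _) h2 (by
    rw [pd_map, eval_map]; exact AdjoinRoot.eval₂_root _)

theorem adj_gen : (π.adj g hg h2).ev (A.gen g) = AdjoinRoot.root _ := ev_gen _ _ _ _

theorem adj_inj [Nontrivial R] (hπ : π.Inj) : (π.adj g hg h2).Inj := fun v hv => by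
  rw [adj, ev_ext', pd_map, eval_map, ← AdjoinRoot.algebraMap_eq, ← aeval_def, AdjoinRoot.aeval_eq,
    AdjoinRoot.mk_eq_zero] at hv
  refine π.sp_isZ hπ (by_contra fun h => hg.monic.not_dvd_of_degree_lt h ?_ hv)
  rw [π.sp_deg hg]
  simpa only [sp_len] using π.degree_pd_lt (A.chunks (g.length - 1) v)

end Ch

end Vale.Agent.P319A
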