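import Vale.Agent.P319A.CRound
import Vale.Agent.P319A.SPol
import Vale.Agent.P319A.SAmm
import Vale.Agent.P319A.Frob

/-!
The meaning of the parameters, and of the operations in the coordinate ring.
-/

open Polynomial Finset

namespace Vale.Agent.P319A

/-- The parameters describe a curve over `K` together with a nonresidue and Frobenius maps. -/
structure Ctx (X : Par) (K : Type) [Field K] where
  /-- the curve -/
  D : Crv K
  /-- the embedding of the constants -/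
  πK : Ch X.AK K
  /-- the small Frobenius -/
  φ : K →+* K
  /-- the large Frobenius -/
  ψ : K →+* K
  /-- the exponent -/
  t : ℕ
  hq : X.q = D.q
  hn : X.n = D.n
  mo : πK.Mo X.f
  hf : πK.pd X.f = D.f
  shf : Sh X.AK.d X.f
  hζ : πK.ev X.ζ = D.ζ
  shζ : X.ζ.length ≤ X.AK.d
  shs : X.s.length ≤ X.AK.d
  s0 : πK.ev X.s ≠ 0
  s1 : πK.ev X.s ^ ((X.Q - 1) / X.q) ≠ 1
  dvd : X.q ∣ X.Q - 1
  inj : πK.Inj
  Q2 : 2 ≤ X.Q
  hψ : ∀ x, ψ x = x ^ X.Q
  fixK : ∀ v, ψ (πK.ev v) = πK.ev v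
  fφ : D.Fx φ
  fψ : D.Fx ψ
  bij : Function.Bijective φ
  iter : ∀ x, ψ x = φ^[D.q ^ t] x
  ht : X.rounds ≤ t * (D.q - 1)
  prime : X.p.Prime
  big : X.P1 ≤ X.p

namespace Ctx

variable {X : Par} {K : Type} [Field K] (c : Ctx X K)

include c in
theorem two_le_n : 2 ≤ X.n := c.hn ▸ c.D.two_le_q.trans c.D.q_le_n

include c in
theorem len_f : X.f.length = X.n + 1 := by have := c.mo.1; unfold Par.n; omega

include c in
theorem two_le_len : 2 ≤ X.f.length := by have := c.two_le_n; have := c.len_f; omega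

theorem hn1 : X.n1 = c.D.n1 := by
  rw [Par.n1, c.hn, c.hq, c.D.hn, Nat.mul_div_cancel_left _ c.D.q_pos]

/-- The component of `B` at the root `e i`. -/
def π (i : Fin c.D.n) : Ch X.AB K :=
  c.πK.ext X.f (c.D.e i) c.mo c.two_le_len (by rw [c.hf]; exact c.D.f_eval i)

theorem mo_f (i : Fin c.D.n) : (c.π i).Mo X.f := c.πK.mo_low _ _ _ c.shf c.mo

theorem pd_f (i : Fin c.D.n) : (c.π i).pd X.f = c.D.f := (c.πK.pd_low _ _ _ c.shf).trans c.hf

/-- The component of `B ⊗ B` at the pair of roots. -/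
def π' (i k : Fin c.D.n) : Ch X.AC K :=
  (c.π i).ext X.f (c.D.e k) (c.mo_f i) c.two_le_len (by rw [c.pd_f]; exact c.D.f_eval k)

include c in
theorem AK_le_AB : X.AK.d ≤ X.AB.d := by
  rw [Par.AB, Alg.ext_d]
  exact Nat.le_mul_of_pos_left _ (by have := c.two_le_len; omega)

theorem ev_low (i : Fin c.D.n) {v : Vec} (h : v.length ≤ X.AK.d) : (c.π i).ev v = c.πK.ev v :=
  c.πK.ev_low _ _ _ h

theorem ev_low' (i k : Fin c.D.n) {v : Vec} (h : v.length ≤ X.AB.d) :
    (c.π' i k).ev v = (c.π i).ev v := (c.π i).ev_low _ _ _ h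

theorem ev_th (i : Fin c.D.n) : (c.π i).ev X.th = c.D.e i := c.πK.ev_gen _ _ _

theorem ev_th' (i k : Fin c.D.n) : (c.π' i k).ev X.th' = c.D.e k := (c.π i).ev_gen _ _ _

theorem ev_ζ (i : Fin c.D.n) : (c.π i).ev X.ζ = c.D.ζ := (c.ev_low i c.shζ).trans c.hζ

theorem fx (i : Fin c.D.n) (v : Vec) : c.ψ ((c.π i).ev v) = (c.π i).ev v := c.πK.ext_fx _ _ _ c.ψ c.fixK (c.fψ.he i) v

theorem fixK' : c.πK.Fix X.Q := ⟨c.Q2, fun v => (c.hψ _).symm.trans (c.fixK v)⟩

theorem fix (i : Fin c.D.n) : (c.π i).Fix X.Q := ⟨c.Q2, fun v => (c.hψ _).symm.trans (c.fx i v)⟩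

theorem fix' (i k : Fin c.D.n) : (c.π' i k).Fix X.Q := ⟨c.Q2, fun v =>
  (c.hψ _).symm.trans ((c.π i).ext_fx _ _ _ c.ψ (c.fx i) (c.fψ.he k) v)⟩

theorem map_pd (i : Fin c.D.n) (P : Pol) : ((c.π i).pd P).map c.ψ = (c.π i).pd P := Polynomial.ext fun a => by rw [coeff_map, Ch.coeff_pd, c.fx]

theorem isZ_of_all {v : Vec} (h : ∀ i, (c.π i).ev v = 0) : X.AB.isZ v = true := c.πK.ext_inj c.inj c.mo c.two_le_len c.hn.le c.D.e c.D.he _ h

theorem ev_chunk_zero {v : Vec} {z : K} (h : ∀ i, (c.π i).ev v = z) :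
    c.πK.ev (X.AK.chunk 0 v) = z := c.πK.ext_const c.mo c.two_le_len c.hn.le c.D.e c.D.he _ h

theorem ev_rr (i k : Fin c.D.n) (v : Vec) :
    ((c.π i).pd (X.AB.chunks X.n v)).eval (c.D.e k) = (c.π' i k).ev v := ((c.π i).ev_ext' _ _ _ v).symm

include c in
theorem cop_q_p : Nat.Coprime X.q X.p := (Nat.coprime_primes (c.hq ▸ c.D.hq) c.prime).2 fun h =>
  c.D.q_ne (by rw [← c.hq, h]; exact c.πK.hp)

theorem rounds_eq : X.rounds = padicValNat c.D.q (c.D.q * c.D.n1) * (c.D.q - 1) + 1 := by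
  rw [Par.rounds, vq_spec (c.hq ▸ c.D.hq) (by have := c.two_le_n; omega) Nat.lt_two_pow_self, c.hq,
    c.hn, c.D.hn]

variable (i : Fin c.D.n)

/-- The value of an element of the coordinate ring. -/
noncomputable def od (b : OE) : c.D.O :=
  ∑ l ∈ range c.D.q, c.D.of ((c.π i).pd (b.getD l [])) * c.D.y ^ l

theorem co_od (b : OE) {l : ℕ} (hl : l < c.D.q) :
    c.D.co l (c.od i b) = (c.π i).pd (b.getD l []) := c.D.co_sum _ hl

theorem sctx_co (F : ℕ → Pol) {l : ℕ} (hl : l < c.D.q) :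
    c.D.co l (c.od i ((List.range X.q).map F)) = (c.π i).pd (F l) := by
  rw [c.co_od i _ hl, sa_getD, if_pos (c.hq ▸ hl)]

theorem sctx_y (l : ℕ) : c.D.co l c.D.y = if l = 1 then 1 else 0 := by
  rw [← c.D.co_y_pow l c.D.two_le_q, pow_one]

theorem sctx_two (P R : Pol) :
    c.od i [P, R] = c.D.of ((c.π i).pd P) + c.D.of ((c.π i).pd R) * c.D.y :=
  c.D.co_ext fun l hl => by
    rw [c.co_od i _ hl, map_add, c.D.co_of, c.D.co_of_mul, sctx_y]
    rcases l with _ | _ | l <;> simp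

@[simp] theorem od_nil : c.od i [] = 0 := by simp [od]

@[simp] theorem od_single (P : Pol) : c.od i [P] = c.D.of ((c.π i).pd P) := c.D.co_ext fun l hl => by
  rw [c.co_od i _ hl, c.D.co_of]
  rcases l with _ | l <;> simp

@[simp] theorem od_omul (b b' : OE) : c.od i (X.omul b b') = c.od i b * c.od i b' := c.D.co_ext fun k hk => by
    rw [Par.omul, c.sctx_co i _ hk, c.D.co_mul hk, Ch.pd_psum_range, c.hq]
    refine Finset.sum_congr rfl fun l hl => ?_
    have hl' := Finset.mem_range.1 hl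
    by_cases h : l ≤ k
    · simp [h, c.co_od i _ hl', c.co_od i _ (show k - l < c.D.q by omega)]
    · simp [h, c.co_od i _ hl', c.co_od i _ (show k + c.D.q - l < c.D.q by omega), c.pd_f]

@[simp] theorem od_osig (j : ℕ) (b : OE) : c.od i (X.osig j b) = c.D.s j (c.od i b) := c.D.co_ext fun l hl => by
    rw [Par.osig, c.sctx_co i _ hl, c.D.co_s, c.co_od i _ hl, Ch.pd_psm, Ch.ev_pow, c.ev_ζ]

theorem od_osum (N : ℕ) (F : ℕ → OE) :
    c.od i (X.osum ((List.range N).map F)) = ∑ a ∈ range N, c.od i (F a) := c.D.co_ext fun l hl => by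
    rw [Par.osum, c.sctx_co i _ hl, List.map_map, Ch.pd_psum_range, map_sum]
    exact Finset.sum_congr rfl fun a _ => (c.co_od i _ hl).symm

@[simp] theorem od_osub (b b' : OE) : c.od i (X.osub b b') = c.od i b - c.od i b' := c.D.co_ext fun l hl => by
    rw [Par.osub, c.sctx_co i _ hl, map_sub, c.co_od i _ hl, c.co_od i _ hl, Ch.pd_psub]

@[simp] theorem od_opm (P : Pol) (b : OE) :
    c.od i (X.opm P b) = c.D.of ((c.π i).pd P) * c.od i b := c.D.co_ext fun l hl => by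
  rw [Par.opm, c.sctx_co i _ hl, c.D.co_of_mul, c.co_od i _ hl, Ch.pd_pmul]

theorem od_omono {N l a : ℕ} (hl : l < c.D.q) (ha : a < N) :
    c.od i (X.omono N l a) = c.D.of (Polynomial.X ^ a) * c.D.y ^ l := c.D.co_ext fun k hk => by
  rw [Par.omono, c.sctx_co i _ hk, c.D.co_of_mul, c.D.co_y_pow k hl]
  by_cases h : k = l
  · simp [h, (c.π i).pd_xpow ha]
  · simp [h, beq_eq_false_iff_ne.2 h]

theorem co_omod {u : Pol} (hu : (c.π i).Mo u) (b : OE) (l : ℕ) :
    c.D.co l (c.od i (X.omod u b)) = c.D.co l (c.od i b) %ₘ (c.π i).pd u := by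
  rcases lt_or_ge l c.D.q with hl | hl
  · rw [Par.omod, c.sctx_co i _ hl, c.co_od i _ hl, (c.π i).pd_pmod hu]
  · rw [c.D.co_ge hl, c.D.co_ge hl, zero_modByMonic]

theorem dvd_sub_omod {u : Pol} (hu : (c.π i).Mo u) (b : OE) :
    c.D.of ((c.π i).pd u) ∣ c.od i b - c.od i (X.omod u b) := c.D.of_dvd_iff.2 fun l _ => by
  rw [map_sub, c.co_omod i hu]
  exact ⟨_, sub_eq_of_eq_add' (modByMonic_add_div _ _).symm⟩

theorem od_odiv {u : Pol} (hu : (c.π i).Mo u) {b : OE} (h : c.D.of ((c.π i).pd u) ∣ c.od i b) :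
    c.D.of ((c.π i).pd u) * c.od i (X.odiv u b) = c.od i b := c.D.co_ext fun l hl => by
  rw [c.D.co_of_mul, Par.odiv, c.sctx_co i _ hl, (c.π i).pd_pdiv hu, ← c.co_od i _ hl]
  have := modByMonic_add_div (c.D.co l (c.od i b)) ((c.π i).pd u)
  rwa [(modByMonic_eq_zero_iff_dvd hu.monic).2 (c.D.of_dvd_iff.1 h l hl), zero_add] at this

theorem od_ofix {N m : ℕ} {b : OE} (h : c.D.CoLe (c.od i b) m) (hm : m < N) :
    c.od i (X.ofix N b) = c.od i b := c.D.co_ext fun l hl => by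
  have h1 := h l
  rw [c.co_od i _ hl] at h1
  rw [Par.ofix, c.sctx_co i _ hl, c.co_od i _ hl, Ch.pd_pfix]
  exact degree_le_natDegree.trans_lt (by exact_mod_cast h1.trans_lt hm)

theorem length_ocs (X : Par) (m : ℕ) (b : OE) : (X.ocs m b).length = X.q * m := by simp [Par.ocs]

theorem ev_ocs {m k : ℕ} (hk : k < c.D.q * m) (b : OE) : (c.π i).ev ((X.ocs m b).getD k []) =
    (c.D.co (k / m) (c.od i b)).coeff (k % m) := by
  rw [Par.ocs, sa_getD, if_pos (c.hq ▸ hk), c.co_od i _ (Nat.div_lt_of_lt_mul (mul_comm _ m ▸ hk)),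
    Ch.coeff_pd]

theorem map_ocs (m : ℕ) (b : OE) : (X.ocs m b).map (c.π i).ev =
    (List.range (c.D.q * m)).map fun k => (c.D.co (k / m) (c.od i b)).coeff (k % m) := by
  rw [Par.ocs, List.map_map, c.hq]
  refine List.map_congr_left fun k hk => ?_
  rw [c.co_od i _ (Nat.div_lt_of_lt_mul (mul_comm _ m ▸ List.mem_range.1 hk)), Ch.coeff_pd]
  rfl

/-- An element with coordinates of degree less than `m` is determined by these coefficients. -/
theorem eq_zero_of_coeffs {m : ℕ} {b : c.D.O} (hb : ∀ l, (c.D.co l b).degree < m)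
    (h : ∀ k < c.D.q * m, (c.D.co (k / m) b).coeff (k % m) = 0) : b = 0 := c.D.co_ext fun l hl => by
  rw [map_zero]
  ext a
  rcases lt_or_ge a m with ha | ha
  · simpa [sp_div l ha, sp_mod l ha] using h _ (sp_lt hl ha)
  · exact (degree_lt_iff_coeff_zero _ _).1 (hb l) a ha

theorem pd_onrm {b : OE} (h : c.D.CoLe (c.od i b) c.D.n) :
    (c.π i).pd (X.onrm b) = c.D.nrm (c.od i b) := by
  have key : ∀ j ≤ c.D.q, c.od i ((List.range j).foldl (fun R j => X.ofix (2 * X.n ^ 2 + 1)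
      (X.omul R (X.osig j b))) [[[1]]]) = ∏ k ∈ range j, c.D.s k (c.od i b) ∧
      c.D.CoLe (∏ k ∈ range j, c.D.s k (c.od i b)) (j * (2 * c.D.n)) := fun j hj => by
    induction j with
    | zero => exact ⟨by simp, by simpa using Crv.CoLe.of (D := c.D) 1⟩
    | succ j ih =>
      obtain ⟨h1, h2⟩ := ih (by omega)
      have h3 := (h2.mul (h.s j)).mono (m' := (j + 1) * (2 * c.D.n)) (by linarith)
      rw [List.range_succ, List.foldl_append, List.foldl_cons, List.foldl_nil, Finset.prod_range_succ,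
        c.od_ofix i (m := (j + 1) * (2 * c.D.n)) (by rwa [od_omul, od_osig, h1])
          (by rw [c.hn]; nlinarith [c.D.q_le_n]), od_omul, od_osig, h1]
      exact ⟨rfl, h3⟩
  rw [Par.onrm, ← c.co_od i _ c.D.q_pos, c.hq, (key _ le_rfl).1, Crv.nrm]

theorem rat_od (b : OE) : c.D.Rat c.ψ (c.od i b) := fun l => by
  rcases lt_or_ge l c.D.q with hl | hl
  · rw [c.co_od i _ hl, c.map_pd]
  · rw [c.D.co_ge hl, Polynomial.map_zero]

theorem od_h0 : c.od i X.h0 = c.D.h0 i := by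
  have h1 : (c.π i).pd [X.AB.neg X.th, [1]] = Polynomial.X - C (c.D.e i) := by
    simp [Ch.pd_cons, c.ev_th, neg_add_eq_sub]
  rw [Par.h0, sctx_two, (c.π i).pd_ppowm ((c.π i).mo_xpow _), (c.π i).pd_xpow (by omega), h1,
    (modByMonic_eq_self_iff (monic_X_pow _)).2 (by
      rw [degree_pow, degree_X_sub_C, degree_X_pow, nsmul_one]; exact_mod_cast Nat.lt_succ_self _),
    Crv.h0, c.hn]
  simp [sub_eq_add_neg]

theorem od_y : c.od i [[], [[1]]] = c.D.y := by simp [sctx_two]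

theorem coLe_h0 : c.D.CoLe (c.D.h0 i) c.D.n := by
  refine Crv.CoLe.sub ((Crv.CoLe.of _).mono (by simp)) fun l => ?_
  rw [sctx_y]
  split_ifs <;> simp

theorem rat_h0 : c.D.Rat c.φ (c.D.h0 i) := fun l => by
  rw [Crv.h0, map_sub, c.D.co_of, sctx_y]
  split_ifs <;> simp [c.fφ.he]

/-- The ideal generated by a list and a modulus. -/
noncomputable def Idl (μ : Pol) (G : List OE) : Ideal c.D.O :=
  Ideal.span {x | ∃ γ ∈ G, c.od i γ = x} ⊔ Ideal.span {c.D.of ((c.π i).pd μ)}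

theorem ratI_idl (μ : Pol) (G : List OE) : c.D.RatI c.ψ (c.Idl i μ G) := by
  refine ⟨_, (Ideal.span_union _ _).symm, ?_⟩
  rintro _ (⟨γ, -, rfl⟩ | rfl)
  · exact c.rat_od i γ
  · exact c.od_single i μ ▸ c.rat_od i _

/-- The value of a tuple. -/
noncomputable def td (b : List OE) (j : ℕ) : c.D.O := c.od i (b.getD j [])

/-- A vector approximates a power series to precision `N`. -/
def Ap (N : ℕ) (v : Vec) (S : PowerSeries K) : Prop :=
  ∀ a < N, (c.π i).ev (X.AB.chunk a v) = PowerSeries.coeff a S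

/-- A pair represents a nonzero Laurent series. -/
def LS (x : LE) (z : LaurentSeries K) : Prop :=
  z ≠ 0 ∧ x.1 = dg z ∧ ∀ a < X.P, (c.π i).ev (X.AB.chunk a x.2) = z.coeff (a - x.1)

end Ctx

end Vale.Agent.P319A
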