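import Vale.Agent.P319A.SLin

/-!
First dependencies and annihilators.
-/

open Polynomial Finset

namespace Vale.Agent.P319A.Ch

variable {A : Alg} {K : Type} [Field K] (π : Ch A K)

/-- Rows none of which is a combination of the previous ones are at most `w` in number
(the dimension of the span in `Fin w → K` grows). -/
theorem length_le_of_indep (w : ℕ) (L : List Pol)
    (h : ∀ j < L.length, ¬ ∃ x, π.Comb w (L.take j) x (L.getD j [])) : L.length ≤ w := by
  let v : ℕ → Fin w → K := fun i k => π.ev ((L.getD i []).getD k [])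
  have h1 : ∀ j ≤ L.length, j ≤ Module.finrank K (Submodule.span K (v '' (range j : Finset ℕ))) :=
    fun j => by
      induction j with
      | zero => simp
      | succ j ih =>
        intro hj
        refine (ih (by omega)).trans_lt (Submodule.finrank_lt_finrank_of_lt (lt_of_le_of_ne
          (Submodule.span_mono (Set.image_mono (by simp))) fun h2 => h j hj ?_))
        have h3 : v j ∈ Submodule.span K (v '' (range j : Finset ℕ)) :=
          h2 ▸ Submodule.subset_span ⟨j, by simp, rfl⟩
        obtain ⟨x, hx⟩ := (Submodule.mem_span_image_finset_iff_exists_fun' K).1 h3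
        refine ⟨x, fun k hk => ?_⟩
        have h4 := congrFun hx ⟨k, hk⟩
        rw [Finset.sum_apply] at h4
        rw [List.length_take, min_eq_left (by omega)]
        refine Eq.trans (Finset.sum_congr rfl fun i hi => ?_) h4
        rw [sa_take_getD, if_pos (Finset.mem_range.1 hi)]
        rfl
  simpa using (h1 _ le_rfl).trans (Submodule.finrank_le _)

/-- A monic relation of degree `δ` modulo the span of `base`. -/
def Dep (w : ℕ) (base seq : List Pol) (δ : ℕ) (s : ℕ → K) : Prop :=
  ∃ x : ℕ → K, ∀ k < w, ∑ a ∈ range δ, s a * π.ev ((seq.getD a []).getD k []) +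
    π.ev ((seq.getD δ []).getD k []) +
    ∑ j ∈ range base.length, x j * π.ev ((base.getD j []).getD k []) = 0

theorem dep_shape {R : Type} [CommRing R] (π : Ch A R) (Q : ℕ) (base seq : List Pol) :
    (A.dep Q base seq).length = A.depIdx Q base seq + 1 ∧ A.depIdx Q base seq ≤ seq.length ∧
      π.Mo (A.dep Q base seq) ∧ Sh A.d (A.dep Q base seq) := by
  have h1 : A.depIdx Q base seq ≤ seq.length := first_le _ _
  have h2 : ((A.solve Q (seq.take (A.depIdx Q base seq) ++ base)
      ((seq.getD (A.depIdx Q base seq) []).map A.neg)).take (A.depIdx Q base seq)).length =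
      A.depIdx Q base seq := by simp [Alg.solve, h1]
  have h3 : (A.dep Q base seq).length = A.depIdx Q base seq + 1 := by
    rw [Alg.dep, List.length_append, h2, List.length_singleton]
  refine ⟨h3, h1, ⟨by omega, ?_⟩, fun v hv => ?_⟩
  · rw [h3, Alg.dep, List.getD_append_right _ _ _ _ (by omega), h2]
    simp
  · rcases List.mem_append.1 hv with hv | hv
    · obtain ⟨a, -, rfl⟩ := List.mem_map.1 (List.mem_of_mem_take hv)
      exact (A.length_neg _).le
    · rw [List.mem_singleton.1 hv]
      exact π.dpos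

theorem sd_comb {w : ℕ} {base seq : List Pol} (hw : ∀ r ∈ seq, r.length = w) {δ : ℕ}
    (hδ : δ < seq.length) (x : ℕ → K) :
    π.Comb ((seq.getD δ []).map A.neg).length (seq.take δ ++ base) x
      ((seq.getD δ []).map A.neg) ↔
    ∀ k < w, ∑ a ∈ range δ, x a * π.ev ((seq.getD a []).getD k []) +
      π.ev ((seq.getD δ []).getD k []) +
      ∑ j ∈ range base.length, x (δ + j) * π.ev ((base.getD j []).getD k []) = 0 := by
  have h1 : (seq.getD δ []).length = w :=
    hw _ (List.getD_eq_getElem seq [] hδ ▸ List.getElem_mem hδ)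
  have h2 : (seq.take δ).length = δ := by simp [hδ.le]
  rw [Comb, List.length_map, h1, List.length_append, h2]
  refine forall₂_congr fun k hk => ?_
  rw [Finset.sum_range_add, sa_map_getD _ _ _ [], if_pos (h1 ▸ hk), ev_neg, eq_neg_iff_add_eq_zero,
    add_right_comm, Finset.sum_congr rfl fun a ha => by
      rw [List.getD_append _ _ _ _ (by rw [h2]; exact Finset.mem_range.1 ha), sa_take_getD,
        if_pos (Finset.mem_range.1 ha)],
    Finset.sum_congr (s₁ := range base.length) rfl fun a _ => by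
      rw [List.getD_append_right _ _ _ _ (by omega), h2, Nat.add_sub_cancel_left]]

theorem dep_spec {Q : ℕ} (hQ : π.Fix Q) {w : ℕ} {base seq : List Pol}
    (hw : ∀ r ∈ seq, r.length = w) (hG : π.Gd (A.dlog Q base seq)) :
    (A.depIdx Q base seq < seq.length → π.Dep w base seq (A.depIdx Q base seq)
      fun a => π.ev ((A.dep Q base seq).getD a [])) ∧
    ∀ δ < A.depIdx Q base seq, ∀ s, ¬ π.Dep w base seq δ s := by
  have h1 := fun δ (hδ : δ < seq.length) =>
    π.solve_spec hQ (π.gd_flatMap.1 hG δ (List.mem_range.2 hδ))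
  obtain ⟨h2, h3⟩ := first_spec seq.length
    fun δ => A.solvable Q (seq.take δ ++ base) ((seq.getD δ []).map A.neg)
  refine ⟨fun h => ?_, fun δ hδ s ⟨x, hx⟩ => ?_⟩
  · have h4 := (π.sd_comb hw h _).1 ((h1 _ h).2 (h2 h))
    refine ⟨fun j => π.ev ((A.solve Q (seq.take (A.depIdx Q base seq) ++ base)
      ((seq.getD (A.depIdx Q base seq) []).map A.neg)).getD (A.depIdx Q base seq + j) []),
      fun k hk => Eq.trans ?_ (h4 k hk)⟩
    congr 2
    refine Finset.sum_congr rfl fun a ha => ?_
    rw [Finset.mem_range] at ha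
    beta_reduce
    rw [Alg.dep, List.getD_append _ _ _ _ (by simp [Alg.solve]; omega), sa_take_getD, if_pos ha]
  · have h4 := hδ.trans_le (first_le _ _)
    have h5 := (h1 δ h4).1.2 ⟨fun i => if i < δ then s i else x (i - δ), (π.sd_comb hw h4 _).2
      fun k hk => by
        rw [← hx k hk, Finset.sum_congr rfl fun a ha => by rw [if_pos (Finset.mem_range.1 ha)]]
        simp⟩
    rw [h3 δ hδ] at h5
    exact Bool.false_ne_true h5

variable {p : ℕ} [Fact p.Prime] {R : Type} [CommRing R] [Algebra (ZMod p) R]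

/-- Dependencies over the prime field: by injectivity the `π.v k`, `k < d`, are independent. -/
theorem dep1_iff (π : Ch A R) (hp : A.p = p) (hπ : π.Inj) (vs : ℕ → Vec) {N δ : ℕ} (hδ : δ < N)
    (s : ℕ → ZMod p) : (z1 p).Dep A.d [] ((List.range N).map fun a => lift1 (vs a)) δ s ↔
      ∑ a ∈ range δ, s a • π.ev (vs a) + π.ev (vs δ) = 0 := by
  have h1 : ∀ (v : Vec) k, (z1 p).ev ((lift1 v).getD k []) = ((v.getD k 0 : ℕ) : ZMod p) :=
    fun v k => by
      rw [lift1, sa_map_getD _ _ _ 0]
      split_ifs with h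
      · simp
      · rw [List.getD_eq_default _ _ (not_lt.1 h), ev_nil, Nat.cast_zero]
  have h2 : ∀ v, π.ev v = ∑ k ∈ range A.d, ((v.getD k 0 : ℕ) : ZMod p) • π.v k := fun v =>
    Finset.sum_congr rfl fun k _ => by rw [Algebra.smul_def, map_natCast]
  have h3 : ∑ a ∈ range δ, s a • π.ev (vs a) + π.ev (vs δ) = ∑ k ∈ range A.d,
      (∑ a ∈ range δ, s a * (((vs a).getD k 0 : ℕ) : ZMod p) + ((vs δ).getD k 0 : ℕ)) • π.v k := by
    simp only [h2, Finset.smul_sum, add_smul, Finset.sum_add_distrib, Finset.sum_smul, mul_smul]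
    rw [Finset.sum_comm]
  have h4 : ∀ c : ℕ → ZMod p, ∑ k ∈ range A.d, c k • π.v k = 0 ↔ ∀ k < A.d, c k = 0 := fun c => by
    refine ⟨fun h k hk => ?_, fun h => Finset.sum_eq_zero fun k hk => by
      rw [h k (Finset.mem_range.1 hk), zero_smul]⟩
    have h5 := hπ (A.tab fun k => (c k).val) (by
      rw [ev_tab, ← h]
      exact Finset.sum_congr rfl fun k _ => by
        rw [Algebra.smul_def, ← map_natCast (algebraMap (ZMod p) R), ZMod.natCast_zmod_val])
    simp only [Alg.isZ, List.all_eq_true, List.mem_range, beq_iff_eq] at h5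
    have h6 := h5 k hk
    have h7 := ZMod.val_lt (c k)
    rwa [Alg.tab, sa_getD, if_pos hk, rd, hp, Nat.mod_eq_of_lt h7, min_eq_left h7.le,
      Nat.mod_eq_of_lt h7, ZMod.val_eq_zero] at h6
  rw [h3, h4, Dep]
  simp only [List.length_nil, Finset.range_zero, Finset.sum_empty, add_zero, exists_const]
  refine forall₂_congr fun k _ => ?_
  rw [sa_getD, if_pos hδ, h1, Finset.sum_congr rfl fun a ha => by
    rw [sa_getD, if_pos ((Finset.mem_range.1 ha).trans hδ), h1]]

theorem annih_spec (π : Ch A R) (hp : A.p = p) (hπ : π.Inj) (θ w : Vec) {N : ℕ}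
    {s₀ : (ZMod p)[X]} (h₀ : s₀.Monic) (h₁ : s₀.natDegree ≤ N)
    (h₂ : aeval (π.ev θ) s₀ * π.ev w = 0) :
    (z1 p).Mo (A.annih θ w N) ∧ Sh 1 (A.annih θ w N) ∧
      aeval (π.ev θ) ((z1 p).pd (A.annih θ w N)) * π.ev w = 0 ∧
      ∀ s : (ZMod p)[X], aeval (π.ev θ) s * π.ev w = 0 → (z1 p).pd (A.annih θ w N) ∣ s := by
  have h3 : ∀ s : (ZMod p)[X], s.Monic → s.natDegree ≤ N →
      ((z1 p).Dep A.d [] ((List.range (N + 1)).map fun a => lift1 (A.mul (A.pow θ a) w))
        s.natDegree s.coeff ↔ aeval (π.ev θ) s * π.ev w = 0) := fun s hs hN => by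
    rw [π.dep1_iff hp hπ _ (Nat.lt_succ_of_le hN), aeval_eq_sum_range, Finset.sum_range_succ,
      hs.coeff_natDegree, one_smul, add_mul, Finset.sum_mul]
    simp only [ev_mul, ev_pow, smul_mul_assoc]
  rw [Alg.annih, hp]
  generalize hseq : ((List.range (N + 1)).map fun a => lift1 (A.mul (A.pow θ a) w)) = seq at h3
  obtain ⟨k1, -, k3, k4⟩ := (z1 p).dep_shape p [] seq
  obtain ⟨k5, k6⟩ := (z1 p).dep_spec (z1_fix p) (w := A.d) (base := []) (seq := seq)
    (fun r hr => by
      rw [← hseq] at hr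
      obtain ⟨a, -, rfl⟩ := List.mem_map.1 hr
      simp [lift1]) ((z1_inj p).gd _)
  have k7 : seq.length = N + 1 := by simp [← hseq]
  have k8 : (A1 p).depIdx p [] seq ≤ N :=
    (not_lt.1 fun h => k6 _ h _ ((h3 s₀ h₀ h₁).2 h₂)).trans h₁
  have k9 := k3.natDegree
  rw [k1, Nat.add_sub_cancel] at k9
  have k10 : aeval (π.ev θ) ((z1 p).pd ((A1 p).dep p [] seq)) * π.ev w = 0 := by
    rw [← h3 _ k3.monic (k9.trans_le k8), k9, funext ((z1 p).coeff_pd _)]
    exact k5 (by omega)
  refine ⟨k3, k4, k10, fun s hs => (modByMonic_eq_zero_iff_dvd k3.monic).1 (by_contra fun h => ?_)⟩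
  have h4 := natDegree_lt_natDegree h (degree_modByMonic_lt s k3.monic)
  have h5 := natDegree_mul_leadingCoeff_inv (s %ₘ (z1 p).pd ((A1 p).dep p [] seq)) h
  refine k6 _ (by omega) _ ((h3 _ (monic_mul_leadingCoeff_inv h) (by omega)).2 ?_)
  rw [map_mul, mul_right_comm]
  refine mul_eq_zero_of_left ?_ _
  rw [modByMonic_eq_sub_mul_div, map_sub, map_mul, sub_mul, hs, mul_right_comm, k10, zero_mul,
    sub_zero]

end Vale.Agent.P319A.Ch
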