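import Vale.Agent.P319A.SIdl

/-!
Computing the part of an ideal prime to `f` and its norm.
-/

open Polynomial Finset

namespace Vale.Agent.P319A

namespace Crv

variable {K : Type} [Field K] (D : Crv K)

/-- One coefficient of the reduction modulo `V`. -/
noncomputable def spoC (V : K[X]) (m k : ℕ) : D.O →+ K :=
  (lcoeff K (k % m)).toAddMonoidHom.comp
    ((modByMonicHom V).toAddMonoidHom.comp (D.co (k / m)).toAddMonoidHom)

theorem spoC_apply (V : K[X]) (m k : ℕ) (b : D.O) :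
    D.spoC V m k b = (D.co (k / m) b %ₘ V).coeff (k % m) := rfl

theorem spoC_C (V : K[X]) (m k : ℕ) (r : K) (b : D.O) :
    D.spoC V m k (D.of (C r) * b) = r * D.spoC V m k b := by
  rw [spoC_apply, spoC_apply, co_of_mul, C_mul', smul_modByMonic, coeff_smul, smul_eq_mul]

theorem spoC_zero {V : K[X]} (hV : V.Monic) (b : D.O) :
    (∀ k < D.q * V.natDegree, D.spoC V V.natDegree k b = 0) ↔ D.of V ∣ b := by
  rw [D.of_dvd_iff]
  refine ⟨fun h l hl => (modByMonic_eq_zero_iff_dvd hV).1 ?_, fun h k hk => ?_⟩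
  · ext a
    rcases lt_or_ge a V.natDegree with ha | ha
    · have h1 := h _ (sp_lt hl ha)
      rwa [spoC_apply, sp_div l ha, sp_mod l ha] at h1
    · refine coeff_eq_zero_of_degree_lt ((degree_modByMonic_lt _ hV).trans_le ?_)
      rw [degree_eq_natDegree hV.ne_zero]
      exact_mod_cast ha
  · rw [spoC_apply, (modByMonic_eq_zero_iff_dvd hV).2
      (h _ (Nat.div_lt_of_lt_mul (mul_comm _ V.natDegree ▸ hk))), coeff_zero]

/-- Combinations of the elements `v j` with constant coefficients, modulo `V`. -/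
def spoT (V : K[X]) (n : ℕ) (v : ℕ → D.O) : AddSubmonoid D.O where
  carrier := {b | ∃ x : ℕ → K, D.of V ∣ b - ∑ j ∈ range n, D.of (C (x j)) * v j}
  zero_mem' := ⟨0, by simp⟩
  add_mem' := by
    rintro a b ⟨x, hx⟩ ⟨x', hx'⟩
    refine ⟨x + x', (dvd_add hx hx').trans (dvd_of_eq ?_)⟩
    simp only [Pi.add_apply, map_add, add_mul, Finset.sum_add_distrib]
    ring

theorem spoT_mul {V : K[X]} (hV : V.Monic) {n : ℕ} {v : ℕ → D.O} {g : D.O}
    (h : ∀ l < D.q, ∀ a < V.natDegree, ∃ j < n, v j = D.of (X ^ a) * D.y ^ l * g) (z : D.O) :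
    z * g ∈ D.spoT V n v := by
  rw [← D.sum_co z, Finset.sum_mul]
  refine sum_mem fun l hl => ?_
  rw [← modByMonic_add_div (D.co l z) V, map_add, add_mul, add_mul]
  refine add_mem ?_ ⟨0, by simp [mul_assoc]⟩
  rcases eq_or_ne (D.co l z %ₘ V) 0 with h0 | h0
  · rw [h0, map_zero, zero_mul, zero_mul]
    exact zero_mem _
  rw [as_sum_range' _ _ (natDegree_lt_natDegree h0 (degree_modByMonic_lt _ hV)), map_sum,
    Finset.sum_mul, Finset.sum_mul]
  refine sum_mem fun a ha => ?_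
  obtain ⟨j, hj, e⟩ := h l (Finset.mem_range.1 hl) a (Finset.mem_range.1 ha)
  refine ⟨Pi.single j ((D.co l z %ₘ V).coeff a), ?_⟩
  rw [Finset.sum_eq_single_of_mem j (Finset.mem_range.2 hj) fun j' _ hj' => by
    rw [Pi.single_eq_of_ne hj', map_zero, map_zero, zero_mul], Pi.single_eq_same, e,
    ← C_mul_X_pow_eq_monomial, map_mul]
  exact ⟨0, by ring⟩

end Crv

namespace Ctx

variable {X : Par} {K : Type} [Field K] (c : Ctx X K) (i : Fin c.D.n)

theorem spo_ev {ν : Pol} (hν : (c.π i).Mo ν) {k : ℕ} (hk : k < c.D.q * (ν.length - 1)) (b : OE) :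
    (c.π i).ev ((X.ocs (ν.length - 1) (X.omod ν b)).getD k []) =
      c.D.spoC ((c.π i).pd ν) (ν.length - 1) k (c.od i b) := by
  rw [c.ev_ocs i hk, c.co_omod i hν, Crv.spoC_apply]

theorem spo_span {ν : Pol} (hν : (c.π i).Mo ν) (G L : List OE)
    (hL : L = G.flatMap fun γ => (List.range (X.q * (ν.length - 1))).map fun k =>
      X.omul (X.omono ν.length (k / (ν.length - 1)) (k % (ν.length - 1))) γ) (S : c.D.O) :
    (∃ x : ℕ → K, c.D.of ((c.π i).pd ν) ∣
      S + ∑ j ∈ range L.length, c.D.of (C (x j)) * c.od i (L.getD j [])) ↔ S ∈ c.Idl i ν G := by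
  constructor
  · rintro ⟨x, hx⟩
    have h1 : ∑ j ∈ range L.length, c.D.of (C (x j)) * c.od i (L.getD j []) ∈ c.Idl i ν G := by
      refine sum_mem fun j hj => Ideal.mul_mem_left _ _ ?_
      have h2 : L.getD j [] ∈ L := by
        rw [List.getD_eq_getElem L [] (Finset.mem_range.1 hj)]
        exact List.getElem_mem _
      generalize L.getD j [] = b at h2
      rw [hL] at h2
      obtain ⟨γ, hγ, h3⟩ := List.mem_flatMap.1 h2
      obtain ⟨k, -, rfl⟩ := List.mem_map.1 h3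
      rw [od_omul]
      exact Ideal.mul_mem_left _ _ (Ideal.mem_sup_left (Ideal.subset_span ⟨γ, hγ, rfl⟩))
    exact (add_mem_cancel_right h1).1 (Ideal.mem_sup_right (Ideal.mem_span_singleton.2 hx))
  · intro h
    obtain ⟨a, ha, b, hb, rfl⟩ := Submodule.mem_sup.1 h
    have h1 : ∀ z, z * a ∈ c.D.spoT ((c.π i).pd ν) L.length fun j => c.od i (L.getD j []) := by
      refine Submodule.span_induction (p := fun a _ => ∀ z, z * a ∈
        c.D.spoT ((c.π i).pd ν) L.length fun j => c.od i (L.getD j [])) ?_ ?_ ?_ ?_ ha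
      · rintro _ ⟨γ, hγ, rfl⟩
        refine c.D.spoT_mul hν.monic fun l hl a ha => ?_
        rw [hν.natDegree] at ha
        have h2 : X.omul (X.omono ν.length l a) γ ∈ L := by
          rw [hL]
          refine List.mem_flatMap.2 ⟨γ, hγ, List.mem_map.2 ⟨l * (ν.length - 1) + a,
            List.mem_range.2 (sp_lt (c.hq ▸ hl) ha), ?_⟩⟩
          rw [sp_div l ha, sp_mod l ha]
        obtain ⟨j, hj, e⟩ := List.mem_iff_getElem.1 h2
        refine ⟨j, hj, ?_⟩
        rw [List.getD_eq_getElem L [] hj, e, od_omul, c.od_omono i hl (by omega)]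
      · intro z
        rw [mul_zero]
        exact zero_mem _
      · intro a b _ _ h1 h2 z
        rw [mul_add]
        exact add_mem (h1 z) (h2 z)
      · intro r a _ h1 z
        rw [smul_eq_mul, ← mul_assoc]
        exact h1 _
    obtain ⟨x, hx⟩ := h1 (-1)
    refine ⟨x, (dvd_sub (Ideal.mem_span_singleton.1 hb) hx).trans (dvd_of_eq ?_)⟩
    ring

/-- The rows of `pbase` span the ideal modulo `ν` as a vector space: a relation of degree `δ` with
coefficients `s` means that the monic polynomial `S = ∑ s a X ^ a + X ^ δ` has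
`S f ^ (q deg ν)` in the ideal. -/
theorem dep_iff {ν : Pol} (hν : (c.π i).Mo ν) {A : List OE} {J : Ideal c.D.O}
    (hJ : c.Idl i ν ((X.ipows ν A).1.getD X.q []) = J) {δ : ℕ} (hδ : δ < ν.length) (s : ℕ → K) :
    (c.π i).Dep (X.q * (ν.length - 1)) (X.pbase ν A) (X.pseq ν) δ s ↔
      c.D.of ((∑ a ∈ range δ, monomial a (s a) + Polynomial.X ^ δ) *
        c.D.f ^ (c.D.q * (ν.length - 1))) ∈ J := by
  obtain ⟨L, hL⟩ : ∃ L : List OE, L = ((X.ipows ν A).1.getD X.q []).flatMap fun γ =>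
      (List.range (X.q * (ν.length - 1))).map fun k =>
        X.omul (X.omono ν.length (k / (ν.length - 1)) (k % (ν.length - 1))) γ := ⟨_, rfl⟩
  have hb : X.pbase ν A = L.map fun b => X.ocs (ν.length - 1) (X.omod ν b) := by
    rw [hL, Par.pbase, List.map_flatMap]
    simp only [List.map_map]
    rfl
  have h0 := c.D.spoC_zero hν.monic
  rw [hν.natDegree] at h0
  have h1 : ∀ k < c.D.q * (ν.length - 1), ∀ a < ν.length,
      (c.π i).ev (((X.pseq ν).getD a []).getD k []) = c.D.spoC ((c.π i).pd ν) (ν.length - 1) k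
        (c.D.of (Polynomial.X ^ a * c.D.f ^ (c.D.q * (ν.length - 1)))) := by
    intro k hk a ha
    rw [Par.pseq, sa_getD, if_pos ha, c.spo_ev i hν hk, od_single, Ch.pd_pmul,
      (c.π i).pd_xpow ha, (c.π i).pd_ppowm hν, c.pd_f, c.hq, ← sub_eq_zero, ← map_sub]
    refine (h0 _).2 ?_ k hk
    rw [← map_sub, ← mul_sub, modByMonic_eq_sub_mul_div, sub_sub_cancel_left]
    exact map_dvd _ ((dvd_mul_right _ _).neg_right.mul_left _)
  rw [← hJ, ← c.spo_span i hν _ L hL, Ch.Dep, c.hq]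
  refine exists_congr fun x => ?_
  rw [← h0]
  refine forall₂_congr fun k hk => Eq.congr_left ?_
  rw [map_add, add_mul, map_add, map_add, h1 k hk δ hδ, Finset.sum_mul, map_sum, map_sum, map_sum,
    hb, List.length_map]
  congr 1
  · congr 1
    refine Finset.sum_congr rfl fun a ha => ?_
    rw [h1 k hk a ((Finset.mem_range.1 ha).trans hδ), ← C_mul_X_pow_eq_monomial, mul_assoc,
      map_mul c.D.of (C _), Crv.spoC_C]
  · refine Finset.sum_congr rfl fun j hj => ?_
    rw [sa_map_getD _ _ _ [], if_pos (Finset.mem_range.1 hj), c.spo_ev i hν hk, Crv.spoC_C]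

/-- From `monicize_spec`, `ipows_spec`, `dep_spec`, `dep_iff`, `post_spec`, `obasis_spec`. -/
theorem post_ok {β : OE} {A : List OE} {I : Ideal c.D.O}
    (hI : Ideal.span {x | ∃ γ ∈ A, c.od i γ = x} = I) (hβ : c.od i β ∈ I) (h0 : c.od i β ≠ 0)
    (hc : c.D.CoLe (c.od i β) c.D.n) (hd : (c.D.nrm (c.od i β)).natDegree ≤ c.D.q * c.D.n)
    (hG : (c.π i).Gd (X.postL β A)) :
    (c.π i).Mo (X.postU β A) ∧ (X.postU β A).length - 1 ≤ c.D.q * c.D.n ∧
      c.D.Nm (c.D.sat I) ((c.π i).pd (X.postU β A)) ∧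
      c.Idl i (X.postU β A) (X.postG β A) = c.D.sat I := by
  rw [Par.postL, Ch.gd_append, Ch.gd_append, Ch.gd_append] at hG
  obtain ⟨⟨⟨g1, g2⟩, g3⟩, g4⟩ := hG
  obtain ⟨m1, -, m2, m3⟩ := (c.π i).monicize_spec (c.fix i) g1
    (by rw [c.pd_onrm i hc]; exact c.D.nrm_ne h0)
  rw [c.pd_onrm i hc, ← Par.nu] at m2 m3
  rw [← Par.nu] at m1
  have h1 : c.D.of ((c.π i).pd (X.nu β)) ∈ c.D.Ii I c.D.q := by
    rw [m2, map_mul]
    exact Ideal.mul_mem_left _ _ (c.D.nrm_mem hβ)
  have h2 : c.Idl i (X.nu β) A = I := by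
    rw [Idl, hI]
    exact sup_eq_left.2 ((Ideal.span_singleton_le_iff_mem _).2 (c.D.Ii_q_le I h1))
  have h3 : c.Idl i (X.nu β) ((X.ipows (X.nu β) A).1.getD X.q []) = c.D.Ii I c.D.q := by
    rw [c.hq]
    exact c.ipows_spec i m1 h2 h1 g2 le_rfl
  obtain ⟨t, t1, t2, t3, t4⟩ := c.D.post_spec m1.monic.ne_zero h1
  rw [m1.natDegree] at t4
  have h4 := natDegree_le_of_dvd t2 m1.monic.ne_zero
  rw [m1.natDegree] at h4
  have h5 : (X.pseq (X.nu β)).length = (X.nu β).length := by simp [Par.pseq]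
  obtain ⟨k1, -, k3, -⟩ := (c.π i).dep_shape X.Q (X.pbase (X.nu β) A) (X.pseq (X.nu β))
  obtain ⟨k5, k6⟩ := (c.π i).dep_spec (c.fix i) (w := X.q * ((X.nu β).length - 1))
    (fun r hr => by
      obtain ⟨a, -, rfl⟩ := List.mem_map.1 hr
      exact length_ocs X _ _) g3
  have h6 := fun δ hδ s => c.dep_iff i m1 h3 (δ := δ) hδ s
  have h7 : ∀ P : K[X], P.Monic →
      ∑ a ∈ range P.natDegree, monomial a (P.coeff a) + Polynomial.X ^ P.natDegree = P :=
    fun P hP => by
      conv_rhs => rw [hP.as_sum, add_comm]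
      simp only [C_mul_X_pow_eq_monomial]
  have h8 : X.AB.depIdx X.Q (X.pbase (X.nu β) A) (X.pseq (X.nu β)) ≤ t.natDegree :=
    not_lt.1 fun h => k6 _ h t.coeff ((h6 _ (by omega) _).2 (by
      rw [h7 t t1.monic]; exact (t4 t).2 dvd_rfl))
  have h9 := k3.natDegree
  rw [k1, Nat.add_sub_cancel] at h9
  have h10 := (t4 _).1 ((h6 _ (by omega) _).1 (k5 (by omega)))
  have h15 := h7 _ k3.monic
  simp only [h9, Ch.coeff_pd] at h15
  rw [h15] at h10
  have h11 := eq_of_monic_of_dvd_of_natDegree_le t1.monic k3.monic h10 (by omega)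
  have h12 : c.D.q * c.D.n ≤ X.n ^ 2 := by
    rw [c.hn, sq]; exact Nat.mul_le_mul_right _ c.D.q_le_n
  have h13 : X.postU β A = (X.AB.dep X.Q (X.pbase (X.nu β) A) (X.pseq (X.nu β))).map X.AB.nv := by
    rw [Par.postU, List.take_of_length_le (by omega)]
  have h14 : (c.π i).Mo (X.postU β A) := h13 ▸ k3.map_nv
  rw [Par.postG, c.obasis_spec i h14 A g4, Idl, hI]
  refine ⟨h14, ?_⟩
  rw [h13, Ch.pd_map_nv, h11, List.length_map, k1]
  exact ⟨by omega, t1, t3.symm⟩

end Ctx

end Vale.Agent.P319A
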