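import Vale.Agent.P319A.SSysB
import Vale.Agent.P319A.SPost
import Vale.Agent.P319A.Rat
import Vale.Agent.P319A.Glob

/-!
The invariant of the main loop and the division step in one component.
-/

open Polynomial Finset

namespace Vale.Agent.P319A.Ctx

variable {X : Par} {K : Type} [Field K] (c : Ctx X K)

/-- The invariant after `j` rounds. -/
structure Inv (j : ℕ) (st : St) (I : Fin c.D.n → Ideal c.D.O) (W : c.D.O) : Prop where
  mo : ∀ i, (c.π i).Mo st.1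
  len : st.1.length - 1 ≤ c.D.q * c.D.n
  idl : ∀ i, c.Idl i st.1 st.2.1 = I i
  nm : ∀ i, c.D.Nm (I i) ((c.π i).pd st.1)
  ch : ∀ i, c.D.Chain c.φ j (I i)
  prod : ∏ i, I i = Ideal.span {W}
  lenw : st.2.2.length = c.D.q
  ls : ∀ i, ∀ k < c.D.q, c.LS i (st.2.2.getD k (0, [])) (c.D.ι k W)
  bd : ∀ k, |c.D.deg k W| ≤ 3 * (c.D.n : ℤ) ^ 5
  link : ∀ k, (c.D.n : ℤ) ∣ ((c.D.n : ℤ) ^ 2 - c.D.n1) - dlt^[j] (fun k => c.D.deg k W) k

variable {c} {j : ℕ} {st : St} {I : Fin c.D.n → Ideal c.D.O} {W : c.D.O}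

/-- By `rational` and `amm_spec` in the components of `B ⊗ B`. -/
theorem rr_spec [IsAlgClosed K] (h : c.Inv j st I W) (hj : j < X.rounds) (i : Fin c.D.n) :
    (c.π i).ev (X.cc st.1) ≠ 0 ∧ c.D.f ∣ (c.π i).pd (X.rr st.1) ^ c.D.q -
      C ((c.π i).ev (X.cc st.1)) * (c.π i).pd st.1 := by
  have e1 : (c.π i).ev (X.cc st.1) = ((c.π i).pd st.1).eval (c.D.e i) ^ (c.D.q - 1) := by
    rw [Par.cc, Ch.ev_pow, Ch.ev_peval, c.ev_th, c.hq]
  have h0 := c.D.cop_iff.1 (h.nm i).cop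
  refine ⟨e1 ▸ pow_ne_zero _ (h0 i), c.D.f_dvd_iff.2 fun k => ?_⟩
  obtain ⟨ρ, h1, h2⟩ := Crv.rational c.fφ c.bij c.fψ c.iter (Nat.succ_le_of_lt (hj.trans_le c.ht))
    (h.ch i) (h.nm i) (h.idl i ▸ c.ratI_idl i _ _) (c.map_pd i _) i k
  have e2 : (c.π' i k).ev (X.AC.mul (X.AB.nv (X.cc st.1)) (X.AC.peval (st.1.map X.AB.nv) X.th')) =
      ρ ^ c.D.q := by
    rw [Ch.ev_mul, Ch.ev_peval, c.ev_th', c.ev_low' i k (X.AB.length_nv _).le, Ch.ev_nv, e1, h1]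
    exact congrArg (fun P => _ * eval _ P)
      (((c.π i).pd_low _ _ _ (X.AB.sh_map_nv _)).trans ((c.π i).pd_map_nv _))
  have e3 : (c.π' i k).ev X.s = c.πK.ev X.s :=
    (c.ev_low' i k (c.shs.trans c.AK_le_AB)).trans (c.ev_low i c.shs)
  have h3 : ρ ≠ 0 := fun h3 => mul_ne_zero (pow_ne_zero (c.D.q - 1) (h0 i)) (h0 k) (by
    rw [← h1, h3, zero_pow c.D.hq.ne_zero])
  have h4 : ρ ^ (X.Q - 1) = 1 := mul_right_cancel₀ h3 (by
    rw [← pow_succ, Nat.sub_add_cancel (by have := c.Q2; omega), ← c.hψ, h2, one_mul])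
  have h5 := (c.π' i k).amm_spec (c.fix' i k) (c.hq ▸ c.D.hq) c.dvd (c.hq ▸ c.D.q_ne)
    (e3 ▸ c.s0) (e3 ▸ c.s1) (a := X.AC.mul (X.AB.nv (X.cc st.1))
      (X.AC.peval (st.1.map X.AB.nv) X.th'))
    (by rw [e2, ← pow_mul, ← c.hq, Nat.mul_div_cancel' c.dvd, h4])
  rw [eval_sub, eval_pow, Par.rr, c.ev_rr, ← c.hq, h5, e2, h1, eval_mul, eval_C, e1, sub_self]

theorem Inv.deg_sum (h : c.Inv j st I W) : W ≠ 0 ∧ (∀ k, c.D.ev k W ≠ 0) ∧
    ∑ k ∈ range c.D.q, c.D.deg k W = c.D.n * (st.1.length - 1 : ℕ) := by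
  obtain ⟨h1, h2, -, h3⟩ := Crv.nrm_of_span (h.prod ▸ Crv.Nm.prod univ fun i _ => h.nm i)
  refine ⟨h1, h2, ?_⟩
  rw [h3, natDegree_prod_of_monic _ _ fun i _ => (h.mo i).monic]
  simp [(h.mo _).natDegree]

theorem tau_eq (h : c.Inv j st I W) :
    X.tau st = tauF c.D.q c.D.n (st.1.length - 1) fun k => c.D.deg k W := by
  have e : ∀ k < c.D.q, (st.2.2.getD k (0, [])).1 = c.D.deg k W := fun k hk =>
    (h.ls ⟨0, c.D.q_pos.trans_le c.D.q_le_n⟩ k hk).2.1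
  funext k
  rw [Par.tau, tauF, c.hq, c.hn, Bool.cond_eq_ite, e _ (Nat.mod_lt _ c.D.q_pos)]
  simp only [decide_eq_true_eq]
  congr 2
  refine Eq.trans (b := ∑ l ∈ range (c.D.q - 1), (st.2.2.getD l (0, [])).1 / c.D.n) rfl ?_
  exact sum_congr rfl fun l hl => by rw [e l (by have := mem_range.1 hl; omega)]

theorem Inv.pre [IsAlgClosed K] (h : c.Inv j st I W) (hj : j < X.rounds) (i : Fin c.D.n) :
    c.Pre i st (I i) := by
  obtain ⟨h1, h2, -, h3⟩ := tauF_spec c.D.two_le_q c.D.q_le_n (fun k => c.D.deg_add_q k W)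
    h.deg_sum.2.2 h.bd
  rw [← tau_eq h] at h1 h2 h3
  exact ⟨h.mo i, h.len, h.idl i, ⟨h.nm i, (rr_spec h hj i).1, (rr_spec h hj i).2, h1,
    by rw [h2, (h.mo i).natDegree]⟩, h3⟩

/-- The outcome of the division step in the component `i`. -/
structure Out (c : Ctx X K) (i : Fin c.D.n) (st : St) (I I' : Ideal c.D.O) (gh : c.D.O) :
    Prop where
  mo : (c.π i).Mo (X.postU (X.dβ st) (X.dA st))
  len : (X.postU (X.dβ st) (X.dA st)).length - 1 ≤ c.D.q * c.D.n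
  idl : c.Idl i (X.postU (X.dβ st) (X.dA st)) (X.postG (X.dβ st) (X.dA st)) = I'
  nm : c.D.Nm I' ((c.π i).pd (X.postU (X.dβ st) (X.dA st)))
  rel : c.D.Rel I I' gh (c.D.of ((c.π i).pd (X.postU (X.dβ st) (X.dA st))))
  eq : gh * c.od i (X.dβ st) = c.D.of ((c.π i).pd (X.postU (X.dβ st) (X.dA st))) * c.od i (X.da st)
  β0 : c.od i (X.dβ st) ≠ 0
  a0 : c.od i (X.da st) ≠ 0
  βle : c.D.CoLe (c.od i (X.dβ st)) X.D
  ale : c.D.CoLe (c.od i (X.da st)) X.D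
  βdeg : ∀ k, |c.D.deg k (c.od i (X.dβ st))| ≤ c.D.q * c.D.n
  adeg : ∀ k, |c.D.deg k (c.od i (X.da st)) - c.D.deg k (c.od i (X.dβ st)) - X.tau st k| ≤
    c.D.q ^ 2 * c.D.n

theorem mem_dA {st : St} {γ : OE} : γ ∈ X.dA st ↔ ∃ l < X.q, γ = (X.sol2 st).getD l [] ∨
    ∃ γ' ∈ (X.ipows st.1 st.2.1).1.getD l [],
      X.odiv st.1 (X.omul ((X.sol2 st).getD l []) γ') = γ := by
  simp only [Par.dA, List.mem_flatMap, List.mem_range, List.mem_cons, List.mem_map]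

theorem span_dA {i : Fin c.D.n} {I : Ideal c.D.O} (h : c.Pre i st I)
    (hG : (c.π i).Gd (X.ipows st.1 st.2.1).2)
    (hL : ∀ l < c.D.q, ∀ γ ∈ c.D.Ii I l, c.D.of ((c.π i).pd st.1) ∣ c.td i (X.sol2 st) l * γ) :
    Ideal.span {c.D.of ((c.π i).pd st.1)} * Ideal.span {x | ∃ γ ∈ X.dA st, c.od i γ = x} =
      ∑ l ∈ range c.D.q, Ideal.span {c.td i (X.sol2 st) l} * c.D.Ii I l := by
  have hI := fun l (hl : l < c.D.q) =>
    c.ipows_spec i h.mo h.idl (h.hy.nm.mem le_rfl) hG hl.le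
  have hm : ∀ l < c.D.q, ∀ γ ∈ (X.ipows st.1 st.2.1).1.getD l [], c.od i γ ∈ c.D.Ii I l :=
    fun l hl γ hγ => hI l hl ▸ Ideal.mem_sup_left (Ideal.subset_span ⟨γ, hγ, rfl⟩)
  have hd : ∀ l < c.D.q, ∀ γ ∈ (X.ipows st.1 st.2.1).1.getD l [], c.D.of ((c.π i).pd st.1) *
      c.od i (X.odiv st.1 (X.omul ((X.sol2 st).getD l []) γ)) =
      c.td i (X.sol2 st) l * c.od i γ := fun l hl γ hγ => by
    rw [c.od_odiv i h.mo (by rw [c.od_omul]; exact hL l hl _ (hm l hl γ hγ)), c.od_omul, td]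
  rw [Ideal.sum_eq_sup]
  refine le_antisymm ?_ (Finset.sup_le fun l hl => ?_)
  · rw [Ideal.span_mul_span', Ideal.span_le]
    rintro _ ⟨_, rfl, _, ⟨γ, hγ, rfl⟩, rfl⟩
    obtain ⟨l, hl, hγ⟩ := mem_dA.1 hγ
    rw [c.hq] at hl
    refine Finset.le_sup (f := fun l => Ideal.span {c.td i (X.sol2 st) l} * c.D.Ii I l)
      (mem_range.2 hl) ?_
    beta_reduce
    rcases hγ with rfl | ⟨γ', h1, rfl⟩
    · rw [mul_comm (c.D.of _)]
      exact Ideal.mul_mem_mul (Ideal.mem_span_singleton_self _) (h.hy.nm.mem hl.le)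
    · rw [hd l hl γ' h1]
      exact Ideal.mul_mem_mul (Ideal.mem_span_singleton_self _) (hm l hl γ' h1)
  · have hl' := mem_range.1 hl
    rw [← hI l hl', Idl, Ideal.mul_sup, sup_le_iff, Ideal.span_mul_span', Ideal.span_le,
      mul_comm (Ideal.span {c.td i (X.sol2 st) l})]
    have hl2 : l < X.q := c.hq ▸ hl'
    refine ⟨?_, Ideal.mul_mono_right ((Ideal.span_singleton_le_iff_mem _).2
      (Ideal.subset_span ⟨_, mem_dA.2 ⟨l, hl2, Or.inl rfl⟩, rfl⟩))⟩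
    rintro _ ⟨_, rfl, _, ⟨γ, hγ, rfl⟩, rfl⟩
    beta_reduce
    rw [← hd l hl' γ hγ]
    exact Ideal.mul_mem_mul (Ideal.mem_span_singleton_self _)
      (Ideal.subset_span ⟨_, mem_dA.2 ⟨l, hl2, Or.inr ⟨γ, hγ, rfl⟩⟩, rfl⟩)

/-- From `sol_spec`, `ns3`, `ns_rel`, `ns_deg`, `post_ok`, `rel_sat`; `I' = sat A` where `A` is
spanned by `dA`, and `(u) A = ∑ (b i) Ii I i` by `od_odiv` and `ipows_spec`. -/
theorem div_spec [IsAlgClosed K] {i : Fin c.D.n} {I : Ideal c.D.O} (h : c.Pre i st I)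
    (hG : (c.π i).Gd (X.solL st)) (hG' : (c.π i).Gd (X.postL (X.dβ st) (X.dA st))) :
    ∃ I' gh, c.Out i st I I' gh := by
  obtain ⟨L1, O1, L2, O2, F⟩ := sol_spec h hG
  have hq := c.D.q_pos
  have hβ : c.D.of ((c.π i).pd st.1) * c.od i (X.dβ st) = c.td i (X.sol2 st) 0 :=
    c.od_odiv i h.mo (by simpa [td] using L2.1 0 hq 1 (by simp [c.D.Ii_zero]))
  have ha : c.od i (X.da st) = c.D.of (C ((c.π i).ev (X.cc st.1))) *
      c.D.s 1 (c.td i (X.sol2 st) (c.D.q - 1)) := by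
    rw [Par.da, c.od_opm, c.od_osig, Ch.pd_single, c.hq, td]
  obtain ⟨β0, hb, hN⟩ := Crv.ns3 h.hy L1 O1 L2 O2 F hβ
  obtain ⟨hR, hA⟩ := Crv.ns_rel h.hy.nm h.hy.hc hβ hb
    (span_dA h (((c.π i).gd_append.1 ((c.π i).gd_append.1 hG).1).1) L2.1)
  obtain ⟨d1, d2⟩ := Crv.ns_deg h.hy O2 hβ β0 hN
  have u0 := h.hy.nm.monic.ne_zero
  have hc : c.D.CoLe (c.od i (X.dβ st)) c.D.n := c.D.coLe_of_Dg fun k hk => by
    have h1 := (O2.1 0 hq k hk).dg_le (c.D.ι_ne k (hβ ▸ mul_ne_zero (c.D.of_ne u0) β0))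
    have h2 := c.D.deg_mul k (c.D.of_ne u0) β0
    rw [hβ, c.D.deg_of, Crv.deg, Crv.deg] at h2
    refine (Dg_dg _).mono ?_
    rw [ts, sum_range_zero] at h1
    split_ifs at h1 <;> omega
  obtain ⟨p1, p2, p3, p4⟩ := c.post_ok i rfl hA β0 hc d1 hG'
  rw [← ha] at hN hR d2
  obtain ⟨gh, g1, g2⟩ := Crv.rel_sat hR hA β0 p3
  refine ⟨_, gh, p1, p2, p4, p3, g2, g1, β0, fun a0 => ?_, hc.mono ?_, ?_,
    fun k => (d2 k).1, fun k => (d2 k).2⟩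
  · have h1 := c.D.mul_cof (c.od i (X.da st))
    rw [hN, a0, zero_mul] at h1
    exact c.D.of_ne (mul_ne_zero (mul_ne_zero (C_ne_zero.2 h.hy.hc) u0) (c.D.nrm_ne β0)) h1.symm
  · rw [Par.D, c.hn]
    exact (Nat.le_self_pow (by norm_num) _).trans (Nat.le_mul_of_pos_left _ (by norm_num))
  · have h0 : c.D.CoLe (c.td i (X.sol2 st) (c.D.q - 1)) X.D := c.sm_tup i _ _
    have h1 := (h0.s 1).of_mul (C ((c.π i).ev (X.cc st.1)))
    rwa [natDegree_C, zero_add, ← ha] at h1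

end Vale.Agent.P319A.Ctx
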