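import Vale.Agent.P319A.STower

/-!
The entries of the table: the prime two, normal forms, the auxiliary prime.
-/

open Polynomial Finset

namespace Vale.Agent.P319A

theorem sent_lt {l : ℕ} (hl : 0 < l) (a : Vec) (L : List Bool) : ∀ x : Vec, x.headD 0 < l →
    (L.foldl (fun x b => bif b then (A1 l).mul ((A1 l).mul x x) a else (A1 l).mul x x) x).headD 0
      < l := by
  induction L with
  | nil => exact fun _ h => h
  | cons b L ih =>
    refine fun x _ => ih _ ?_
    cases b <;> exact (Nat.min_le_left _ _).trans_lt (Nat.mod_lt _ hl)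

theorem cast_pw {l : ℕ} (hl : 0 < l) (a e : ℕ) : (pw l a e : ZMod l) = (a : ZMod l) ^ e := by
  have h := (ch1 l (ZMod l) hl (ZMod.natCast_self l)).ev_pow [a] e
  rw [Ch.ev_lit, ev_ch1] at h
  rw [← h, pw, List.headD_eq_head?_getD, List.head?_eq_getElem?, List.getD_eq_getElem?_getD]

theorem pw_spec {l : ℕ} (hl : 2 ≤ l) (a e : ℕ) : pw l a e = a ^ e % l := by
  have h := cast_pw (by omega : 0 < l) a e
  rw [← Nat.cast_pow, ZMod.natCast_eq_natCast_iff'] at h
  exact (Nat.mod_eq_of_lt (sent_lt (by omega) _ _ _ hl)).symm.trans h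

theorem pw_eq {l : ℕ} (hl : 2 ≤ l) (a e b k : ℕ) :
    pw l a e = pw l b k ↔ (a : ZMod l) ^ e = (b : ZMod l) ^ k := by
  rw [pw_spec hl, pw_spec hl, ← ZMod.natCast_eq_natCast_iff', Nat.cast_pow, Nat.cast_pow]

theorem pw_eq_one {l : ℕ} (hl : 2 ≤ l) (a e : ℕ) : pw l a e = 1 ↔ (a : ZMod l) ^ e = 1 := by
  rw [← pow_zero (a : ZMod l), ← pw_eq hl]
  rfl

variable {p : ℕ} [Fact p.Prime]

theorem sent_sq (hp : 2 < p) (a : ZMod p) : IsSquare a ↔ a = 0 ∨ a ^ ((p - 1) / 2) = 1 := by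
  rcases eq_or_ne a 0 with rfl | h
  · simp
  · have := (Fact.out : p.Prime).eq_two_or_odd
    rw [ZMod.euler_criterion p h, show (p - 1) / 2 = p / 2 by omega]
    simp [h]

theorem qnr_spec {B : ℕ} (hp : 2 < p) (h : ∃ a ≤ B, ¬ IsSquare (a : ZMod p)) :
    ¬ IsSquare (qnr B p : ZMod p) ∧ ∀ a < qnr B p, IsSquare (a : ZMod p) := by
  obtain ⟨a, ha, h⟩ := h
  have h1 : ∀ a : ℕ, (!(a % p == 0) && !(pw p a ((p - 1) / 2) == 1)) = true ↔
      ¬IsSquare (a : ZMod p) := fun a => by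
    simp [sent_sq hp, pw_eq_one hp.le, ZMod.natCast_eq_zero_iff, Nat.dvd_iff_mod_eq_zero]
  refine ⟨(h1 _).1 (first_true (f := fun a => !(a % p == 0) && !(pw p a ((p - 1) / 2) == 1))
    (Nat.lt_succ_of_le ha) ((h1 a).2 h)), fun b hb => by_contra fun h2 => ?_⟩
  exact Bool.false_ne_true (((first_spec _ _).2 b hb).symm.trans ((h1 b).2 h2))

theorem sent_neg (hp : 2 < p) : IsPrimitiveRoot (((p - 1 : ℕ) : Kb p)) 2 := by
  rw [Nat.cast_sub (by omega), CharP.cast_eq_zero, Nat.cast_one, zero_sub]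
  exact IsPrimitiveRoot.neg_one p hp.ne'

/-- For `p ≡ 3 (mod 4)`: with `a` the least nonresidue, `x ^ 2 = a - 1`, `z ^ 2 = -1`, the element
`ν = x + z` has `ν ^ (p + 1) = (x - z) (x + z) = a`. -/
theorem entry2_good {B : ℕ} (hp : 2 < p) (h : ∃ a ≤ B, ¬ IsSquare (a : ZMod p)) :
    GoodEnt p 2 (entry2 B p) := by
  obtain ⟨h1, h2⟩ := qnr_spec hp h
  have h3 := (Fact.out : p.Prime).eq_two_or_odd
  have h4 := not_or.1 (mt (sent_sq hp _).2 h1)
  have h5 : ((qnr B p : ℕ) : Kb p) ≠ 0 ∧ ((qnr B p : ℕ) : Kb p) ^ ((p - 1) / 2) ≠ 1 := by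
    rw [← map_natCast (algebraMap (ZMod p) (Kb p)), ← map_pow]
    exact ⟨(_root_.map_ne_zero _).2 h4.1, fun h => h4.2 ((algebraMap (ZMod p) (Kb p)).injective
      (h.trans (map_one _).symm))⟩
  unfold entry2
  by_cases h6 : p % 4 = 1
  · rw [beq_iff_eq.2 h6, cond_true]
    refine ⟨⟨by simp, by simp⟩, by simp [Sh], ?_, by simp, by simp, by simp, ?_, fun _ => ?_,
      fun z _ => ?_⟩
    · simpa [Ch.pd_cons] using irreducible_X
    · exact (show 2 ∣ p ^ 1 - 1 by rw [pow_one]; omega)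
    · exact (show 4 ∣ p ^ 1 - 1 by rw [pow_one]; omega)
    · simpa [evz, CharP.cast_eq_mod] using And.intro (sent_neg hp) h5
  · rw [beq_eq_false_iff_ne.2 h6, cond_false]
    obtain ⟨k, hk⟩ : ∃ k, p = 4 * k + 3 := ⟨p / 4, by omega⟩
    have k0 : (z1 p).pd [[1], [0], [1]] = X ^ 2 + 1 := by simp [Ch.pd_cons, add_comm, sq]
    have k1 : p ^ 2 - 1 = 2 * ((p + 1) * ((p - 1) / 2)) ∧ 4 ∣ p ^ 2 - 1 := by
      rw [show (p - 1) / 2 = 2 * k + 1 by omega, show p ^ 2 = 4 * (4 * k ^ 2 + 6 * k + 2) + 1 by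
        rw [hk]; ring, hk]
      exact ⟨by rw [Nat.add_sub_cancel]; ring, by simp⟩
    refine ⟨⟨by simp, by simp⟩, by simp [Sh], ?_, by simp, by simp, by simp, ⟨_, k1.1⟩,
      fun _ => k1.2, fun z hz => ?_⟩
    · rw [k0]
      refine irreducible_of_degree_le_three_of_not_isRoot (by
        rw [← C_1, natDegree_X_pow_add_C]; simp) fun x hx => ?_
      exact ZMod.mod_four_ne_three_of_sq_eq_neg_one (p := p) (y := x)
        (eq_neg_of_add_eq_zero_left (by simpa using hx)) (by omega)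
    · have k2 : z ^ 2 = -1 := eq_neg_of_add_eq_zero_left (by simpa [k0] using hz)
      have k3 : 0 < qnr B p := Nat.pos_of_ne_zero fun h => h4.1 (by simp [h])
      obtain ⟨y, hy⟩ := h2 (qnr B p - 1) (by omega)
      have k4 : (pw p (qnr B p - 1) ((p + 1) / 4) : ZMod p) ^ 2 + 1 = qnr B p := by
        rw [cast_pw (by omega), hy, ← sq, ← pow_mul, ← pow_mul,
          show 2 * ((p + 1) / 4 * 2) = p + 1 by omega, pow_succ, ZMod.pow_card, ← hy]
        exact_mod_cast congrArg (Nat.cast (R := ZMod p)) (Nat.sub_add_cancel k3)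
      have k5 := congrArg (algebraMap (ZMod p) (Kb p)) k4
      simp only [map_add, map_pow, map_natCast, map_one] at k5
      have k6 : ((pw p (qnr B p - 1) ((p + 1) / 4) : Kb p) + z) ^ (p + 1) = qnr B p := by
        rw [pow_succ, add_pow_char, ← frobenius_def, map_natCast, ← k5]
        have : z ^ p = (z ^ 2) ^ (2 * k + 1) * z := by
          rw [← pow_mul, ← pow_succ, show 2 * (2 * k + 1) + 1 = p by omega]
        rw [this, k2, Odd.neg_one_pow ⟨k, rfl⟩]
        linear_combination -k2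
      have k7 : evz 2 [pw p (qnr B p - 1) ((p + 1) / 4), 1] z =
          (pw p (qnr B p - 1) ((p + 1) / 4) : Kb p) + z := by simp [evz, Finset.sum_range_succ]
      refine ⟨by simpa [evz, Finset.sum_range_succ] using sent_neg hp,
        fun h => h5.1 (by rw [← k6, k7.symm.trans h, zero_pow p.succ_ne_zero]), fun h => h5.2 ?_⟩
      rw [← k6, ← pow_mul, ← k7, ← h]
      congr 1
      exact (Nat.div_eq_of_eq_mul_right two_pos k1.1).symm

theorem sent_evz (d : ℕ) (v : Vec) (z : Kb p) : evz d (v.map (rd p)) z = evz d v z :=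
  Finset.sum_congr rfl fun a _ => by
    have h1 : rd p 0 = 0 := by simp [rd]
    rw [← h1, List.getD_map, h1]
    exact congrArg (· * _) ((k1 p).cast_rd _)

theorem efix_good {q N : ℕ} {E : Ent} (h : GoodEnt p q E) (hq : q ≤ N) :
    GoodEnt p q (efix p N E) := by
  have h1 := h.len
  have h2 := h.shζ
  have h3 := h.shν
  rw [efix, List.take_of_length_le (by omega), List.take_of_length_le (by omega),
    List.take_of_length_le (by omega)]
  refine ⟨h.mo.map_nv, (A1 p).sh_map_nv _, by simpa using h.irr, by simpa using h1,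
    by simpa using h2, by simpa using h3, by simpa using h.dvd, by simpa using h.four,
    fun z hz => ?_⟩
  simpa only [List.length_map, sent_evz] using h.root z (by simpa using hz)

/-- The defining properties of an auxiliary prime. -/
def IsAux (p q l : ℕ) : Prop :=
  l.Prime ∧ l ≠ p ∧ q ∣ l - 1 ∧ (p : ZMod l) ^ ((l - 1) / q) ≠ 1

omit [Fact p.Prime] in
theorem auxP_spec {B q : ℕ} (h : ∃ l ≤ B, IsAux p q l) : IsAux p q (auxP B p q) := by
  obtain ⟨l, hl, h⟩ := h
  have h1 : ∀ l ≤ B, (decide (2 ≤ l) && (List.range B).all (fun a => decide (a < 2) ||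
      decide (l ≤ a) || !(l % a == 0)) && !(l == p) && (l - 1) % q == 0 &&
      !(pw l p ((l - 1) / q) == 1)) = true ↔ IsAux p q l := fun l hl => by
    simp only [IsAux, Bool.and_eq_true, decide_eq_true_eq, List.all_eq_true, List.mem_range,
      Bool.or_eq_true, Bool.not_eq_true', beq_eq_false_iff_ne, beq_iff_eq, and_assoc,
      Nat.prime_def_lt', Nat.dvd_iff_mod_eq_zero]
    refine and_congr_right fun h2 => and_congr ⟨fun h a h3 h4 => ?_, fun h a _ => ?_⟩ ?_
    · have := h a (by omega)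
      omega
    · have := h a
      omega
    · rw [ne_eq, ne_eq, ne_eq, pw_eq_one h2]
  have h2 : auxP B p q ≤ B := (first_le_of ((h1 l hl).2 h)).trans hl
  exact (h1 _ h2).1 ((first_spec _ _).1 (Nat.lt_succ_of_le h2))

end Vale.Agent.P319A
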