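import Vale.Agent.P319A.CLin
import Vale.Agent.P319A.SAlg

/-!
Correctness of Gaussian elimination in every component with a good log.

Write `X z k = π.ev (z.getD k [])`. Invariant for the stored rows `(k, v)` after `j` insertions
(use `foldLog_range`): `k < w`, `X v k = 1`, later rows vanish at earlier pivots, every stored `v`
is consistent (`X v k' = ∑ j, X v (w + j) * X (rows j) k'` for `k' < w`), and the head (first `w`
entries) of every inserted row is a combination of the heads of the stored rows. For `red`: the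
difference `X (red st x) - X x` is a combination of stored rows and `red st x` vanishes at all
pivots; a combination of stored heads vanishing at all pivots is zero.
-/

open Finset

namespace Vale.Agent.P319A.Ch

variable {A : Alg} {K : Type} [Field K] (π : Ch A K)

/-- The target is the combination of the rows with coefficients `x` (first `w` columns). -/
def Comb (w : ℕ) (rows : List Pol) (x : ℕ → K) (tgt : Pol) : Prop :=
  ∀ k < w, ∑ j ∈ range rows.length, x j * π.ev ((rows.getD j []).getD k []) = π.ev (tgt.getD k [])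

theorem piv_spec {w : ℕ} {y : Pol} (hG : π.Gd (y.take w)) :
    A.piv w y ≤ w ∧ (A.piv w y < w → π.ev (y.getD (A.piv w y) []) ≠ 0) ∧
      ∀ k < A.piv w y, π.ev (y.getD k []) = 0 := by
  obtain ⟨h1, h2⟩ := first_spec w fun k => !A.isZ (y.getD k [])
  refine ⟨first_le _ _, fun h h0 => ?_, fun k hk => π.ev_of_isZ (by simpa using h2 k hk)⟩
  have h3 : A.isZ (y.getD (A.piv w y) []) = false := by simpa [Alg.piv] using h1 h
  rcases lt_or_ge (A.piv w y) y.length with h4 | h4
  · rw [hG _ (by
      rw [List.getD_eq_getElem _ _ h4]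
      exact List.mem_take_iff_getElem.2 ⟨_, lt_min h h4, rfl⟩) h0] at h3
    simp at h3
  · rw [List.getD_eq_default _ _ h4] at h3
    simp [Alg.isZ] at h3

/-- The values of a row. -/
def slX (z : Pol) : ℕ → K := fun k => π.ev (z.getD k [])

/-- The span of the stored rows. -/
def slS (st : List (ℕ × Pol)) : Submodule K (ℕ → K) :=
  Submodule.span K {z | z ∈ st.map fun kv => π.slX kv.2}

/-- Vectors with zero head. -/
def slH (K : Type) [Field K] (w : ℕ) : Submodule K (ℕ → K) where
  carrier := {z | ∀ k < w, z k = 0}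
  add_mem' h h' k hk := by simp [h k hk, h' k hk]
  zero_mem' _ _ := rfl
  smul_mem' c z h k hk := by simp [h k hk]

/-- Consistent vectors. -/
def slU (w : ℕ) (rows : List Pol) : Submodule K (ℕ → K) where
  carrier := {z | ∀ k < w, z k = ∑ j ∈ range rows.length, z (w + j) * π.slX (rows.getD j []) k}
  add_mem' h h' k hk := by
    simp only [Pi.add_apply, add_mul, Finset.sum_add_distrib, ← h k hk, ← h' k hk]
  zero_mem' _ _ := by simp
  smul_mem' c z h k hk := by
    simp only [Pi.smul_apply, smul_eq_mul, mul_assoc, ← Finset.mul_sum, ← h k hk]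

theorem sl_mem {st : List (ℕ × Pol)} {kv : ℕ × Pol} (h : kv ∈ st) : π.slX kv.2 ∈ π.slS st :=
  Submodule.subset_span (List.mem_map.2 ⟨kv, h, rfl⟩)

theorem sl_le {st : List (ℕ × Pol)} {U : Submodule K (ℕ → K)} (h : ∀ kv ∈ st, π.slX kv.2 ∈ U) :
    π.slS st ≤ U := Submodule.span_le.2 fun z hz => by
  obtain ⟨kv, h1, rfl⟩ := List.mem_map.1 hz
  exact h kv h1

theorem sl_zero {st : List (ℕ × Pol)} {k : ℕ} (h : ∀ kv ∈ st, π.slX kv.2 k = 0) {z : ℕ → K}
    (hz : z ∈ π.slS st) : z k = 0 :=
  π.sl_le (U := LinearMap.ker (LinearMap.proj k)) h hz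

theorem sl_raxpy (c : Vec) {x y : Pol} (h : y.length ≤ x.length) :
    π.slX (A.raxpy c x y) = π.slX x - π.ev c • π.slX y := by
  funext k
  simp only [slX, Alg.raxpy, sa_getD, Pi.sub_apply, Pi.smul_apply, smul_eq_mul]
  split_ifs with h1
  · rw [ev_sub, ev_mul]
  · rw [List.getD_eq_default x _ (by omega), List.getD_eq_default y _ (by omega), ev_nil]
    simp

theorem sl_red {T : ℕ} {st : List (ℕ × Pol)} (h : ∀ kv ∈ st, kv.2.length = T)
    (h1 : ∀ kv ∈ st, π.slX kv.2 kv.1 = 1)
    (h2 : st.Pairwise fun a b => π.slX b.2 a.1 = 0) : ∀ x : Pol, x.length = T →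
    (A.red st x).length = T ∧ π.slX (A.red st x) - π.slX x ∈ π.slS st ∧
      ∀ kv ∈ st, π.slX (A.red st x) kv.1 = 0 := by
  induction st with
  | nil => simp [Alg.red]
  | cons kv st ih =>
    intro x hx
    rw [List.pairwise_cons] at h2
    have h3 := π.sl_raxpy (x.getD kv.1 []) (x := x) (y := kv.2) (by rw [h kv (by simp), hx])
    obtain ⟨k1, k2, k3⟩ := ih (fun a ha => h a (by simp [ha])) (fun a ha => h1 a (by simp [ha]))
      h2.2 (A.raxpy (x.getD kv.1 []) x kv.2) (by simp [Alg.raxpy, hx])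
    have h4 : A.red (kv :: st) x = A.red st (A.raxpy (x.getD kv.1 []) x kv.2) := rfl
    rw [h4]
    refine ⟨k1, ?_, ?_⟩
    · have h5 := sub_mem (π.sl_le (U := π.slS (kv :: st)) (fun a ha => π.sl_mem (by simp [ha])) k2)
        (Submodule.smul_mem _ (π.ev (x.getD kv.1 [])) (π.sl_mem (kv := kv) (by simp)))
      rwa [h3, sub_sub, sub_add_cancel] at h5
    · intro a ha
      rcases List.mem_cons.1 ha with rfl | ha
      · have h5 := π.sl_zero h2.1 k2
        rw [h3, Pi.sub_apply, Pi.sub_apply, Pi.smul_apply, h1 a (by simp), smul_eq_mul,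
          mul_one] at h5
        exact (sub_eq_zero.1 h5).trans (sub_self _)
      · exact k3 a ha

theorem sl_head {w : ℕ} {st : List (ℕ × Pol)} (h : ∀ kv ∈ st, kv.1 < w)
    (h1 : ∀ kv ∈ st, π.slX kv.2 kv.1 = 1) (h2 : st.Pairwise fun a b => π.slX b.2 a.1 = 0) :
    ∀ z ∈ π.slS st ⊔ slH K w, (∀ kv ∈ st, z kv.1 = 0) → z ∈ slH K w := by
  induction st with
  | nil => simp [slS]
  | cons kv st ih =>
    intro z hz h3
    rw [List.pairwise_cons] at h2
    obtain ⟨a, ha, b, hb, rfl⟩ := Submodule.mem_sup.1 hz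
    rw [slS, List.map_cons, List.setOfPred_mem_cons, Submodule.mem_span_insert] at ha
    obtain ⟨c, a, ha, rfl⟩ := ha
    have h4 := h3 kv (by simp)
    simp only [Pi.add_apply, Pi.smul_apply, h1 kv (by simp), π.sl_zero h2.1 ha,
      hb kv.1 (h kv (by simp)), smul_eq_mul, mul_one, add_zero] at h4
    rw [h4, zero_smul, zero_add] at h3 ⊢
    exact ih (fun a ha => h a (by simp [ha])) (fun a ha => h1 a (by simp [ha])) h2.2 _
      (Submodule.add_mem_sup ha hb) fun a ha => h3 a (by simp [ha])

/-- The inserted rows. -/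
def slR (w : ℕ) (rows : List Pol) (j : ℕ) : Pol :=
  ((List.range w).map fun k => (rows.getD j []).getD k []) ++ xpow rows.length j

theorem slR_length (w : ℕ) (rows : List Pol) (j : ℕ) :
    (slR w rows j).length = w + rows.length := by simp [slR, xpow]

theorem slR_lt {w k : ℕ} (rows : List Pol) (j : ℕ) (h : k < w) :
    π.slX (slR w rows j) k = π.slX (rows.getD j []) k := by
  rw [slX, slR, List.getD_append _ _ _ _ (by simpa using h), sa_getD, if_pos h, slX]

theorem slR_mem (w : ℕ) {rows : List Pol} {j : ℕ} (hj : j < rows.length) :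
    π.slX (slR w rows j) ∈ π.slU w rows := fun k hk => by
  have h : ∀ i, π.slX (slR w rows j) (w + i) = if i = j then 1 else 0 := fun i => by
    rw [slX, slR, List.getD_append_right _ _ _ _ (by simp), ← coeff_pd, π.pd_xpow hj,
      Polynomial.coeff_X_pow]
    simp
  simp [h, hj, π.slR_lt rows j hk]

theorem sl_ech {Q w : ℕ} (hQ : π.Fix Q) {rows : List Pol} (hG : π.Gd (A.ech Q w rows).2) :
    (∀ kv ∈ (A.ech Q w rows).1, kv.1 < w ∧ kv.2.length = w + rows.length ∧
      π.slX kv.2 kv.1 = 1 ∧ π.slX kv.2 ∈ π.slU w rows) ∧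
    ((A.ech Q w rows).1.Pairwise fun a b => π.slX b.2 a.1 = 0) ∧
    ∀ i < rows.length, π.slX (slR w rows i) ∈ π.slS (A.ech Q w rows).1 ⊔ slH K w := by
  refine foldLog_range (fun st j => A.ins Q w st (slR w rows j)) []
    (fun v => π.ev v = 0 → A.isZ v = true)
    (fun j st => (∀ kv ∈ st, kv.1 < w ∧ kv.2.length = w + rows.length ∧
      π.slX kv.2 kv.1 = 1 ∧ π.slX kv.2 ∈ π.slU w rows) ∧
      (st.Pairwise fun a b => π.slX b.2 a.1 = 0) ∧
      ∀ i < j, π.slX (slR w rows i) ∈ π.slS st ⊔ slH K w) (by simp) _ ?_ hG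
  rintro j hj st ⟨h1, h2, h3⟩ h4
  obtain ⟨k1, k2, k3⟩ := π.sl_red (fun a ha => (h1 a ha).2.1) (fun a ha => (h1 a ha).2.2.1) h2 _
    (slR_length w rows j)
  obtain ⟨-, p2, p3⟩ := π.piv_spec (w := w) (y := A.red st (slR w rows j)) h4
  simp only [Alg.ins]
  generalize A.red st (slR w rows j) = y at *
  by_cases h : A.piv w y < w
  · rw [decide_eq_true h, cond_true]
    have h5 : π.slX (A.psm (A.inv Q (y.getD (A.piv w y) [])) y) =
        (π.slX y (A.piv w y))⁻¹ • π.slX y := by
      funext k
      rw [slX, ← coeff_pd, pd_psm, Polynomial.coeff_C_mul, coeff_pd, π.ev_inv hQ (p2 h)]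
      rfl
    have h6 : π.slS st ≤ π.slS (st ++ [(A.piv w y, A.psm (A.inv Q (y.getD (A.piv w y) [])) y)]) :=
      π.sl_le fun a ha => π.sl_mem (by simp [ha])
    refine ⟨fun a ha => ?_, List.pairwise_append.2 ⟨h2, by simp, fun a ha b hb => ?_⟩,
      fun i hi => ?_⟩
    · rcases List.mem_append.1 ha with ha | ha
      · exact h1 a ha
      · rw [List.mem_singleton.1 ha]
        refine ⟨h, by simpa [Alg.psm] using k1, ?_, ?_⟩
        · rw [h5]
          exact inv_mul_cancel₀ (p2 h)
        · rw [h5]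
          simpa using Submodule.smul_mem _ _
            (add_mem (π.sl_le (fun a ha => (h1 a ha).2.2.2) k2) (π.slR_mem w hj))
    · rw [List.mem_singleton.1 hb, h5, Pi.smul_apply, k3 a ha, smul_zero]
    · rcases Nat.lt_succ_iff_lt_or_eq.1 hi with hi | rfl
      · exact sup_le_sup_right h6 _ (h3 i hi)
      · refine Submodule.mem_sup_left ?_
        have h7 := Submodule.smul_mem _ (π.slX y (A.piv w y)) (π.sl_mem
          (st := st ++ [(A.piv w y, A.psm (A.inv Q (y.getD (A.piv w y) [])) y)])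
          (List.mem_append_right _ (List.mem_singleton_self _)))
        rw [h5, smul_inv_smul₀ (show π.slX y (A.piv w y) ≠ 0 from p2 h)] at h7
        simpa using sub_mem h7 (h6 k2)
  · rw [decide_eq_false h, cond_false]
    refine ⟨h1, h2, fun i hi => ?_⟩
    rcases Nat.lt_succ_iff_lt_or_eq.1 hi with hi | rfl
    · exact h3 i hi
    · have h5 : π.slX y ∈ slH K w := fun k hk => p3 k (by omega)
      simpa using sub_mem (Submodule.mem_sup_right h5) (Submodule.mem_sup_left k2)

theorem solve_spec {Q : ℕ} (hQ : π.Fix Q) {rows : List Pol} {tgt : Pol}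
    (hG : π.Gd (A.slog Q rows tgt)) :
    (A.solvable Q rows tgt = true ↔ ∃ x, π.Comb tgt.length rows x tgt) ∧
      (A.solvable Q rows tgt = true →
        π.Comb tgt.length rows (fun j => π.ev ((A.solve Q rows tgt).getD j [])) tgt) := by
  rw [Alg.slog, gd_append] at hG
  obtain ⟨h1, h2, h3⟩ := π.sl_ech hQ hG.1
  obtain ⟨-, k2, k3⟩ := π.sl_red (fun a ha => (h1 a ha).2.1) (fun a ha => (h1 a ha).2.2.1) h2
    (tgt ++ rows.map fun _ => []) (by simp)
  obtain ⟨p1, p2, p3⟩ := π.piv_spec hG.2
  have t1 : π.slX (tgt ++ rows.map fun _ => []) = π.slX tgt := by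
    funext k
    rcases lt_or_ge k tgt.length with h | h
    · rw [slX, List.getD_append _ _ _ _ h, slX]
    · rw [slX, List.getD_append_right _ _ _ _ h, sa_map_getD _ _ _ [], ite_self, slX,
        List.getD_eq_default _ _ h]
  rw [t1] at k2
  have s1 : A.solvable Q rows tgt = true ↔ π.slX (A.rtgt Q rows tgt) ∈ slH K tgt.length := by
    rw [Alg.solvable, beq_iff_eq]
    exact ⟨fun h k hk => p3 k (by omega), fun h => by_contra fun h' =>
      p2 (by omega) (h _ (by omega))⟩
  have s2 : A.solvable Q rows tgt = true →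
      π.Comb tgt.length rows (fun j => π.ev ((A.solve Q rows tgt).getD j [])) tgt := by
    intro h k hk
    have h4 := π.sl_le (fun a ha => (h1 a ha).2.2.2) k2 k hk
    rw [Pi.sub_apply, show π.slX (A.red _ _) k = 0 from s1.1 h k hk, zero_sub,
      neg_eq_iff_eq_neg, ← Finset.sum_neg_distrib] at h4
    refine Eq.trans (Finset.sum_congr rfl fun j hj => ?_) h4.symm
    have h5 : π.slX tgt (tgt.length + j) = 0 := by
      rw [slX, List.getD_eq_default _ _ (by omega), ev_nil]
    beta_reduce
    rw [Alg.solve, sa_getD, if_pos (Finset.mem_range.1 hj), ev_neg, Pi.sub_apply, h5, sub_zero,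
      neg_mul]
    rfl
  refine ⟨⟨fun h => ⟨_, s2 h⟩, fun ⟨x, hx⟩ => s1.2 ?_⟩, s2⟩
  refine π.sl_head (fun a ha => (h1 a ha).1) (fun a ha => (h1 a ha).2.2.1) h2 _ ?_ k3
  have h4 := Submodule.sum_mem _ fun i (hi : i ∈ range rows.length) =>
    Submodule.smul_mem _ (x i) (h3 i (Finset.mem_range.1 hi))
  have h5 : π.slX tgt - ∑ i ∈ range rows.length, x i • π.slX (slR tgt.length rows i) ∈
      slH K tgt.length := fun k hk => by
    simp only [Pi.sub_apply, Finset.sum_apply, Pi.smul_apply, π.slR_lt rows _ hk, smul_eq_mul]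
    exact sub_eq_zero.2 (hx k hk).symm
  simpa [Alg.rtgt] using add_mem (Submodule.mem_sup_left k2) (add_mem (Submodule.mem_sup_right h5) h4)

end Vale.Agent.P319A.Ch
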