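import Vale.Agent.P319A.SSer
import Vale.Agent.P319A.SLin

/-!
Expansions at infinity, traces, norms, and values at the ramification points.
-/

open Polynomial Finset

namespace Vale.Agent.P319A.Ctx

variable {X : Par} {K : Type} [Field K] (c : Ctx X K)

theorem sx_flat {A : Alg} {R β : Type} [CommRing R] (π : Ch A R) (l : List β) (d : β)
    (G : β → List Vec) :
    π.ev (A.sum (l.flatMap G)) = ∑ k ∈ range l.length, π.ev (A.sum (G (l.getD k d))) := by
  simp only [Ch.ev_sum]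
  induction l with
  | nil => simp
  | cons x l ih =>
    rw [List.flatMap_cons, List.map_append, List.sum_append, ih, List.length_cons,
      Finset.sum_range_succ', add_comm]
    rfl

include c in
theorem sx_n : X.n ≤ X.n ^ 5 ∧ 0 < X.n ^ 5 := by
  have := c.two_le_n
  exact ⟨Nat.le_self_pow (by norm_num) _, by positivity⟩

theorem sx_ser (i : Fin c.D.n) (k : ℕ) {b : OE} (hb : c.D.CoLe (c.od i b) X.D) :
    ∃ S : PowerSeries K, (c.πS i le_rfl).ev (X.ser k b) = mkS X.P1 S ∧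
      c.D.ι k (c.od i b) = HahnSeries.single (-(X.M : ℤ)) 1 * HahnSeries.ofPowerSeries ℤ K S := by
  refine ⟨∑ l ∈ range c.D.q, ∑ a ∈ range (X.M + 1),
    PowerSeries.C (((c.π i).pd (b.getD l [])).coeff a) * (PowerSeries.C c.D.ζ ^ (k * l) *
      (c.D.η ^ l * PowerSeries.X ^ (X.M - l * c.D.n1 - a))), ?_, ?_⟩
  · rw [Par.ser, sx_flat _ _ 0, List.length_range, c.hq, map_sum]
    refine Finset.sum_congr rfl fun l hl => ?_
    rw [Ch.ev_sum_range, map_sum, List.getD_eq_getElem (List.range c.D.q) 0 (by simpa using hl),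
      List.getElem_range]
    refine Finset.sum_congr rfl fun a _ => ?_
    simp only [Ch.ev_mul, Ch.ev_pow, c.πS_low i le_rfl (Alg.length_nv _ _).le, Ch.ev_nv,
      c.πS_low i le_rfl (c.shζ.trans c.AK_le_AB), c.ev_ζ, c.πS_η, c.πS_t, map_mul, map_pow,
      Ch.coeff_pd, c.hn1]
  · have hn := c.sx_n
    rw [od, map_sum, map_sum, Finset.mul_sum]
    refine Finset.sum_congr rfl fun l hl => ?_
    have hl' := Finset.mem_range.1 hl
    have h1 := hb l
    rw [c.co_od i _ hl'] at h1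
    have h2 : l * c.D.n1 ≤ X.n := by
      rw [c.hn, c.D.hn]; exact Nat.mul_le_mul_right _ hl'.le
    set P := (c.π i).pd (b.getD l []) with hP
    rw [map_mul, map_pow, Crv.ι_of, Crv.ι_y, map_sum, Finset.mul_sum]
    conv_lhs => rw [P.as_sum_range' (X.M + 1) (by unfold Par.D at h1; unfold Par.M; omega), map_sum,
      Finset.sum_mul]
    refine Finset.sum_congr rfl fun a _ => ?_
    rcases lt_or_ge X.D a with h | h
    · simp [coeff_eq_zero_of_natDegree_lt (h1.trans_lt h)]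
    have e : (HahnSeries.single (-(X.M : ℤ)) (1 : K) : LaurentSeries K) *
        HahnSeries.single ((X.M - l * c.D.n1 - a : ℕ) : ℤ) 1 =
        HahnSeries.single (-(a : ℤ)) 1 * HahnSeries.single (-(c.D.n1 : ℤ)) 1 ^ l := by
      rw [HahnSeries.single_pow, HahnSeries.single_mul_single, HahnSeries.single_mul_single,
        one_pow]
      congr 2
      unfold Par.D at h
      unfold Par.M
      rw [Nat.cast_sub (by omega), Nat.cast_sub (by omega)]
      simp only [nsmul_eq_mul]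
      push_cast
      ring
    rw [← C_mul_X_pow_eq_monomial, map_mul, xi_C, xi_X_pow, Crv.yj]
    simp only [map_mul, map_pow, HahnSeries.ofPowerSeries_C, HahnSeries.ofPowerSeries_X,
      mul_pow, ← pow_mul]
    rw [HahnSeries.single_pow (1 : ℤ), one_pow, nsmul_eq_mul, mul_one]
    linear_combination (-(HahnSeries.C (P.coeff a) * HahnSeries.C c.D.ζ ^ (k * l) *
      HahnSeries.ofPowerSeries ℤ K c.D.η ^ l)) * e

/-- `t ^ M ι k b = ∑ l a, b l a ζ ^ (k l) η ^ l t ^ (M - l n1 - a)`. -/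
theorem sers_spec (i : Fin c.D.n) (k : ℕ) {b : OE} (hb : c.D.CoLe (c.od i b) X.D) :
    Dg (c.D.ι k (c.od i b)) X.M ∧ ∀ a < X.P1,
      (c.π i).ev ((X.sers k b).getD a []) = (c.D.ι k (c.od i b)).coeff (a - X.M) := by
  have hn := c.sx_n
  refine ⟨(c.D.Dg_of_coLe hb k).mono ?_, fun a ha => ?_⟩
  · rw [← c.hn]; unfold Par.D Par.M; omega
  obtain ⟨S, h1, h2⟩ := c.sx_ser i k hb
  rw [Par.sers, Ch.ev_chunks _ ha, (c.ap_iff i le_rfl).2 h1 a ha, h2, sub_eq_add_neg,
    HahnSeries.coeff_single_mul_add, one_mul, HahnSeries.ofPowerSeries_apply_coeff]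

theorem length_sers (X : Par) (k : ℕ) (b : OE) : (X.sers k b).length = X.P1 := by
  simp [Par.sers, Alg.chunks]

theorem lser_spec (i : Fin c.D.n) (k : ℕ) {b : OE} (hb : c.D.CoLe (c.od i b) X.D)
    (hG : (c.π i).Gd (X.sers k b)) (h0 : c.od i b ≠ 0)
    (hd : -(7 * (c.D.n : ℤ) ^ 5) ≤ c.D.deg k (c.od i b)) :
    c.LS i (X.lser k b) (c.D.ι k (c.od i b)) := by
  have hn := c.sx_n
  obtain ⟨h1, h2⟩ := c.sers_spec i k hb
  obtain ⟨-, p2, p3⟩ := (c.π i).piv_spec (w := X.P1) (y := X.sers k b)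
    fun v hv => hG v (List.mem_of_mem_take hv)
  have z0 := c.D.ι_ne k h0
  rw [Crv.deg, ← c.hn] at hd
  set z := c.D.ι k (c.od i b) with hz
  set o := X.AB.piv X.P1 (X.sers k b) with ho
  have d1 := h1.dg_le z0
  have hM : (X.M : ℤ) = 6 * (X.n : ℤ) ^ 5 := by simp [Par.M]
  have hP : (X.P : ℤ) = 7 * (X.n : ℤ) ^ 5 := by simp [Par.P]
  have hP1 : (X.P1 : ℤ) = 20 * (X.n : ℤ) ^ 5 := by simp [Par.P1]
  have hp : (0 : ℤ) < (X.n : ℤ) ^ 5 := by exact_mod_cast hn.2
  have o1 : (o : ℤ) ≤ X.M - dg z := by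
    by_contra h
    obtain ⟨a, ha⟩ := Int.eq_ofNat_of_zero_le (a := X.M - dg z) (by omega)
    have h3 := p3 a (by omega)
    rw [h2 a (by omega), show (a : ℤ) - X.M = -dg z by omega] at h3
    exact coeff_dg_ne z0 h3
  have o2 : o < X.P1 := by omega
  have d2 : Dg z (X.M - o) := fun m hm => by
    rcases lt_or_ge m (-X.M) with h | h
    · exact h1 m h
    obtain ⟨a, ha⟩ := Int.eq_ofNat_of_zero_le (a := m + X.M) (by omega)
    have h3 := p3 a (by omega)
    rwa [h2 a (by omega), show (a : ℤ) - X.M = m by omega] at h3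
  refine ⟨z0, (d2.dg_eq ?_).symm, fun a ha => ?_⟩
  · rw [neg_sub, ← h2 o o2]; exact p2 o2
  · have h3 := h2 (o + a) (by omega)
    rw [Par.sers, Ch.ev_chunks _ (by omega)] at h3
    simp only [Par.lser, ← ho]
    rw [Alg.chunk_drop, h3]
    congr 1
    push_cast
    ring

/-- Lagrange interpolation: the top coefficient of `b f'` is the sum of the values of `b`
(`Lagrange.coeff_eq_sum`). -/
theorem trc_spec (b : Vec) : c.πK.ev (X.trc b) = ∑ i, (c.π i).ev b := by
  have h2 := c.two_le_n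
  have hf : ∀ i, (c.π i).ev X.fd = ∏ j ∈ univ.erase i, (c.D.e i - c.D.e j) := fun i => by
    have e : (c.π i).pd ((List.range X.n).map fun a => X.AK.mul [a + 1] (X.f.getD (a + 1) [])) =
        derivative c.D.f := Polynomial.ext fun a => by
      rw [Ch.coeff_pd, sa_getD, coeff_derivative]
      split_ifs with h
      · rw [c.ev_low i (Alg.length_mul _ _ _).le, Ch.ev_mul, Ch.ev_lit, ← Ch.coeff_pd, c.hf]
        push_cast
        ring
      · rw [coeff_eq_zero_of_natDegree_lt (by rw [c.D.f_natDegree, ← c.hn]; omega), Ch.ev_nil,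
          zero_mul]
    rw [Par.fd, Ch.ev_peval, e, c.ev_th, ← Lagrange.eval_nodal]
    exact Lagrange.eval_nodal_derivative_eval_node_eq (mem_univ i)
  have hc : #(univ : Finset (Fin c.D.n)) = X.n := by rw [card_univ, Fintype.card_fin, c.hn]
  have hd := c.πK.degree_pd_lt (X.AK.chunks X.n (X.AB.mul b X.fd))
  have h := Lagrange.coeff_eq_sum (s := univ) (v := c.D.e) c.D.he.injOn
    (P := c.πK.pd (X.AK.chunks X.n (X.AB.mul b X.fd)))
    (by rw [hc]; rwa [Ch.sp_len] at hd)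
  rw [hc, Ch.coeff_pd, Ch.ev_chunks _ (by omega)] at h
  rw [Par.trc, h]
  refine Finset.sum_congr rfl fun i _ => ?_
  have e : (c.πK.pd (X.AK.chunks X.n (X.AB.mul b X.fd))).eval (c.D.e i) =
      (c.π i).ev (X.AB.mul b X.fd) := (c.πK.ev_ext' _ _ _ _).symm
  rw [e, Ch.ev_mul, hf, mul_div_cancel_right₀]
  exact prod_ne_zero_iff.2 fun j hj => sub_ne_zero.2 fun x => (mem_erase.1 hj).1 (c.D.he x).symm

theorem sx_strc {N : ℕ} (hN : N ≤ X.P1) {v : Vec} {S : Fin c.D.n → PowerSeries K}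
    (h : ∀ i, (c.πS i hN).ev v = mkS N (S i)) (i : Fin c.D.n) :
    (c.πS i hN).ev (X.strc v) = mkS N (∑ j, S j) := (c.ap_iff i hN).1 fun a ha => by
  have ha' := ha.trans_le hN
  rw [Par.strc, Ch.ev_chunk_flat _ ha', Alg.chunks, List.map_map, sa_getD, if_pos ha',
    Function.comp_apply, c.ev_low i (v := X.trc _) (Alg.length_chunk _ _ _).le, c.trc_spec, map_sum]
  exact Finset.sum_congr rfl fun j _ => (c.ap_iff j hN).2 (h j) a ha

theorem snorm_spec {N : ℕ} (hN : N ≤ X.P1) {v : Vec} {S : Fin c.D.n → PowerSeries K}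
    (h : ∀ i, (c.πS i hN).ev v = mkS N (S i)) (i : Fin c.D.n) :
    (c.πS i hN).ev (X.snorm v) = mkS N (∏ j, S j) := by
  have hn := c.sx_n
  have hb := c.big
  rw [Par.snorm, c.hn, map_prod]
  refine (c.πS i hN).newt_spec c.prime ?_ _ fun k hk => ?_
  · rw [← c.hn]
    change X.n < X.p
    unfold Par.P1 at hb
    omega
  · rw [sa_getD, if_pos (by omega), c.sx_strc hN (S := fun j => S j ^ k)
      (fun j => by rw [Ch.ev_pow, h, map_pow]), map_sum]
    simp only [map_pow]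

theorem lnorm_spec {x : LE} {z : Fin c.D.n → LaurentSeries K} (h : ∀ i, c.LS i x (z i))
    (i : Fin c.D.n) : c.LS i (X.lnorm x) (∏ j, z j) := by
  choose S h1 h2 h3 using fun j => (c.ls_iff j).1 (h j)
  refine (c.ls_iff i).2 ⟨∏ j, S j, ?_, ?_, c.snorm_spec _ h3 i⟩
  · rw [map_prod]; exact prod_ne_zero_iff.2 fun j _ => h1 j
  · simp only [h2, prod_mul_distrib, map_prod, prod_const, card_univ, Fintype.card_fin,
      HahnSeries.single_pow, one_pow, Par.lnorm, c.hn, nsmul_eq_mul, mul_neg]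

theorem sx_part {z : LaurentSeries K} {P : ℕ} (h : dg z < P) (e : K) :
    ∑ a ∈ range P, (if a < (dg z + 1).toNat then z.coeff (a - dg z) * e ^ ((dg z).toNat - a)
      else 0) = ∑ m ∈ range P, z.coeff (-(m : ℤ)) * e ^ m := by
  have h1 := Dg_dg z
  rcases lt_or_ge (dg z) 0 with h0 | h0
  · rw [Finset.sum_eq_zero fun a _ => if_neg (by omega), Finset.sum_eq_zero fun m _ => by
      rw [h1 _ (by omega), zero_mul]]
  obtain ⟨d, hd⟩ := Int.eq_ofNat_of_zero_le h0
  rw [hd] at h h1 ⊢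
  have hs : range (d + 1) ⊆ range P := range_subset_range.2 (by omega)
  rw [← Finset.sum_subset hs fun a _ ha => if_neg (by rw [mem_range] at ha; omega),
    ← Finset.sum_subset hs fun m _ hm => by
      rw [mem_range] at hm
      rw [h1 _ (by omega), zero_mul], ← Finset.sum_range_reflect]
  refine Finset.sum_congr rfl fun m hm => ?_
  rw [mem_range] at hm
  rw [if_pos (by omega)]
  congr 2 <;> omega

/-- By `sum_ι` and `ev_eq`. -/
theorem val0_spec (i : Fin c.D.n) {xs : List LE} (hl : xs.length = c.D.q) {b : c.D.O}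
    (h : ∀ k < c.D.q, c.LS i (xs.getD k (0, [])) (c.D.ι k b))
    (hd : ∀ k < c.D.q, c.D.deg k b < 7 * (c.D.n : ℤ) ^ 5) :
    (c.π i).ev (X.val0 xs) = c.D.ev i b := by
  have hn := c.sx_n
  have hP : (X.P : ℤ) = 7 * (c.D.n : ℤ) ^ 5 := by simp [Par.P, c.hn]
  have q0 : (c.π i).ev [X.q] = c.D.q := by rw [Ch.ev_lit, c.hq]
  have key : ∀ k ∈ range c.D.q, (c.π i).ev (X.AB.sum ((List.range X.P).map fun a =>
      bif decide (a < ((xs.getD k (0, [])).1 + 1).toNat) then X.AB.mul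
        (X.AB.chunk a (xs.getD k (0, [])).2) (X.AB.pow X.th ((xs.getD k (0, [])).1.toNat - a))
        else [])) = ∑ m ∈ range X.P, (c.D.ι k b).coeff (-(m : ℤ)) * c.D.e i ^ m := fun k hk => by
    obtain ⟨-, h2, h3⟩ := h k (mem_range.1 hk)
    rw [Ch.ev_sum_range, ← sx_part (hP ▸ hd k (mem_range.1 hk))]
    refine Finset.sum_congr rfl fun a ha => ?_
    rw [Bool.cond_decide, ← h2]
    split_ifs
    · rw [Ch.ev_mul, Ch.ev_pow, c.ev_th, h3 a (mem_range.1 ha)]
    · exact Ch.ev_nil _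
  have hc : c.D.CoLe b (X.P - 1) := c.D.coLe_of_Dg fun k hk => (Dg_dg _).mono (by
    have := hd k hk
    rw [← hP, Crv.deg] at this
    omega)
  rw [Par.val0, Ch.ev_mul, Ch.ev_inv _ (c.fix i) (q0 ▸ c.D.q_ne), q0, sx_flat _ _ (0, []), hl,
    Finset.sum_congr rfl key, Finset.sum_comm, c.D.ev_eq,
    eval_eq_sum_range' (n := X.P) ((hc 0).trans_lt (by unfold Par.P; omega)),
    inv_mul_eq_iff_eq_mul₀ c.D.q_ne, Finset.mul_sum]
  refine Finset.sum_congr rfl fun m _ => ?_
  rw [← Finset.sum_mul, ← HahnSeries.coeff_sum, c.D.sum_ι, coeff_C_mul', coeff_xi_neg, mul_assoc]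

end Vale.Agent.P319A.Ctx
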