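import Vale.Agent.P319A.SEnt

/-!
A nonresidue from Gauss and Jacobi sums.
-/

open Polynomial Finset

namespace Vale.Agent.P319A

variable {p : ℕ} [Fact p.Prime]

theorem IsAux.ne_zero {q l : ℕ} (h : IsAux p q l) : (p : ZMod l) ≠ 0 := fun h1 =>
  h.2.1 ((Nat.prime_dvd_prime_iff_eq h.1 Fact.out).1 ((ZMod.natCast_eq_zero_iff _ _).1 h1))

omit [Fact p.Prime] in
theorem IsAux.pow {q l : ℕ} (h : IsAux p q l) {a : ZMod l} (ha : a ≠ 0) :
    (a ^ ((l - 1) / q)) ^ q = 1 := by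
  have := Fact.mk h.1
  rw [← pow_mul, Nat.div_mul_cancel h.2.2.1, ZMod.pow_card_sub_one_eq_one ha]

theorem IsAux.prim {q l : ℕ} (hq : q.Prime) (h : IsAux p q l) :
    IsPrimitiveRoot ((p : ZMod l) ^ ((l - 1) / q)) q := by
  have := Fact.mk hq
  exact IsPrimitiveRoot.iff_orderOf.2 (orderOf_eq_prime (h.pow h.ne_zero) h.2.2.2)

/-- `h = p ^ ((l - 1) / q)` is a primitive `q`-th root of unity modulo `l`. -/
theorem ind_spec {q l : ℕ} (hq : q.Prime) (h : IsAux p q l) {a : ℕ} (ha : (a : ZMod l) ≠ 0) :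
    ((p : ZMod l) ^ ((l - 1) / q)) ^ ind p q l a = (a : ZMod l) ^ ((l - 1) / q) := by
  have := Fact.mk h.1
  have : NeZero q := ⟨hq.ne_zero⟩
  obtain ⟨k, hk, e⟩ := (h.prim hq).eq_pow_of_pow_eq_one (h.pow ha)
  rw [← pow_mul, ← pw_eq h.1.two_le, ← beq_iff_eq] at e ⊢
  exact first_true (f := fun k => pw l p ((l - 1) / q * k) == pw l a ((l - 1) / q)) hk e

/-- The character `χ a = ζ ^ ind a` of order `q`, with `χ p = ζ`. -/
theorem exists_char {q l : ℕ} (hq : q.Prime) (h : IsAux p q l) {K : Type} [Field K] {ζ : K}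
    (hζ : IsPrimitiveRoot ζ q) : ∃ χ : MulChar (ZMod l) K, orderOf χ = q ∧ χ p = ζ ∧
      ∀ a : ℕ, (a : ZMod l) ≠ 0 → χ a = ζ ^ ind p q l a := by
  have := Fact.mk h.1
  have := Fact.mk hq
  have h1 : ∀ i j, ((p : ZMod l) ^ ((l - 1) / q)) ^ i = ((p : ZMod l) ^ ((l - 1) / q)) ^ j →
      ζ ^ i = ζ ^ j := fun i j e => by
    rw [((h.prim hq).isOfFinOrder hq.ne_zero).pow_eq_pow_iff_modEq, ← (h.prim hq).eq_orderOf] at e
    rwa [(hζ.isOfFinOrder hq.ne_zero).pow_eq_pow_iff_modEq, ← hζ.eq_orderOf]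
  have h2 : ∀ a : ZMod l, a ≠ 0 →
      ((p : ZMod l) ^ ((l - 1) / q)) ^ ind p q l a.val = a ^ ((l - 1) / q) := fun a ha => by
    rw [ind_spec hq h (by simpa using ha), ZMod.natCast_zmod_val]
  let χ : MulChar (ZMod l) K :=
    { toFun := fun a => if a = 0 then 0 else ζ ^ ind p q l a.val
      map_one' := by
        rw [if_neg one_ne_zero, h1 _ 0 (by rw [h2 _ one_ne_zero, one_pow, pow_zero]), pow_zero]
      map_mul' := fun a b => by
        by_cases ha : a = 0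
        · simp [ha]
        by_cases hb : b = 0
        · simp [hb]
        rw [if_neg ha, if_neg hb, if_neg (mul_ne_zero ha hb), ← pow_add]
        exact h1 _ _ (by rw [pow_add, h2 _ ha, h2 _ hb, h2 _ (mul_ne_zero ha hb), mul_pow])
      map_nonunit' := fun a ha => if_pos (by simpa using ha) }
  have h3 : ∀ a : ℕ, (a : ZMod l) ≠ 0 → χ a = ζ ^ ind p q l a := fun a ha =>
    (if_neg ha).trans (h1 _ _ (by rw [h2 _ ha, ind_spec hq h ha]))
  have h4 : χ p = ζ := by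
    rw [h3 _ h.ne_zero, h1 _ 1 (by rw [ind_spec hq h h.ne_zero, pow_one]), pow_one]
  refine ⟨χ, orderOf_eq_prime (MulChar.ext fun a => ?_) fun e => hζ.ne_one hq.one_lt ?_, h4, h3⟩
  · rw [MulChar.pow_apply_coe, MulChar.one_apply_coe, show χ a = _ from if_neg a.ne_zero,
      ← pow_mul, mul_comm, pow_mul, hζ.pow_eq_one, one_pow]
  · rw [← h4, e, MulChar.one_apply h.ne_zero.isUnit]

theorem sjac_frob {F : Type} [Field F] [Fintype F] (χ : MulChar F (Kb p)) (ψ : AddChar F (Kb p))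
    (d : ℕ) : gaussSum χ ψ ^ p ^ d = gaussSum (χ ^ p ^ d) (ψ ^ p ^ d) := by
  induction d with
  | zero => simp
  | succ d ih => rw [pow_succ, pow_mul, ih, gaussSum_frob, pow_mul, pow_mul]

theorem sjac_sum {l : ℕ} [NeZero l] {M : Type} [AddCommMonoid M] (F : ZMod l → M) :
    ∑ x, F x = ∑ x ∈ range l, F x :=
  Finset.sum_nbij' ZMod.val Nat.cast (fun a _ => Finset.mem_range.2 a.val_lt) (by simp) (by simp)
    (fun _ ha => ZMod.val_cast_of_lt (Finset.mem_range.1 ha)) (by simp)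

/-- `jac` is the `q`-th power of the Gauss sum `g` (`gaussSum_pow_eq_prod_jacobiSum`; `χ (-1) = 1`
as `q` is odd), `g ≠ 0`, and `g ^ p ^ d = χ (p ^ d)⁻¹ g` when `ζ ^ p ^ d = ζ`. -/
theorem jac_spec {q l d : ℕ} (hq : q.Prime) (h2 : 2 < q) (h : IsAux p q l) {A : Alg}
    (π : Ch A (Kb p)) {ζ : Vec} (hζ : IsPrimitiveRoot (π.ev ζ) q) (hd : q ∣ p ^ d - 1)
    (h0 : 0 < d) (h1 : d < q) :
    π.ev (jac A ζ p q l) ≠ 0 ∧ π.ev (jac A ζ p q l) ^ ((p ^ d - 1) / q) ≠ 1 := by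
  have := Fact.mk h.1
  have pp : p.Prime := Fact.out
  have l0 : (l : Kb p) ≠ 0 := fun e => h.2.1
    ((Nat.prime_dvd_prime_iff_eq pp h.1).1 ((CharP.cast_eq_zero_iff _ p l).1 e)).symm
  have : NeZero (l : Kb p) := ⟨l0⟩
  obtain ⟨χ, c1, c2, c3⟩ := exists_char hq h hζ
  obtain ⟨w, hw⟩ := HasEnoughRootsOfUnity.exists_primitiveRoot (Kb p) l
  have hψ := AddChar.zmodChar_primitive_of_primitive_root l hw
  generalize (AddChar.zmodChar l _ : AddChar (ZMod l) (Kb p)) = ψ at hψ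
  have c4 : χ ^ q = 1 := c1 ▸ pow_orderOf_eq_one χ
  have c5 : χ ≠ 1 := fun e => by rw [e, orderOf_one] at c1; omega
  have c6 : χ (-1) = 1 := by
    have e1 : χ (-1) ^ 2 = 1 := by rw [← map_pow, neg_one_sq, map_one]
    have e2 : χ (-1) ^ q = 1 := by
      rw [← MulChar.pow_apply' _ hq.ne_zero, c4, MulChar.one_apply isUnit_one.neg]
    obtain ⟨k, hk⟩ := hq.odd_of_ne_two h2.ne'
    rwa [hk, pow_succ, pow_mul, e1, one_pow, one_mul] at e2
  have g0 := gaussSum_ne_zero_of_nontrivial (by rwa [ZMod.card]) c5 hψ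
  have g1 : π.ev (jac A ζ p q l) = gaussSum χ ψ ^ q := by
    have e := gaussSum_pow_eq_prod_jacobiSum (c1 ▸ h2.le) hψ
    rw [c1, c6, one_mul, ZMod.card, Finset.prod_Ico_eq_prod_range] at e
    rw [e, jac, Ch.ev_mul, Ch.ev_lit, Ch.ev_prod, List.map_map, ← List.prod_toFinset _
      List.nodup_range, List.toFinset_range]
    refine congrArg _ (Finset.prod_congr rfl fun j _ => ?_)
    rw [Function.comp, Ch.ev_sum_range, jacobiSum, sjac_sum]
    refine Finset.sum_congr rfl fun x hx => ?_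
    rw [Finset.mem_range] at hx
    rw [MulChar.pow_apply' _ (by omega)]
    by_cases hx2 : 2 ≤ x
    · have e1 : (1 - x : ZMod l) = (l + 1 - x : ℕ) := by rw [Nat.cast_sub (by omega)]; simp
      have e2 : ∀ y, 0 < y → y < l → (y : ZMod l) ≠ 0 := fun y h1 h2 e =>
        (Nat.le_of_dvd h1 ((ZMod.natCast_eq_zero_iff _ _).1 e)).not_gt h2
      rw [decide_eq_true hx2, cond_true, Ch.ev_pow, e1, c3 _ (e2 _ (by omega) hx),
        c3 _ (e2 _ (by omega) (by omega)), ← pow_mul, ← pow_add, add_comm 1, mul_comm]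
    · rw [decide_eq_false hx2, cond_false, Ch.ev_nil]
      rcases (by omega : x = 0 ∨ x = 1) with rfl | rfl <;> simp [MulChar.map_zero]
  refine ⟨g1 ▸ pow_ne_zero _ g0, fun e => hζ.pow_ne_one_of_pos_of_lt h0.ne' h1 ?_⟩
  obtain ⟨k, hk⟩ := id hd
  have e1 : p ^ d = q * k + 1 := by rw [← hk, Nat.sub_add_cancel (Nat.one_le_pow _ _ pp.pos)]
  have e2 := gaussSum_mulShift χ ψ ((h.ne_zero.isUnit.pow d).unit)
  have e3 := sjac_frob χ ψ d
  rw [AddChar.pow_mulShift, show χ ^ p ^ d = χ by rw [e1, pow_succ, pow_mul, c4, one_pow, one_mul],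
    Nat.cast_pow] at e3
  rw [g1, ← pow_mul, Nat.mul_div_cancel' hd, hk] at e
  rw [IsUnit.unit_spec, ← e3, map_pow, c2, e1, pow_succ, e, one_mul] at e2
  exact (mul_eq_right₀ g0).1 e2

theorem entryO_good {q B : ℕ} (hq : q.Prime) (h2 : 2 < q) (hp : q < p)
    (h : ∃ l ≤ B, IsAux p q l) {tab : List Ent} (hm : (z1 p).Mo (cyc p tab q))
    (h1 : Sh 1 (cyc p tab q)) (hi : Irreducible ((z1 p).pd (cyc p tab q)))
    (hd : (z1 p).pd (cyc p tab q) ∣ ∑ i ∈ range q, X ^ i) : GoodEnt p q (entryO B p tab q) := by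
  have := Fact.mk hq
  have pp : p.Prime := Fact.out
  have k1 : ∀ z : Kb p, aeval z ((z1 p).pd (cyc p tab q)) = 0 → IsPrimitiveRoot z q := by
    intro z hz
    obtain ⟨c, hc⟩ := hd
    have e := congrArg (aeval z) hc
    rw [map_mul, hz, zero_mul, map_sum] at e
    simp only [map_pow, aeval_X] at e
    refine IsPrimitiveRoot.iff_orderOf.2 (orderOf_eq_prime ?_ fun e1 => ?_)
    · rw [← sub_eq_zero, ← geom_sum_mul, e, zero_mul]
    · rw [e1] at e
      simp only [one_pow, sum_const, card_range, nsmul_eq_mul, mul_one] at e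
      exact (Nat.le_of_dvd hq.pos ((CharP.cast_eq_zero_iff _ p q).1 e)).not_gt hp
  have k2 := two_le_of_irr hm hi
  have k3 : (cyc p tab q).length - 1 < q := by
    have e : (∑ i ∈ range q, X ^ i : (ZMod p)[X]) * (X - 1) = X ^ q - 1 := geom_sum_mul _ _
    have e1 := natDegree_le_of_dvd ((mul_dvd_mul_right hd _).trans e.dvd)
      (X_pow_sub_C_ne_zero hq.pos 1)
    rw [← C_1, natDegree_mul hi.ne_zero (X_sub_C_ne_zero 1), hm.natDegree, natDegree_X_sub_C,
      natDegree_X_pow_sub_C] at e1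
    omega
  have k4 : q ∣ p ^ ((cyc p tab q).length - 1) - 1 := by
    obtain ⟨z, hz⟩ := IsAlgClosed.exists_aeval_eq_zero (Kb p) _ hi.degree_pos.ne'
    refine (k1 z hz).dvd_of_pow_eq_one _ (mul_right_cancel₀ ((k1 z hz).ne_zero hq.ne_zero) ?_)
    rw [← pow_succ, Nat.sub_add_cancel (Nat.one_le_pow _ _ pp.pos), root_pow hm hi hz, one_mul]
  have k5 : ((A1 p).ext (cyc p tab q)).d = (cyc p tab q).length - 1 := by
    rw [Alg.ext_d]; exact mul_one _
  refine ⟨hm, h1, hi, show (cyc p tab q).length ≤ _ by omega,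
    (((A1 p).length_gen _).trans k5).le, ((Alg.length_mul _ _ _).trans k5).le, k4,
    fun e => absurd e h2.ne', fun z (hz : aeval z ((z1 p).pd (cyc p tab q)) = 0) => ?_⟩
  have k6 : IsPrimitiveRoot ((k0 hm hi hz).ev ((A1 p).gen (cyc p tab q))) q :=
    (Ch.ev_gen _ _ _ _ : (k0 hm hi hz).ev _ = z).symm ▸ k1 z hz
  have k7 := jac_spec hq h2 (auxP_spec h) _ k6 k4 (by omega) k3
  rw [ev_k0] at k6 k7
  exact ⟨k6, k7⟩

end Vale.Agent.P319A
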