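import Mathlib

/-!
Factorization of polynomials over prime fields: binary codes, complete factorizations,
polynomial time.
-/

open Polynomial Finset

namespace Vale.Agent.P319A

/-- Code of a binary digit. -/
def codeBool (b : Bool) : List Bool :=
  if b then [true, true, false, false, false] else [true, false, true, false, false]

/-- Code of a list: each item is preceded by `true`, and `false` ends the list. -/
def codeList {α : Type} (f : α → List Bool) (l : List α) : List Bool :=
  l.flatMap (fun x => true :: f x) ++ [false]

/-- Code of a number: the list of its binary digits. -/
def codeNat (k : ℕ) : List Bool := codeList codeBool k.bits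

/-- Code of an input: the prime and the list of coefficients. -/
def codeIn (x : ℕ × List ℕ) : List Bool := true :: (codeNat x.1 ++ codeList codeNat x.2)

/-- Code of an output: the leading coefficient and the coefficient lists of the factors. -/
def codeOut (y : ℕ × List (List ℕ)) : List Bool :=
  true :: (codeNat y.1 ++ codeList (codeList codeNat) y.2)

/-- The polynomial with a given list of coefficients. -/
noncomputable def toPoly (p : ℕ) (l : List ℕ) : (ZMod p)[X] :=
  ∑ i ∈ range l.length, C ((l.getD i 0 : ℕ) : ZMod p) * X ^ i

/-- `y` is a complete factorization of `f`: a constant and a list of monic irreducible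
polynomials (repeated according to multiplicity) with product `f`. -/
def IsFactorization (p : ℕ) (f : (ZMod p)[X]) (y : ℕ × List (List ℕ)) : Prop :=
  (∀ g ∈ y.2, (toPoly p g).Monic ∧ Irreducible (toPoly p g)) ∧
    C ((y.1 : ℕ) : ZMod p) * (y.2.map (toPoly p)).prod = f

/-- Computable by a deterministic Turing machine with finite alphabets in polynomial time. -/
def PolyTime (F : ℕ × List ℕ → ℕ × List (List ℕ)) : Prop :=
  ∃ M : Turing.TM2ComputableInPolyTime codeIn codeOut F, ∀ k, Finite (M.tm.Γ k)

end Vale.Agent.P319A
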