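import Vale.Agent.P319A.SOut
import Vale.Agent.P319A.SJac
import Vale.Agent.P319A.Stmt

/-!
Complete factorization, the table, and the correctness of the algorithm.
-/

open Polynomial Finset

namespace Vale.Agent.P319A

variable {p : ℕ} [Fact p.Prime]

theorem TabOk.mono {tab : List Ent} {N N' : ℕ} (h : TabOk p tab N) (hN : N' ≤ N) :
    TabOk p tab N' := fun q hq h1 h2 => h q hq (h1.trans hN) h2

theorem length_le_prod {L : List Pol} (h : ∀ g ∈ L, (z1 p).Mo g ∧ 2 ≤ g.length) :
    (L.map (z1 p).pd).prod.Monic ∧ L.length ≤ (L.map (z1 p).pd).prod.natDegree := by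
  induction L with
  | nil => simp
  | cons g L ih =>
    obtain ⟨h1, h2⟩ := ih fun x hx => h x (List.mem_cons_of_mem _ hx)
    obtain ⟨h3, h4⟩ := h g List.mem_cons_self
    rw [List.map_cons, List.prod_cons, h3.monic.natDegree_mul h1, h3.natDegree, List.length_cons]
    exact ⟨h3.monic.mul h1, by omega⟩

theorem length_le_of_dvd {f g : Pol} (hf : (z1 p).Mo f) (hg : (z1 p).Mo g)
    (h : (z1 p).pd g ∣ (z1 p).pd f) : g.length ≤ f.length := by
  have := natDegree_le_of_dvd h hf.monic.ne_zero
  rw [hf.natDegree, hg.natDegree] at this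
  have := hf.1
  omega

/-- The pieces of one entry. -/
theorem pieces {tab : List Ent} {g : Pol} (hg : (z1 p).Mo g) (h2 : 2 ≤ g.length)
    (ht : TabOk p tab (g.length - 1)) {M : List Pol} (hM : M = bif (findFac p tab g).isEmpty
      then [g] else [findFac p tab g, (A1 p).pdiv (findFac p tab g) g]) :
    (M.map (z1 p).pd).prod = (z1 p).pd g ∧ ∀ s ∈ M, (z1 p).Mo s ∧ 2 ≤ s.length ∧
      (Irreducible ((z1 p).pd s) ∨ (s.length < g.length ∧ ¬ Irreducible ((z1 p).pd g))) := by
  rcases findFac_spec hg h2 ht with ⟨h, hi⟩ | ⟨h1, -, h3, h4, h5⟩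
  · rw [h] at hM
    subst hM
    simpa using ⟨hg, h2, hi⟩
  generalize findFac p tab g = s at *
  have hs : s.isEmpty = false := by
    cases s with
    | nil => simp at h3
    | cons => rfl
  rw [hs, cond_false] at hM
  subst hM
  have e : (z1 p).pd s * (z1 p).pd ((A1 p).pdiv s g) = (z1 p).pd g := by
    rw [(z1 p).pd_pdiv h1]
    have := modByMonic_add_div ((z1 p).pd g) ((z1 p).pd s)
    rwa [(modByMonic_eq_zero_iff_dvd h1.monic).2 h5, zero_add] at this
  have hm : ((z1 p).pd ((A1 p).pdiv s g)).Monic := h1.monic.of_mul_monic_left (e ▸ hg.monic)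
  have hd := h1.monic.natDegree_mul hm
  rw [e, h1.natDegree, hg.natDegree] at hd
  have hl := (A1 p).length_pdiv s g
  have hn : ¬ Irreducible ((z1 p).pd g) := fun hi => by
    rcases hi.isUnit_or_isUnit e.symm with h | h
    · have := natDegree_eq_zero_of_isUnit h
      rw [h1.natDegree] at this
      omega
    · have := natDegree_eq_zero_of_isUnit h
      omega
  refine ⟨by simpa using e, ?_⟩
  simp only [List.mem_cons, List.not_mem_nil, or_false, forall_eq_or_imp, forall_eq]
  exact ⟨⟨h1, h3, Or.inr ⟨h4, hn⟩⟩, (z1 p).mo_of_monic hm (by omega), by omega,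
    Or.inr ⟨by omega, hn⟩⟩

theorem prod_flatMap {L : List Pol} {F : Pol → List Pol}
    (h : ∀ g ∈ L, ((F g).map (z1 p).pd).prod = (z1 p).pd g) :
    ((L.flatMap F).map (z1 p).pd).prod = (L.map (z1 p).pd).prod := by
  induction L with
  | nil => rfl
  | cons g L ih =>
    rw [List.flatMap_cons, List.map_append, List.prod_append, h g List.mem_cons_self,
      ih fun x hx => h x (List.mem_cons_of_mem _ hx), List.map_cons, List.prod_cons]

theorem refine1_spec {tab : List Ent} {f : Pol} (hf : (z1 p).Mo f)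
    (ht : TabOk p tab (f.length - 1)) {L : List Pol} {j : ℕ}
    (h : ∀ g ∈ L, (z1 p).Mo g ∧ 2 ≤ g.length ∧
      (Irreducible ((z1 p).pd g) ∨ g.length + j ≤ f.length))
    (e : (L.map (z1 p).pd).prod = (z1 p).pd f) :
    (∀ g ∈ refine1 p tab (f.length - 1) L, Sh 1 g ∧ (z1 p).Mo g ∧ 2 ≤ g.length ∧
      (Irreducible ((z1 p).pd g) ∨ g.length + (j + 1) ≤ f.length)) ∧
      ((refine1 p tab (f.length - 1) L).map (z1 p).pd).prod = (z1 p).pd f := by
  have hp := fun g (hg : g ∈ L) => pieces (h g hg).1 (h g hg).2.1 (ht.mono (Nat.sub_le_sub_right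
    (length_le_of_dvd hf (h g hg).1 (e ▸ List.dvd_prod (List.mem_map_of_mem hg))) 1)) rfl
  have e' := (prod_flatMap fun g hg => (hp g hg).1).trans e
  unfold refine1
  generalize hM : (L.flatMap fun g => bif (findFac p tab g).isEmpty then [g]
    else [findFac p tab g, (A1 p).pdiv (findFac p tab g) g]) = M at e' ⊢
  have hM' : ∀ s ∈ M, (z1 p).Mo s ∧ 2 ≤ s.length ∧
      (Irreducible ((z1 p).pd s) ∨ s.length + (j + 1) ≤ f.length) := by
    intro s hs
    rw [← hM, List.mem_flatMap] at hs
    obtain ⟨g, hg, hs⟩ := hs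
    obtain ⟨h1, h2, h3⟩ := (hp g hg).2 s hs
    refine ⟨h1, h2, h3.imp_right fun h4 => ?_⟩
    have := (h g hg).2.2.resolve_left h4.2
    omega
  have hl := (length_le_prod fun s hs => ⟨(hM' s hs).1, (hM' s hs).2.1⟩).2
  rw [e', hf.natDegree] at hl
  have hf0 := hf.1
  have ht : ∀ s ∈ M, s.take (f.length - 1 + 1) = s := fun s hs => List.take_of_length_le (by
    have := length_le_of_dvd hf (hM' s hs).1 (e' ▸ List.dvd_prod (List.mem_map_of_mem hs))
    omega)
  rw [List.take_of_length_le hl, List.map_congr_left fun s hs => by rw [ht s hs]]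
  refine ⟨fun g hg => ?_, ?_⟩
  · obtain ⟨s, hs, rfl⟩ := List.mem_map.1 hg
    rw [Ch.pd_map_nv, List.length_map]
    exact ⟨(A1 p).sh_map_nv s, (hM' s hs).1.map_nv, (hM' s hs).2⟩
  · rw [List.map_map, ← e']
    exact congrArg _ (List.map_congr_left fun s _ => (z1 p).pd_map_nv s)

/-- Invariant after `j` refinements (`n = f.length - 1`): all entries are monic of degree at
least one with product `f` (so there are at most `n` of them), and every entry is irreducible or
has degree at most `n - j`. For `n = 0` the result is empty. -/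
theorem factor_spec {tab : List Ent} {f : Pol} (hf : (z1 p).Mo f)
    (ht : TabOk p tab (f.length - 1)) :
    (∀ g ∈ factor p tab f, (z1 p).Mo g ∧ Sh 1 g ∧ Irreducible ((z1 p).pd g)) ∧
      ((factor p tab f).map (z1 p).pd).prod = (z1 p).pd f := by
  have hf0 := hf.1
  rcases Nat.lt_or_ge f.length 2 with h2 | h2
  · have h1 : f.length = 1 := by omega
    have e : factor p tab f = [] := by simp [factor, refine1, h1]
    rw [e]
    refine ⟨by simp, (hf.monic.natDegree_eq_zero.1 (by rw [hf.natDegree, h1])).symm⟩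
  have key : ∀ j, ∀ L, L = (List.range j).foldl
      (fun L _ => refine1 p tab (f.length - 1) L) [f] →
      (∀ g ∈ L, (0 < j → Sh 1 g) ∧ (z1 p).Mo g ∧ 2 ≤ g.length ∧
        (Irreducible ((z1 p).pd g) ∨ g.length + j ≤ f.length)) ∧
        (L.map (z1 p).pd).prod = (z1 p).pd f := by
    intro j
    induction j with
    | zero => rintro L rfl; simpa using ⟨hf, h2⟩
    | succ j ih =>
      rintro L rfl
      obtain ⟨h3, h4⟩ := ih _ rfl
      rw [List.range_succ, List.foldl_append, List.foldl_cons, List.foldl_nil]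
      obtain ⟨h5, h6⟩ := refine1_spec hf ht (fun g hg => (h3 g hg).2) h4
      exact ⟨fun g hg => ⟨fun _ => (h5 g hg).1, (h5 g hg).2⟩, h6⟩
  obtain ⟨h3, h4⟩ := key f.length (factor p tab f) rfl
  refine ⟨fun g hg => ?_, h4⟩
  obtain ⟨h5, h6, h7, h8⟩ := h3 g hg
  exact ⟨h6, h5 hf0, h8.resolve_right (by omega)⟩

/-- Small nonresidues and auxiliary primes exist for the primes up to `N`. -/
def AuxAt (C p N : ℕ) : Prop :=
  (2 < p → ∃ a ≤ p.size ^ C, ¬ IsSquare (a : ZMod p)) ∧
    ∀ q, q.Prime → 2 < q → q ≤ N → q < p → ∃ l ≤ (q * p.size) ^ C, IsAux p q l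

theorem cyc_spec {tab : List Ent} {q : ℕ} (h2 : 2 ≤ q) (ht : TabOk p tab (q - 1)) :
    (z1 p).Mo (cyc p tab q) ∧ Sh 1 (cyc p tab q) ∧ Irreducible ((z1 p).pd (cyc p tab q)) ∧
      (z1 p).pd (cyc p tab q) ∣ ∑ i ∈ range q, X ^ i := by
  have hc : ∀ a < q, (z1 p).ev ((((List.range q).map fun _ => [1]) : Pol).getD a []) = 1 := by
    intro a ha
    simp [List.getD_eq_getElem?_getD, ha]
  have hm : (z1 p).Mo ((List.range q).map fun _ => [1]) :=
    ⟨by simp; omega, hc _ (by simp; omega)⟩
  have he : (z1 p).pd ((List.range q).map fun _ => [1]) = ∑ i ∈ range q, X ^ i := by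
    rw [Ch.pd, List.length_map, List.length_range]
    exact sum_congr rfl fun a ha => by rw [hc a (mem_range.1 ha), monomial_one_right_eq_X_pow]
  obtain ⟨h3, h4⟩ := factor_spec hm (by simpa using ht)
  have h5 := hm.natDegree
  unfold cyc
  generalize factor p tab _ = L at h3 h4 ⊢
  cases L with
  | nil =>
    rw [← h4] at h5
    simp at h5
    omega
  | cons g L =>
    obtain ⟨h6, h7, h8⟩ := h3 g List.mem_cons_self
    exact ⟨h6, h7, h8, he ▸ h4 ▸ Dvd.intro _ rfl⟩

theorem table_spec {C N : ℕ} (h : AuxAt C p N) : TabOk p (table C p N) N := by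
  have key : ∀ j ≤ N + 1, ∀ T, T = (List.range j).foldl
      (fun (tab : List Ent) q => tab ++ [entry C p N tab (min q N)]) [] →
      T.length = j ∧ ∀ q, q.Prime → q < j → q < p → GoodEnt p q (T.getD q ([], [], [])) := by
    intro j
    induction j with
    | zero => rintro - T rfl; simp
    | succ j ih =>
      rintro hj T rfl
      obtain ⟨h1, h2⟩ := ih (by omega) _ rfl
      rw [List.range_succ, List.foldl_append, List.foldl_cons, List.foldl_nil]
      generalize (List.range j).foldl _ _ = T at h1 h2 ⊢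
      refine ⟨by simp [h1], fun q hq h3 h4 => ?_⟩
      rcases Nat.lt_or_ge q j with h5 | h5
      · rw [List.getD_append _ _ _ _ (by omega)]
        exact h2 q hq h5 h4
      obtain rfl : j = q := by omega
      rw [List.getD_append_right _ _ _ _ h1.le, h1, Nat.sub_self, List.getD_cons_zero,
        min_eq_left (by omega)]
      refine efix_good ?_ (by omega)
      rcases hq.two_le.eq_or_lt with rfl | h6
      · exact entry2_good h4 (h.1 h4)
      · rw [show (j == 2) = false by simpa using h6.ne', cond_false]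
        obtain ⟨h7, h8, h9, h10⟩ := cyc_spec (tab := T) hq.two_le
          fun r hr h7 h8 => h2 r hr (by omega) h8
        exact entryO_good hq h6 h4 (h.2 j hq h6 (by omega) h4) h7 h8 h9 h10
  exact fun q hq h1 h2 => (key _ le_rfl _ rfl).2 q hq (by omega) h2

theorem toPoly_head (g : Pol) : toPoly p (g.map fun v => v.headD 0) = (z1 p).pd g := by
  rw [toPoly, Ch.pd, List.length_map]
  refine sum_congr rfl fun a ha => ?_
  rw [z1, ev_ch1, C_mul_X_pow_eq_monomial]
  simp [List.getD_eq_getElem?_getD, mem_range.1 ha, List.head?_eq_getElem?]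

theorem alg_spec {C : ℕ} {l : List ℕ} (h : AuxAt C p l.length) (h0 : toPoly p l ≠ 0) :
    IsFactorization p (toPoly p l) (alg C (p, l)) := by
  have e : toPoly p l = (z1 p).pd (lift1 l) := by
    rw [← toPoly_head]; simp [lift1, Function.comp_def]
  rw [e] at h0 ⊢
  obtain ⟨h1, h2, h3, h4⟩ := (z1 p).monicize_spec (z1_fix p) ((z1_inj p).gd _) h0
  have h5 := (z1 p).natDegree_pd_le (lift1 l)
  rw [lift1, List.length_map, ← lift1] at h5
  obtain ⟨h6, h7⟩ := factor_spec h1 ((table_spec h).mono (by omega))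
  refine ⟨fun g hg => ?_, ?_⟩
  · obtain ⟨s, hs, rfl⟩ := List.mem_map.1 hg
    rw [toPoly_head]
    exact ⟨(h6 s hs).1.monic, (h6 s hs).2.2⟩
  · simp only [alg, List.map_map, Function.comp_def, toPoly_head, ZMod.natCast_mod]
    rw [h7, h3, ← mul_assoc, ← C_mul, List.headD_eq_getD,
      ← ev_ch1 p (ZMod p) (Fact.out : p.Prime).pos (ZMod.natCast_self p), ← z1, h2,
      mul_inv_cancel₀ (leadingCoeff_ne_zero.2 h0), C_1, one_mul]

end Vale.Agent.P319A
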