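import Vale.Agent.P319A.SExp
import Vale.Agent.P319A.Glob

/-!
The global step of a round.
-/

open Polynomial Finset

namespace Vale.Agent.P319A.Ctx

variable {X : Par} {K : Type} [Field K] {c : Ctx X K}

theorem sglob_num {q n : ℤ} (h0 : 0 ≤ q) (h1 : q ≤ n) (h2 : 2 ≤ n) :
    q * n ≤ n ^ 5 ∧ q ^ 2 * n ≤ n ^ 5 ∧ n ^ 4 ≤ n ^ 5 := by
  have h3 : 1 ≤ n := by omega
  refine ⟨?_, ?_, pow_le_pow_right₀ h3 (by norm_num)⟩
  · calc q * n ≤ n * n := by gcongr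
      _ = n ^ 2 := by ring
      _ ≤ _ := pow_le_pow_right₀ h3 (by norm_num)
  · calc q ^ 2 * n ≤ n ^ 2 * n := by gcongr
      _ = n ^ 3 := by ring
      _ ≤ _ := pow_le_pow_right₀ h3 (by norm_num)

theorem sglob_n (c : Ctx X K) : (c.D.q : ℤ) * c.D.n ≤ (c.D.n : ℤ) ^ 5 ∧
    (c.D.q : ℤ) ^ 2 * c.D.n ≤ (c.D.n : ℤ) ^ 5 ∧ (c.D.n : ℤ) ^ 4 ≤ (c.D.n : ℤ) ^ 5 :=
  sglob_num (Int.natCast_nonneg _) (by exact_mod_cast c.D.q_le_n)
    (by exact_mod_cast c.D.two_le_q.trans c.D.q_le_n)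

theorem sglob_u {u : Pol} {i : Fin c.D.n} (hu : (c.π i).Mo u) (hl : u.length - 1 ≤ c.D.q * c.D.n)
    (hG : (c.π i).Gd (X.sers 0 [u])) : c.LS i (X.lser 0 [u]) (xi ((c.π i).pd u)) := by
  have h1 := c.sglob_n.1
  have := c.lser_spec i 0 (b := [u]) (by
    rw [od_single]
    refine (Crv.CoLe.of _).mono ?_
    rw [hu.natDegree, Par.D, c.hn]
    have : c.D.q * c.D.n ≤ c.D.n ^ 5 := by exact_mod_cast h1
    omega) hG (by rw [od_single]; exact c.D.of_ne hu.monic.ne_zero) (by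
    rw [od_single, c.D.deg_of]
    have : (0 : ℤ) ≤ (c.D.n : ℤ) ^ 5 := by positivity
    omega)
  rwa [od_single, c.D.ι_of] at this

theorem user_spec {u : Pol} (hu : ∀ i, (c.π i).Mo u) (hl : u.length - 1 ≤ c.D.q * c.D.n)
    (hG : ∀ i, (c.π i).Gd (X.sers 0 [u])) (i : Fin c.D.n) :
    c.LS i (X.user u) (xi (∏ j, (c.π j).pd u)) := by
  rw [map_prod]
  exact c.lnorm_spec (fun j => sglob_u (hu j) hl (hG j)) i

/-- The degrees `d k` of `a / β` agree in all components because the same pair represents them. -/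
theorem gser_spec {u : Pol} {a β : OE} {gh : Fin c.D.n → c.D.O} {τ : ℕ → ℤ}
    (hu : ∀ i, (c.π i).Mo u) (hl : u.length - 1 ≤ c.D.q * c.D.n)
    (he : ∀ i, gh i * c.od i β = c.D.of ((c.π i).pd u) * c.od i a)
    (hβ : ∀ i, c.od i β ≠ 0) (ha : ∀ i, c.od i a ≠ 0)
    (hβl : ∀ i, c.D.CoLe (c.od i β) X.D) (hal : ∀ i, c.D.CoLe (c.od i a) X.D)
    (hβd : ∀ i k, |c.D.deg k (c.od i β)| ≤ c.D.q * c.D.n)
    (had : ∀ i k, |c.D.deg k (c.od i a) - c.D.deg k (c.od i β) - τ k| ≤ c.D.q ^ 2 * c.D.n)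
    (hτ : ∀ k, |τ k| ≤ 4 * (c.D.n : ℤ) ^ 4) (hG : ∀ i, (c.π i).Gd (X.serL u a β)) :
    (∀ i, ∀ k < c.D.q, c.LS i ((X.gser u a β).getD k (0, [])) (c.D.ι k (∏ j, gh j))) ∧
      ∀ k < c.D.q, ∃ d : ℤ, |d - τ k| ≤ c.D.q ^ 2 * c.D.n ∧
        c.D.deg k (∏ j, gh j) = c.D.n * ((u.length - 1 : ℕ) + d) := by
  obtain ⟨n1, n2, n3⟩ := c.sglob_n
  have k0 : Fin c.D.n := ⟨0, c.D.q_pos.trans_le c.D.q_le_n⟩
  have g := fun i => (c.π i).gd_append.1 (hG i)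
  have l0 := fun i => sglob_u (hu i) hl (g i).1
  have g' := fun i k (hk : k < c.D.q) => (c.π i).gd_append.1
    ((c.π i).gd_flatMap.1 (g i).2 k (List.mem_range.2 (c.hq ▸ hk)))
  have la : ∀ i, ∀ k < c.D.q, c.LS i (X.lser k a) (c.D.ι k (c.od i a)) := fun i k hk =>
    c.lser_spec i k (hal i) (g' i k hk).1 (ha i) (by
      have := abs_le.1 (hβd i k)
      have := abs_le.1 (had i k)
      have := abs_le.1 (hτ k)
      omega)
  have lβ : ∀ i, ∀ k < c.D.q, c.LS i (X.lser k β) (c.D.ι k (c.od i β)) := fun i k hk =>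
    c.lser_spec i k (hβl i) (g' i k hk).2 (hβ i) (by
      have := abs_le.1 (hβd i k)
      omega)
  have key : ∀ i, ∀ k < c.D.q, c.LS i (X.lnorm (X.lmul (X.lser 0 [u])
      (X.lmul (X.lser k a) (X.linv (X.lser k β))))) (c.D.ι k (∏ j, gh j)) := fun i k hk => by
    rw [map_prod]
    refine c.lnorm_spec (fun j => ?_) i
    have h1 := congrArg (c.D.ι k) (he j)
    rw [map_mul, map_mul, c.D.ι_of] at h1
    rw [(eq_mul_inv_iff_mul_eq₀ (c.D.ι_ne k (hβ j))).2 h1, mul_assoc]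
    exact (l0 j).mul ((la j k hk).mul (lβ j k hk).inv)
  refine ⟨fun i k hk => ?_, fun k hk => ⟨_, had k0 k, ?_⟩⟩
  · rw [Par.gser, sa_getD, if_pos (c.hq ▸ hk)]
    exact key i k hk
  · rw [Crv.deg, ← (key k0 k hk).2.1, Crv.deg, Crv.deg, ← (la k0 k hk).2.1, ← (lβ k0 k hk).2.1,
      ← (hu k0).natDegree, ← dg_xi, ← (l0 k0).2.1, ← c.hn, sub_eq_add_neg]
    rfl

/-- `zv` has the values of `W U / Gh` (`val0_spec`, `glob_val`); its `q`-th power is a constant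
(`ev_chunk_zero`) with a root computed in `K` (`amm_spec`); a good log makes `zv` constant. -/
theorem zv_const {T : Ideal c.D.O} {W Gh : c.D.O} {U : K[X]} {ws gs : List LE} {xU : LE}
    (hN : c.D.Nm T U) (hW : ∀ k, c.D.ev k W ≠ 0)
    (hR : c.D.Rel (Ideal.span {W}) T Gh (c.D.of U)) (hw : ws.length = c.D.q)
    (hg : gs.length = c.D.q) (lw : ∀ i, ∀ k < c.D.q, c.LS i (ws.getD k (0, [])) (c.D.ι k W))
    (lg : ∀ i, ∀ k < c.D.q, c.LS i (gs.getD k (0, [])) (c.D.ι k Gh))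
    (lU : ∀ i, c.LS i xU (xi U)) (dw : ∀ k < c.D.q, c.D.deg k W < 7 * (c.D.n : ℤ) ^ 5)
    (dg : ∀ k < c.D.q, c.D.deg k Gh < 7 * (c.D.n : ℤ) ^ 5) (dU : U.natDegree < 7 * c.D.n ^ 5)
    (hG : ∀ i, (c.π i).Gd (X.globL ws gs xU)) : ∃ ρ : K, ρ ≠ 0 ∧
      (∀ i, (c.π i).ev (X.zv ws gs xU) = ρ) ∧
      ∀ k, c.D.ev k W * U.eval (c.D.e k) * (c.D.ev k Gh)⁻¹ = ρ := by
  obtain ⟨h1, κ, h2, -, h3⟩ := Crv.glob_val hN hW hR
  have k0 : Fin c.D.n := ⟨0, c.D.q_pos.trans_le c.D.q_le_n⟩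
  have hz : ∀ i, (c.π i).ev (X.zv ws gs xU) =
      c.D.ev i W * U.eval (c.D.e i) * (c.D.ev i Gh)⁻¹ := fun i => by
    have e1 := c.val0_spec i hg (lg i) dg
    have e2 := c.val0_spec i (xs := (List.range X.q).map fun _ => xU) (b := c.D.of U)
      (by simp [c.hq]) (fun k hk => by
        rw [sa_getD, if_pos (c.hq ▸ hk), c.D.ι_of]
        exact lU i) fun k _ => by rw [c.D.deg_of]; exact_mod_cast dU
    rw [Par.zv, Ch.ev_mul, Ch.ev_mul, (c.π i).ev_inv (c.fix i) (e1 ▸ h1 i), e1, e2,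
      c.val0_spec i hw (lw i) dw, c.D.ev_of]
  simp only [← hz] at h3 ⊢
  have z0 : (c.π k0).ev (X.zv ws gs xU) ≠ 0 := fun h =>
    h2 (by rw [← h3 k0, h, zero_pow c.D.hq.ne_zero])
  have h4 : c.πK.ev (X.AK.chunk 0 (X.AB.pow (X.zv ws gs xU) X.q)) = κ :=
    c.ev_chunk_zero fun i => by rw [Ch.ev_pow, c.hq, h3]
  have h5 := c.πK.amm_spec c.fixK' (c.hq ▸ c.D.hq) c.dvd (c.hq ▸ c.D.q_ne) c.s0 c.s1
    (a := X.AK.chunk 0 (X.AB.pow (X.zv ws gs xU) X.q)) (by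
      rw [h4, ← h3 k0, ← pow_mul, ← c.hq, Nat.mul_div_cancel' c.dvd, (c.fix k0).pow_pred z0])
  rw [h4] at h5
  generalize hr : X.AK.amm X.Q X.q X.s (X.AK.chunk 0 (X.AB.pow (X.zv ws gs xU) X.q)) = r at h5
  rw [c.hq] at h5
  have r0 : c.πK.ev r ≠ 0 := fun h => h2 (by rw [← h5, h, zero_pow c.D.hq.ne_zero])
  have : NeZero c.D.q := ⟨c.D.hq.ne_zero⟩
  obtain ⟨a, ha, h6⟩ := c.D.hζ.eq_pow_of_pow_eq_one
    (ξ := (c.π k0).ev (X.zv ws gs xU) / c.πK.ev r) (by rw [div_pow, h3, h5, div_self h2])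
  have h7 : ∀ i, (c.π i).ev (X.AB.sub (X.zv ws gs xU) (X.AB.mul (X.AK.nv r) (X.AB.pow X.ζ a))) =
      (c.π i).ev (X.zv ws gs xU) - c.πK.ev r * c.D.ζ ^ a := fun i => by
    rw [Ch.ev_sub, Ch.ev_mul, Ch.ev_pow, c.ev_ζ, c.ev_low i (Alg.length_nv _ _).le, Ch.ev_nv]
  have h8 := hG k0 _ (List.mem_map.2 ⟨a, List.mem_range.2 (c.hq ▸ ha), rfl⟩) (by
    rw [hr, h7, h6, mul_div_cancel₀ _ r0, sub_self])
  rw [hr] at h8
  have h9 := fun i => sub_eq_zero.1 ((h7 i).symm.trans ((c.π i).ev_of_isZ h8))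
  exact ⟨_, h9 k0 ▸ z0, h9, h9⟩

/-- By `glob_root` and the operations on series. -/
theorem glob_ls {W Gh W' : c.D.O} {U : K[X]} {ρ a : K} {ws gs : List LE} {xU : LE}
    (hρ : ρ ≠ 0) (ha : a ≠ 0) (hG : Gh ≠ 0) (hW : W ≠ 0) (hU : U ≠ 0) (hW' : W' ≠ 0)
    (h : W * c.D.of U * c.D.s 1 W' = c.D.of (C ρ) * Gh * W') (hN : c.D.nrm W' = C a * U)
    (h1 : (c.D.ι 0 W').coeff (-c.D.deg 0 W') = 1) (i : Fin c.D.n)
    (lw : ∀ k < c.D.q, c.LS i (ws.getD k (0, [])) (c.D.ι k W))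
    (lg : ∀ k < c.D.q, c.LS i (gs.getD k (0, [])) (c.D.ι k Gh)) (lU : c.LS i xU (xi U))
    (hz : (c.π i).ev (X.zv ws gs xU) = ρ) (hb : ∀ k, |c.D.deg k W'| ≤ 3 * (c.D.n : ℤ) ^ 5) :
    ∀ k < c.D.q, c.LS i ((X.glob ws gs xU).getD k (0, [])) (c.D.ι k W') := by
  obtain ⟨h2, h3, -, -⟩ := Crv.glob_root hρ hG hW hU hW' h hN
  have h4 : ∀ j < c.D.q, c.LS i (X.pref ws gs xU j) (∏ l ∈ range j, Crv.Sq W Gh U ρ l) :=
    fun j hj => by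
      rw [Par.pref, ← List.map_take, List.take_range, min_eq_left (c.hq ▸ hj.le)]
      refine LS.prod j fun l hl => ((lw l (hl.trans hj)).mul lU).mul (LS.mul ?_ ?_).inv
      · exact hz ▸ LS.const (hz ▸ hρ)
      · exact lg l (hl.trans hj)
  intro k hk
  rw [Par.glob, sa_getD, if_pos (c.hq ▸ hk), c.hq]
  refine LS.fix ?_ (hb k)
  rw [h3 k]
  exact ((lU.mul (LS.prod _ h4)).root h2 ha h1).mul (h4 k hk).inv

end Vale.Agent.P319A.Ctx
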