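import Vale.Agent.P319A.SCtx
import Vale.Agent.P319A.SDep

/-!
Generators of ideals modulo a monic polynomial.
-/

open Polynomial Finset

namespace Vale.Agent.P319A.Ctx

variable {X : Par} {K : Type} [Field K] (c : Ctx X K) (i : Fin c.D.n)

theorem sidl_le {μ : Pol} {G : List OE} {J : Ideal c.D.O} :
    c.Idl i μ G ≤ J ↔ (∀ γ ∈ G, c.od i γ ∈ J) ∧ c.D.of ((c.π i).pd μ) ∈ J := by
  rw [Idl, sup_le_iff, Ideal.span_le, Ideal.span_singleton_le_iff_mem]
  exact and_congr_left' ⟨fun h γ hγ => h ⟨γ, hγ, rfl⟩, fun h _ ⟨γ, hγ, e⟩ => e ▸ h γ hγ⟩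

theorem sidl_mem {μ : Pol} {G : List OE} {γ : OE} (h : γ ∈ G) : c.od i γ ∈ c.Idl i μ G :=
  ((c.sidl_le i).1 le_rfl).1 γ h

theorem sidl_mu (μ : Pol) (G : List OE) : c.D.of ((c.π i).pd μ) ∈ c.Idl i μ G :=
  ((c.sidl_le i).1 le_rfl).2

theorem sidl_omod {μ : Pol} (hμ : (c.π i).Mo μ) (G : List OE) (b : OE) :
    c.od i (X.omod μ b) ∈ c.Idl i μ G ↔ c.od i b ∈ c.Idl i μ G := by
  have h := Ideal.mem_of_dvd _ (c.dvd_sub_omod i hμ b) (c.sidl_mu i μ G)
  exact ⟨fun h1 => by simpa using add_mem h h1, fun h1 => by simpa using sub_mem h1 h⟩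

theorem sidl_deg {μ : Pol} (hμ : (c.π i).Mo μ) (b : OE) (l : ℕ) :
    (c.D.co l (c.od i (X.omod μ b))).degree < (μ.length - 1 : ℕ) := by
  rw [c.co_omod i hμ, ← hμ.natDegree, ← degree_eq_natDegree hμ.monic.ne_zero]
  exact degree_modByMonic_lt _ hμ.monic

theorem sidl_comb {m : ℕ} {L : List OE} {b : OE}
    (hL : ∀ γ ∈ L, ∀ l, (c.D.co l (c.od i γ)).degree < m)
    (hb : ∀ l, (c.D.co l (c.od i b)).degree < m) {x : ℕ → K}
    (h : (c.π i).Comb (X.ocs m b).length (L.map (X.ocs m)) x (X.ocs m b)) :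
    c.od i b = ∑ j ∈ range L.length, c.D.of (C (x j)) * c.od i (L.getD j []) := by
  have hm : ∀ j ∈ range L.length, L.getD j [] ∈ L := fun j hj => by
    rw [List.getD_eq_getElem _ _ (Finset.mem_range.1 hj)]
    exact List.getElem_mem _
  refine sub_eq_zero.1 (c.eq_zero_of_coeffs (m := m) (fun l => ?_) fun k hk => ?_)
  · rw [← mem_degreeLT, map_sub, map_sum]
    refine sub_mem (mem_degreeLT.2 (hb l)) (Submodule.sum_mem _ fun j hj => ?_)
    rw [c.D.co_of_mul, C_mul']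
    exact Submodule.smul_mem _ _ (mem_degreeLT.2 (hL _ (hm j hj) l))
  · have h1 := h k (by rwa [length_ocs, c.hq])
    rw [c.ev_ocs i hk, List.length_map] at h1
    rw [map_sub, map_sum, coeff_sub, finsetSum_coeff, ← h1, sub_eq_zero]
    refine Finset.sum_congr rfl fun j hj => ?_
    rw [sa_map_getD _ _ _ [], if_pos (Finset.mem_range.1 hj), c.ev_ocs i hk, c.D.co_of_mul,
      coeff_C_mul]

theorem sidl_inv {μ : Pol} (hμ : (c.π i).Mo μ) (l : List OE)
    (hG : (c.π i).Gd (X.obasisL μ l).2) :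
    (∀ γ ∈ (X.obasisL μ l).1, ∀ a, (c.D.co a (c.od i γ)).degree < (μ.length - 1 : ℕ)) ∧
    (∀ j < ((X.obasisL μ l).1.map (X.ocs (μ.length - 1))).length,
      ¬ ∃ x, (c.π i).Comb (X.q * (μ.length - 1))
        (((X.obasisL μ l).1.map (X.ocs (μ.length - 1))).take j) x
        (((X.obasisL μ l).1.map (X.ocs (μ.length - 1))).getD j [])) ∧
    c.Idl i μ (X.obasisL μ l).1 = c.Idl i μ l := by
  induction l using List.reverseRecOn with
  | nil => simp [Par.obasisL, foldLog]
  | append_singleton l b ih =>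
    rw [Par.obasisL, foldLog_append, ← Par.obasisL] at hG ⊢
    obtain ⟨hG1, hG2⟩ := (c.π i).gd_append.1 hG
    obtain ⟨h1, h2, h3⟩ := ih hG1
    generalize (X.obasisL μ l).1 = L at *
    have hs := ((c.π i).solve_spec (c.fix i) hG2).1
    cases h : X.AB.solvable X.Q (L.map (X.ocs (μ.length - 1)))
      (X.ocs (μ.length - 1) (X.omod μ b)) with
    | true =>
      obtain ⟨x, hx⟩ := hs.1 h
      refine ⟨h1, h2, le_antisymm (h3.trans_le ((c.sidl_le i).2 ⟨fun γ hγ => c.sidl_mem i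
        (List.mem_append_left _ hγ), c.sidl_mu i _ _⟩)) ((c.sidl_le i).2 ⟨fun γ hγ => ?_,
          c.sidl_mu i _ _⟩)⟩
      rcases List.mem_append.1 hγ with hγ | hγ
      · exact h3.ge (c.sidl_mem i hγ)
      · rw [List.mem_singleton.1 hγ, ← c.sidl_omod i hμ,
          c.sidl_comb i h1 (c.sidl_deg i hμ b) hx]
        refine Ideal.sum_mem _ fun j hj => Ideal.mul_mem_left _ _ (c.sidl_mem i ?_)
        rw [List.getD_eq_getElem _ _ (Finset.mem_range.1 hj)]
        exact List.getElem_mem _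
    | false =>
      simp only [cond_false]
      refine ⟨fun γ hγ => ?_, fun j hj => ?_, le_antisymm ((c.sidl_le i).2 ⟨fun γ hγ => ?_,
        c.sidl_mu i _ _⟩) ((c.sidl_le i).2 ⟨fun γ hγ => ?_, c.sidl_mu i _ _⟩)⟩
      · rcases List.mem_append.1 hγ with hγ | hγ
        · exact h1 γ hγ
        · exact List.mem_singleton.1 hγ ▸ c.sidl_deg i hμ b
      · rw [List.map_append, List.map_singleton] at hj ⊢
        rw [List.length_append, List.length_singleton] at hj
        rw [List.take_append_of_le_length (by omega)]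
        rcases Nat.lt_succ_iff_lt_or_eq.1 hj with hj | rfl
        · rw [List.getD_append _ _ _ _ hj]
          exact h2 j hj
        · rw [List.take_length, List.getD_append_right _ _ _ _ le_rfl, Nat.sub_self,
            List.getD_cons_zero, ← length_ocs X _ (X.omod μ b), ← hs, h]
          exact Bool.false_ne_true
      · rcases List.mem_append.1 hγ with hγ | hγ
        · exact (c.sidl_le i).2 ⟨fun γ hγ => c.sidl_mem i (List.mem_append_left _ hγ),
            c.sidl_mu i _ _⟩ (h3.le (c.sidl_mem i hγ))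
        · rw [List.mem_singleton.1 hγ, c.sidl_omod i hμ]
          exact c.sidl_mem i (by simp)
      · rcases List.mem_append.1 hγ with hγ | hγ
        · exact (c.sidl_le i).2 ⟨fun γ hγ => c.sidl_mem i (List.mem_append_left _ hγ),
            c.sidl_mu i _ _⟩ (h3.ge (c.sidl_mem i hγ))
        · rw [List.mem_singleton.1 hγ, ← c.sidl_omod i hμ]
          exact c.sidl_mem i (by simp)

/-- Invariant of the fold (induct with `foldLog_append` on the list from the right): the kept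
elements are reduced, no kept row is a combination of the previous ones (so `take` is the identity
by `length_le_of_indep`), and a dropped element is a `K`-combination of kept ones
(`eq_zero_of_coeffs`). -/
theorem obasis_spec {μ : Pol} (hμ : (c.π i).Mo μ) (l : List OE)
    (hG : (c.π i).Gd (X.obasisL μ l).2) : c.Idl i μ (X.obasis μ l) = c.Idl i μ l := by
  obtain ⟨-, h2, h3⟩ := c.sidl_inv i hμ l hG
  have h4 := (c.π i).length_le_of_indep _ _ h2
  rw [List.length_map] at h4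
  rw [Par.obasis, List.take_of_length_le h4, ← h3]
  refine le_antisymm ((c.sidl_le i).2 ⟨fun γ hγ => ?_, c.sidl_mu i _ _⟩)
    ((c.sidl_le i).2 ⟨fun γ hγ => ?_, c.sidl_mu i _ _⟩)
  · obtain ⟨b, hb, rfl⟩ := List.mem_map.1 hγ
    exact (c.sidl_omod i hμ _ b).2 (c.sidl_mem i hb)
  · exact (c.sidl_omod i hμ _ γ).1 (c.sidl_mem i (List.mem_map_of_mem hγ))

theorem gmul_spec {μ : Pol} {G H : List OE} {I J : Ideal c.D.O} (hI : c.Idl i μ G = I)
    (hJ : c.Idl i μ H = J) (h : c.D.of ((c.π i).pd μ) ∈ I * J.map (c.D.s 1)) :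
    c.Idl i μ (X.gmul G H) = I * J.map (c.D.s 1) := by
  subst hI hJ
  refine le_antisymm ((c.sidl_le i).2 ⟨fun γ hγ => ?_, h⟩) ?_
  · obtain ⟨a, ha, hγ⟩ := List.mem_flatMap.1 hγ
    obtain ⟨b, hb, rfl⟩ := List.mem_map.1 hγ
    rw [od_omul, od_osig]
    exact Ideal.mul_mem_mul (c.sidl_mem i ha) (Ideal.mem_map_of_mem _ (c.sidl_mem i hb))
  · have h1 := c.sidl_mu i μ (X.gmul G H)
    rw [Idl, Idl, ← Ideal.span_union, ← Ideal.span_union, Ideal.map_span, Ideal.span_mul_span',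
      Ideal.span_le]
    rintro _ ⟨_, (⟨a, ha, rfl⟩ | rfl), _, ⟨_, (⟨b, hb, rfl⟩ | rfl), rfl⟩, rfl⟩
    · have := c.sidl_mem i (μ := μ) (G := X.gmul G H)
        (List.mem_flatMap.2 ⟨a, ha, List.mem_map_of_mem hb⟩)
      rwa [od_omul, od_osig] at this
    · exact Ideal.mul_mem_left _ _ (by rwa [c.D.s_of])
    · exact Ideal.mul_mem_right _ _ h1
    · exact Ideal.mul_mem_right _ _ h1

theorem ipows_spec {μ : Pol} (hμ : (c.π i).Mo μ) {G : List OE} {I : Ideal c.D.O}
    (hI : c.Idl i μ G = I) (h : c.D.of ((c.π i).pd μ) ∈ c.D.Ii I c.D.q)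
    (hG : (c.π i).Gd (X.ipows μ G).2) {j : ℕ} (hj : j ≤ c.D.q) :
    c.Idl i μ ((X.ipows μ G).1.getD j []) = c.D.Ii I j := by
  refine (foldLog_range _ _ (fun v => (c.π i).ev v = 0 → X.AB.isZ v = true)
    (fun k (L : List (List OE)) => L.length = k + 1 ∧
      ∀ j ≤ k, c.Idl i μ (L.getD j []) = c.D.Ii I j) ⟨rfl, fun j hj => ?_⟩ X.q
    (fun k hk L ⟨h1, h2⟩ h3 => ⟨by simp [h1], fun j hj => ?_⟩) hG).2 j (c.hq ▸ hj)
  · rw [Nat.le_zero.1 hj, c.D.Ii_zero, Ideal.eq_top_iff_one]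
    simpa using c.sidl_mem i (μ := μ) (G := [[[[1]]]]) (List.mem_singleton_self _)
  · rcases Nat.le_succ_iff.1 hj with hj | rfl
    · rw [List.getD_append _ _ _ _ (by omega)]
      exact h2 j hj
    · rw [List.getD_append_right _ _ _ _ h1.le, h1, Nat.sub_self, List.getD_cons_zero,
        c.obasis_spec i hμ _ h3, c.D.Ii_succ]
      refine c.gmul_spec i hI (h2 k le_rfl) ?_
      rw [← c.D.Ii_succ]
      exact c.D.Ii_anti I (by rw [← c.hq]; omega) h

end Vale.Agent.P319A.Ctx
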