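import Vale.Agent.P319A.SDiv
import Vale.Agent.P319A.SGlob

/-!
The main loop: some log entry is bad, and it yields a proper factor.
-/

open Polynomial Finset

namespace Vale.Agent.P319A

/-- `s` is a monic proper factor of `f` over the prime field. -/
def Proper (p : ℕ) [Fact p.Prime] (f s : Pol) : Prop :=
  (z1 p).Mo s ∧ Sh 1 s ∧ 2 ≤ s.length ∧ s.length < f.length ∧ (z1 p).pd s ∣ (z1 p).pd f

namespace Ctx

variable {X : Par} {K : Type} [Field K] (c : Ctx X K)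

theorem n_le_D : c.D.n ≤ X.D := by
  rw [Par.D, c.hn]
  exact (Nat.le_self_pow (by norm_num) _).trans (Nat.le_mul_of_pos_left _ (by norm_num))

theorem inv_mk {j : ℕ} {u : Pol} {G : List OE} {ws : List LE} {I : Fin c.D.n → Ideal c.D.O}
    {W : c.D.O} (mo : ∀ i, (c.π i).Mo u) (len : u.length - 1 ≤ c.D.q * c.D.n)
    (idl : ∀ i, c.Idl i u G = I i) (nm : ∀ i, c.D.Nm (I i) ((c.π i).pd u))
    (ch : ∀ i, c.D.Chain c.φ j (I i)) (prod : ∏ i, I i = Ideal.span {W})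
    (lenw : ws.length = c.D.q) (ls : ∀ i, ∀ k < c.D.q, c.LS i (ws.getD k (0, [])) (c.D.ι k W))
    (bd : ∀ k, |c.D.deg k W| ≤ 3 * (c.D.n : ℤ) ^ 5) (link : ∀ k, (c.D.n : ℤ) ∣
      ((c.D.n : ℤ) ^ 2 - c.D.n1) - dlt^[j] (fun k => c.D.deg k W) k) : c.Inv j (u, G, ws) I W :=
  ⟨mo, len, idl, nm, ch, prod, lenw, ls, bd, link⟩

/-- By `post_ok` for the principal ideals of the `h0 i`, `start`, and `Chain.zero`. -/
theorem init_spec (hG : ∀ i, (c.π i).Gd X.initL) : ∃ I W, c.Inv 0 X.init I W := by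
  obtain ⟨W, h1, h2⟩ := c.D.start
  have h5 : (0 : ℤ) ≤ (c.D.n : ℤ) ^ 5 := by positivity
  have hp := fun i => c.post_ok i (β := X.h0) (A := [X.h0]) (I := Ideal.span {c.D.h0 i})
    (by simp [c.od_h0, eq_comm]) (by rw [c.od_h0]; exact Ideal.mem_span_singleton_self _)
    (by rw [c.od_h0]; exact c.D.h0_ne i) (by rw [c.od_h0]; exact c.coLe_h0 i) (by
      have := c.D.deg_sum (c.D.h0_ne i)
      simp only [c.D.deg_h0, sum_const, card_range, nsmul_eq_mul] at this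
      rw [c.od_h0]
      exact_mod_cast this.ge) ((c.π i).gd_append.1 (hG i)).1
  have hs := fun i k (hk : k < c.D.q) => (c.π i).gd_append.1 ((c.π i).gd_flatMap.1
    ((c.π i).gd_append.1 (hG i)).2 k (List.mem_range.2 (hk.trans_eq c.hq.symm)))
  have W0 : W ≠ 0 := left_ne_zero_of_mul (h1.trans_ne (prod_ne_zero_iff.2 fun i _ => c.D.h0_ne i))
  have hd : ∀ k, c.D.deg k W = (c.D.n : ℤ) ^ 2 - c.D.n1 := fun k => by
    have h3 := c.D.deg_mul k W0 c.D.y_ne
    rw [h1, c.D.deg_y, Crv.deg, map_prod, dg_prod fun i _ => c.D.ι_ne k (c.D.h0_ne i)] at h3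
    have h4 : ∀ i, dg (c.D.ι k (c.D.h0 i)) = c.D.n := fun i => c.D.deg_h0 i k
    simp only [h4, sum_const, card_univ, Fintype.card_fin, nsmul_eq_mul] at h3
    linear_combination -h3
  have hb : ∀ k, |c.D.deg k W| ≤ 3 * (c.D.n : ℤ) ^ 5 := fun k => by
    have h3 : (c.D.n1 : ℤ) < c.D.n := by exact_mod_cast c.D.n1_lt_n
    have h4 : (1 : ℤ) ≤ c.D.n := by omega
    have h6 := pow_le_pow_right₀ h4 (show 2 ≤ 5 by norm_num)
    rw [hd, abs_le]
    constructor <;> nlinarith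
  rw [Par.init]
  refine ⟨fun i => c.D.sat (Ideal.span {c.D.h0 i}), W, c.inv_mk (fun i => (hp i).1)
    (hp ⟨0, c.D.q_pos.trans_le c.D.q_le_n⟩).2.1 (fun i => (hp i).2.2.2) (fun i => (hp i).2.2.1)
    (fun i => .zero ⟨_, rfl, fun b hb => hb ▸ c.rat_h0 i⟩ fun h => c.D.h0_ne i
      (Ideal.span_singleton_eq_bot.1 h)) h2 (by simp [c.hq]) (fun i k hk => ?_) hb
    fun k => by simp [hd]⟩
  have l1 := c.lnorm_spec (fun j => c.lser_spec j k (b := X.h0)
    (by rw [c.od_h0]; exact (c.coLe_h0 j).mono c.n_le_D) (hs j k hk).1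
    (by rw [c.od_h0]; exact c.D.h0_ne j) (by rw [c.od_h0, c.D.deg_h0]; omega)) i
  have l2 := c.lser_spec i k (b := [[], [[1]]]) (fun l => by
    rw [c.od_y, ← pow_one c.D.y, c.D.co_y_pow l c.D.two_le_q]
    split_ifs <;> simp) (hs i k hk).2 (by rw [c.od_y]; exact c.D.y_ne)
    (by rw [c.od_y, c.D.deg_y]; omega)
  have l3 := l1.mul l2.inv
  simp only [c.od_h0, c.od_y] at l3
  rw [← map_prod, ← h1, map_mul, mul_inv_cancel_right₀ (c.D.ι_ne k c.D.y_ne)] at l3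
  simpa [List.getD_eq_getElem?_getD, c.hq, hk] using l3.fix (hb k)

theorem num1 {q n u d τ : ℤ} (h2 : 2 ≤ q) (hq : q ≤ n) (hu : u ≤ q * n) (hd : |d - τ| ≤ q ^ 2 * n)
    (hτ : |τ| ≤ 4 * n ^ 4) : n * (u + d) < 7 * n ^ 5 := by
  have h1 : (1 : ℤ) ≤ n := by omega
  have h3 : q * n ≤ n ^ 2 := by nlinarith
  have h4 : q ^ 2 * n ≤ n ^ 3 := by nlinarith
  have h5 := pow_le_pow_right₀ h1 (show 2 ≤ 4 by norm_num)
  have h6 := pow_le_pow_right₀ h1 (show 3 ≤ 4 by norm_num)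
  have h7 : u + d ≤ 6 * n ^ 4 := by linarith [(abs_le.1 hd).2, (abs_le.1 hτ).2]
  have h8 : 0 < n ^ 5 := by positivity
  nlinarith

theorem num2 {q n w d τ : ℤ} (h2 : 2 ≤ q) (hq : q ≤ n) (hw : |w - n * τ| ≤ q * n)
    (hd : |d - τ| ≤ q ^ 2 * n) : |w - n * d| ≤ 2 * n ^ 4 := by
  have h1 : (1 : ℤ) ≤ n := by omega
  have h3 : q * n ≤ n ^ 2 := by nlinarith
  have h4 : q ^ 2 * n ≤ n ^ 3 := by nlinarith
  have h5 := pow_le_pow_right₀ h1 (show 2 ≤ 4 by norm_num)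
  obtain ⟨h6, h7⟩ := abs_le.1 (hd.trans h4)
  obtain ⟨h8, h9⟩ := abs_le.1 hw
  rw [abs_le]
  constructor <;> nlinarith

/-- Assemble `Inv.pre`, `div_spec`, `Nm.prod`, `Rel.prod`, `user_spec`, `gser_spec`, `zv_const`,
`glob_step`, `nrm_of_span`, `glob_root`, `omega_bound`, `glob_ls`, `dlt_step`. -/
theorem round_spec [IsAlgClosed K] {j : ℕ} {st : St} {I : Fin c.D.n → Ideal c.D.O} {W : c.D.O}
    (h : c.Inv j st I W) (hj : j < X.rounds) (hG : ∀ i, (c.π i).Gd (X.round st).2) :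
    ∃ I' W', c.Inv (j + 1) (X.round st).1 I' W' := by
  have i0 : Fin c.D.n := ⟨0, c.D.q_pos.trans_le c.D.q_le_n⟩
  rw [Par.round] at hG ⊢
  dsimp only at hG ⊢
  have G1 := fun i => (c.π i).gd_append.1 (hG i)
  have G2 := fun i => (c.π i).gd_append.1 (G1 i).1
  have G3 := fun i => (c.π i).gd_append.1 (G2 i).1
  choose I' gh o using fun i => div_spec (h.pre hj i) (G3 i).1 (G3 i).2
  obtain ⟨W0, hW, hs⟩ := h.deg_sum
  have hq2 : (2 : ℤ) ≤ c.D.q := by exact_mod_cast c.D.two_le_q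
  have hqn : (c.D.q : ℤ) ≤ c.D.n := by exact_mod_cast c.D.q_le_n
  have hτ := (tauF_spec c.D.two_le_q c.D.q_le_n (fun k => c.D.deg_add_q k W) hs h.bd).2.2.1
  rw [← tau_eq h] at hτ
  have hN := Crv.Nm.prod univ fun i _ => (o i).nm
  have hR := Crv.Rel.prod univ fun i _ => (o i).rel
  rw [h.prod, ← map_prod] at hR
  have lU := user_spec (fun i => (o i).mo) (o i0).len fun i => ((c.π i).gd_append.1 (G2 i).2).1
  obtain ⟨lg, dg⟩ := gser_spec (fun i => (o i).mo) (o i0).len (fun i => (o i).eq)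
    (fun i => (o i).β0) (fun i => (o i).a0) (fun i => (o i).βle) (fun i => (o i).ale)
    (fun i => (o i).βdeg) (fun i => (o i).adeg) (h.pre hj i0).bd fun i => (G2 i).2
  have dU : (∏ i, (c.π i).pd (X.postU (X.dβ st) (X.dA st))).natDegree =
      c.D.n * ((X.postU (X.dβ st) (X.dA st)).length - 1) := by
    rw [natDegree_prod_of_monic _ _ fun i _ => (o i).mo.monic]
    simp [(o _).mo.natDegree]
  have hl : (((X.postU (X.dβ st) (X.dA st)).length - 1 : ℕ) : ℤ) ≤ c.D.q * c.D.n := by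
    exact_mod_cast (o i0).len
  have n5 : (0 : ℤ) < (c.D.n : ℤ) ^ 5 := pow_pos (by omega) 5
  obtain ⟨ρ, ρ0, hz, hρ⟩ := zv_const hN hW hR h.lenw (by simp [Par.gser, c.hq]) h.ls lg lU
    (fun k _ => by linarith [(abs_le.1 (h.bd k)).2])
    (fun k hk => by
      obtain ⟨d, h1, h2⟩ := dg k hk
      rw [h2]
      exact num1 hq2 hqn hl h1 ((h.pre hj i0).bd k))
    (by
      have := num1 (d := 0) (τ := 0) hq2 hqn hl
        (by simpa using mul_nonneg (sq_nonneg _) (Int.natCast_nonneg _)) (by simp)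
      rw [dU]
      rw [add_zero] at this
      exact_mod_cast this) fun i => (G1 i).2
  obtain ⟨W', hT, e, c1⟩ := Crv.glob_step hN hW hR hρ
  obtain ⟨W1, -, ⟨a, a0, ha⟩, hs'⟩ := Crv.nrm_of_span (W := W') (by rw [← hT]; exact hN)
  have g0 : ∀ i, gh i ≠ 0 := fun i => left_ne_zero_of_mul
    ((o i).eq.trans_ne (mul_ne_zero (c.D.of_ne (o i).nm.monic.ne_zero) (o i).a0))
  have G0 : ∏ i, gh i ≠ 0 := prod_ne_zero_iff.2 fun i _ => g0 i
  have hd : ∀ k, ∃ d : ℤ, c.D.deg k W' - c.D.deg (k + 1) W' = c.D.deg k W - c.D.n * d ∧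
      |c.D.deg k W - c.D.n * d| ≤ 2 * (c.D.n : ℤ) ^ 4 := fun k => by
    obtain ⟨d, h1, h2⟩ := dg (k % c.D.q) (Nat.mod_lt _ c.D.q_pos)
    have h3 := num2 hq2 hqn (hτ (k % c.D.q)) h1
    rw [Crv.deg, c.D.ι_mod, ← Crv.deg] at h2 h3
    refine ⟨d, ?_, h3⟩
    rw [(Crv.glob_root ρ0 G0 W0 hN.monic.ne_zero W1 e ha).2.2.2 k, dU, h2]
    push_cast
    ring
  have hb := omega_bound c.D.two_le_q c.D.q_le_n (o i0).len (fun k => c.D.deg_add_q k W')
    (by rw [hs', dU]; push_cast; rfl) fun k => by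
      obtain ⟨d, h1, h2⟩ := hd k
      rwa [h1]
  refine ⟨I', W', c.inv_mk (fun i => (o i).mo) (o i0).len (fun i => (o i).idl) (fun i => (o i).nm)
    (fun i => (h.ch i).succ (g0 i) (c.D.of_ne (o i).nm.monic.ne_zero) (o i).nm.ne_bot (o i).rel)
    hT (by simp [Par.glob, c.hq]) (fun i => glob_ls ρ0 a0 G0 W0 hN.monic.ne_zero W1 e ha
      c1 i (h.ls i) (lg i) (lU i) (hz i) hb) hb (dlt_step h.link fun k => ?_)⟩
  obtain ⟨d, h1, -⟩ := hd k
  exact ⟨d, by rw [dlt, h1]; ring⟩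

theorem logs_bad [IsAlgClosed K] : ¬ ∀ i, (c.π i).Gd X.logs := fun hG => by
  have G1 := fun i => (c.π i).gd_append.1 (hG i)
  obtain ⟨I, W, h⟩ := foldLog_range (fun st (_ : ℕ) => X.round st) X.init
    (fun v => ∀ i, (c.π i).ev v = 0 → X.AB.isZ v = true) (fun j st => ∃ I W, c.Inv j st I W)
    (c.init_spec fun i => (G1 i).1) X.rounds
    (fun k hk t ⟨_, _, ht⟩ hx => c.round_spec ht hk fun i v hv => hx v hv i)
    fun v hv i => (G1 i).2 v hv
  have h1 := h.link 0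
  rw [c.rounds_eq, c.D.hn] at h1
  exact final_contra c.D.hq c.D.hn1 (fun k => c.D.deg_add_q k W) h1

/-- Apply `annih_spec` to the character `Ch.pi c.π`; every annihilator divides `f`; for a bad
entry it is not `1`, and it is not `f` since `f / (X - e i)` kills the entry. -/
theorem core_spec [IsAlgClosed K] {p : ℕ} [Fact p.Prime] [Algebra (ZMod p) K] (hp : X.p = p)
    (h1 : Sh 1 X.f) (h2 : ∀ i, ∃ a : ZMod p, algebraMap (ZMod p) K a = c.D.e i) :
    Proper p X.f X.core := by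
  have hF : ((z1 p).pd X.f).map (algebraMap (ZMod p) K) = c.D.f := by
    rw [← c.πK.pd_of_sh1 h1, c.hf]
  have hm : ((z1 p).pd X.f).Monic :=
    monic_of_injective (algebraMap (ZMod p) K).injective (by rw [hF]; exact c.D.f_monic)
  have hn : ((z1 p).pd X.f).natDegree = X.n := by
    rw [← natDegree_map (algebraMap (ZMod p) K), hF, c.D.f_natDegree, c.hn]
  have i0 : Fin c.D.n := ⟨0, c.D.q_pos.trans_le c.D.q_le_n⟩
  have hi : (Ch.pi c.π (c.π i0).pos (c.π i0).dpos).Inj := fun v hv =>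
    c.isZ_of_all fun i => by rw [← Ch.ev_pi c.π (c.π i0).pos (c.π i0).dpos, hv]; rfl
  have e : ∀ (s : (ZMod p)[X]) w, aeval ((Ch.pi c.π (c.π i0).pos (c.π i0).dpos).ev X.th) s *
      (Ch.pi c.π (c.π i0).pos (c.π i0).dpos).ev w = 0 ↔
      ∀ i, aeval (c.D.e i) s * (c.π i).ev w = 0 := fun s w => by
    refine funext_iff.trans (forall_congr' fun i => ?_)
    rw [Pi.mul_apply, Ch.ev_pi, ← c.ev_th i, ← Ch.ev_pi c.π (c.π i0).pos (c.π i0).dpos X.th i]
    exact Eq.congr_left (congrArg (· * _)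
      (aeval_algHom_apply (Pi.evalAlgHom (ZMod p) (fun _ => K) i) _ s).symm)
  have f0 : ∀ i, aeval (c.D.e i) ((z1 p).pd X.f) = 0 := fun i => by
    rw [← eval_map_algebraMap, hF, c.D.f_eval]
  have hA := fun w => Ch.annih_spec (A := X.AB) _ hp hi X.th w hm hn.le
    ((e _ w).2 fun i => by rw [f0, zero_mul])
  simp only [e] at hA
  have hb := c.logs_bad
  simp only [Ch.Gd, not_forall] at hb
  obtain ⟨i, w, hw, w0, w1⟩ := hb
  obtain ⟨a, ha⟩ := h2 i
  obtain ⟨g, hg⟩ : Polynomial.X - C a ∣ (z1 p).pd X.f := dvd_iff_isRoot.2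
    ((algebraMap (ZMod p) K).injective (by
      rw [map_zero, ← f0 i, ← ha, aeval_algebraMap_apply_eq_algebraMap_eval]))
  have g0 : g ≠ 0 := right_ne_zero_of_mul (hg.symm.trans_ne hm.ne_zero)
  have h3 : X.AB.annih X.th w X.n ∈ (X.logs.map fun w => X.AB.annih X.th w X.n).filter
      fun s => decide (2 ≤ s.length) && decide (s.length ≤ X.n) := by
    obtain ⟨a1, -, a3, a4⟩ := hA w
    have a5 := natDegree_le_of_dvd (a4 g fun k => by
      rcases eq_or_ne k i with rfl | hk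
      · rw [w0, mul_zero]
      · have := f0 k
        rw [hg, map_mul, map_sub, aeval_X, aeval_C, ha] at this
        rw [(mul_eq_zero.1 this).resolve_left (sub_ne_zero.2 (c.D.he.ne hk)), zero_mul]) g0
    rw [hg, natDegree_mul (X_sub_C_ne_zero a) g0, natDegree_X_sub_C] at hn
    have a6 := a1.natDegree
    have a7 : ((z1 p).pd (X.AB.annih X.th w X.n)).natDegree ≠ 0 := fun h0 =>
      w1 (c.isZ_of_all fun k => by simpa [a1.monic.natDegree_eq_zero.1 h0] using a3 k)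
    simp only [List.mem_filter, List.mem_map, Bool.and_eq_true, decide_eq_true_eq]
    exact ⟨⟨w, hw, rfl⟩, by omega, by omega⟩
  have h4 : X.core ∈ (X.logs.map fun w => X.AB.annih X.th w X.n).filter
      fun s => decide (2 ≤ s.length) && decide (s.length ≤ X.n) := by
    unfold Par.core
    generalize List.filter _ _ = L at h3 ⊢
    cases L with
    | nil => simp at h3
    | cons => exact List.mem_cons_self
  simp only [List.mem_filter, List.mem_map, Bool.and_eq_true, decide_eq_true_eq] at h4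
  obtain ⟨⟨v, -, hv⟩, h5, h6⟩ := h4
  obtain ⟨a1, a2, -, a4⟩ := hA v
  rw [hv] at a1 a2 a4
  exact ⟨a1, a2, h5, by have := c.len_f; omega, a4 _ fun k => by rw [f0, zero_mul]⟩

end Ctx

end Vale.Agent.P319A
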