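import Vale.Agent.P319A.STower
import Vale.Agent.P319A.SLoop

/-!
The parameters built from a correct entry, and the splitting of split squarefree polynomials.
-/

open Polynomial Finset

namespace Vale.Agent.P319A

variable {p : ℕ} [Fact p.Prime]

/-- A monic divisor of `X ^ p - X` is a product of distinct linear factors. -/
theorem exists_roots {f : (ZMod p)[X]} (hf : f.Monic) (h : f ∣ X ^ p - X) {n : ℕ}
    (hn : f.natDegree = n) :
    ∃ e : Fin n → ZMod p, Function.Injective e ∧ f = ∏ i, (X - C (e i)) := by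
  classical
  have h0 : (X ^ p - X : (ZMod p)[X]) ≠ 0 :=
    FiniteField.X_pow_card_sub_X_ne_zero _ (Fact.out : p.Prime).one_lt
  have h1 : (X ^ p - X : (ZMod p)[X]).roots = univ.val := by
    simpa only [ZMod.card] using FiniteField.roots_X_pow_card_sub_X (ZMod p)
  have h2 : f.Splits := Splits.of_dvd (splits_iff_card_roots.2 (by
    rw [h1, FiniteField.X_pow_card_sub_X_natDegree_eq _ (Fact.out : p.Prime).one_lt]
    simp)) h0 h
  have h3 : f.roots.Nodup := Multiset.nodup_of_le (roots.le_of_dvd h0 h) (h1 ▸ univ.nodup)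
  have h4 : f.roots.toFinset.card = n := by
    rw [Multiset.toFinset_card_of_nodup h3, ← hn, splits_iff_card_roots.1 h2]
  refine ⟨fun i => (f.roots.toFinset.equivFinOfCardEq h4).symm i,
    Subtype.val_injective.comp (Equiv.injective _), ?_⟩
  rw [(f.roots.toFinset.equivFinOfCardEq h4).symm.prod_comp fun a => X - C (a : ZMod p),
    Finset.prod_coe_sort _ fun a => X - C a, Finset.prod, Multiset.toFinset_val,
    h3.dedup]
  exact h2.eq_prod_roots_of_monic hf

theorem smk_len (A : Alg) (m : ℕ) (ν : Vec) : (kum A m ν).length = m + 1 := by simp [kum]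

theorem smk_pd {A : Alg} {R : Type} [CommRing R] (π : Ch A R) {m : ℕ} (hm : 0 < m) (ν : Vec) :
    π.pd (kum A m ν) = X ^ m - C (π.ev ν) := by
  ext a
  rw [Ch.coeff_pd, kum, sa_getD, coeff_sub, coeff_X_pow, coeff_C]
  by_cases h1 : a = m
  · simp [h1, hm.ne']
  · by_cases h2 : a = 0
    · simp [h2, hm.ne, beq_eq_false_iff_ne.2 hm.ne]
    · simp [h1, h2, beq_eq_false_iff_ne.2 h1, beq_eq_false_iff_ne.2 h2]

theorem smk_mo {A : Alg} {R : Type} [CommRing R] (π : Ch A R) {m : ℕ} (hm : 0 < m) (ν : Vec) :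
    π.Mo (kum A m ν) := ⟨by simp [smk_len], by
  rw [← Ch.coeff_pd, smk_pd π hm, smk_len]
  simp [coeff_C, hm.ne']⟩

theorem smk_fix {x : Kb p} {d : ℕ} (h : x ^ p ^ d = x) (a : ℕ) :
    iterateFrobenius (Kb p) p (d * a) x = x := by
  rw [iterateFrobenius_mul_apply]
  exact Function.iterate_fixed h a

theorem smk_alg (a : ZMod p) (k : ℕ) :
    iterateFrobenius (Kb p) p k (algebraMap (ZMod p) (Kb p) a) = algebraMap _ _ a := by
  rw [iterateFrobenius_def, ← map_pow, ZMod.pow_card_pow]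

/-- Choose a root `z` of the irreducible polynomial and a root `s` of `X ^ qt - ν`; take
`φ x = x ^ p ^ d` (`iterateFrobenius`), `ψ x = x ^ Q`, `t = v + 1`. Injectivity: by `ext_inj` for
the conjugates `φ^[a] s`, since the character at `φ^[a] s` is `φ^[a]` of the character at `s`. -/
theorem exists_ctx {q : ℕ} (hq : q.Prime) {E : Ent} (hE : GoodEnt p q E) {f : Pol}
    (hf : (z1 p).Mo f) (h1 : Sh 1 f) (hs : (z1 p).pd f ∣ X ^ p - X) (h2 : 2 ≤ f.length - 1)
    (hd : q ∣ f.length - 1) (hp : 20 * (f.length - 1) ^ 5 ≤ p) :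
    ∃ c : Ctx (mkPar p q E f) (Kb p), ∀ i, ∃ a : ZMod p, algebraMap (ZMod p) (Kb p) a = c.D.e i := by
  have := Fact.mk hq
  have pp : p.Prime := Fact.out
  obtain ⟨e, he, hfe⟩ := exists_roots hf.monic hs hf.natDegree
  obtain ⟨z, hz⟩ := IsAlgClosed.exists_aeval_eq_zero (Kb p) _ hE.irr.degree_pos.ne'
  obtain ⟨r1, r2, r3⟩ := hE.root z hz
  have hm := qt_eq hq (by omega) hd
  have m0 : 0 < qt q (f.length - 1) := hm ▸ pow_pos hq.pos _
  have d0 : 0 < E.1.length - 1 := by have := two_le_of_irr hE.mo hE.irr; omega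
  have hP : 1 < p ^ (E.1.length - 1) := Nat.one_lt_pow d0.ne' pp.one_lt
  obtain ⟨s, hs⟩ := IsAlgClosed.exists_pow_nat_eq (evz (E.1.length - 1) E.2.2 z) m0
  have kp := k0_pow hE.mo hE.irr hz
  have ke := ev_k0 hE.mo hE.irr hz
  obtain ⟨k1, k2, k3, k4⟩ := kummer hq hP hE.dvd hE.four r2 (ke _ ▸ kp _) r3 (hm ▸ hs)
  rw [← hm, ← pow_mul] at k1 k2 k3
  rw [← hm] at k4
  have g1 := smk_mo (k0 hE.mo hE.irr hz) m0 E.2.2
  have g2 : 2 ≤ (kum ((A1 p).ext E.1) (qt q (f.length - 1)) E.2.2).length := by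
    rw [smk_len]; omega
  have g3 : ∀ a, ((k0 hE.mo hE.irr hz).pd (kum ((A1 p).ext E.1) (qt q (f.length - 1)) E.2.2)).eval
      (iterateFrobenius (Kb p) p ((E.1.length - 1) * a) s) = 0 := fun a => by
    rw [smk_pd _ m0, eval_sub, eval_pow, eval_X, eval_C, ← map_pow, hs, ← ke, smk_fix (kp _),
      sub_self]
  have g4 : ((k0 hE.mo hE.irr hz).pd (kum ((A1 p).ext E.1) (qt q (f.length - 1)) E.2.2)).eval
      s = 0 := by simpa using g3 0
  have q0 : q ≤ f.length - 1 := Nat.le_of_dvd (by omega) hd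
  have q1 : (mkPar p q E f).q = q := min_eq_left q0
  have dd : E.1.length - 1 ≤ (mkPar p q E f).AK.d := by
    simp only [mkPar, Par.AK, Alg.ext_d, smk_len, Nat.add_sub_cancel]
    exact (Nat.le_mul_of_pos_right _ (z1 p).dpos).trans (Nat.le_mul_of_pos_left _ m0)
  have z1' : (k0 hE.mo hE.irr hz).ev E.2.1 ^ p ^ (E.1.length - 1) = _ := kp _
  rw [ke] at z1'
  refine ⟨⟨⟨q, (f.length - 1) / q, f.length - 1, _, fun i => algebraMap _ _ (e i), hq,
      (Nat.mul_div_cancel' hd).symm, Nat.div_pos q0 hq.pos, r1,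
      (algebraMap (ZMod p) (Kb p)).injective.comp he⟩,
    (k0 hE.mo hE.irr hz).ext _ s g1 g2 g4, iterateFrobenius _ p (E.1.length - 1),
    iterateFrobenius _ p ((E.1.length - 1) * qt q (f.length - 1)),
    padicValNat q (f.length - 1) + 1, q1, rfl, Ch.mo_of_sh1 _ h1 hf, ?_, h1.mono (d0.trans_le dd),
    ?_, hE.shζ.trans dd, (Alg.length_gen _ _).le, ?_, ?_, by rw [q1]; exact k3, fun v hv => ?_,
    Nat.one_lt_pow (Nat.mul_pos d0 m0).ne' pp.one_lt, fun _ => rfl,
    Ch.ext_fx _ _ _ _ _ (fun v => smk_fix (kp v) _) k1, ⟨z1', fun i => smk_alg _ _⟩,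
    ⟨smk_fix z1' _, fun i => smk_alg _ _⟩, (iterateFrobeniusEquiv (Kb p) p _).bijective,
    fun x => by rw [iterateFrobenius_mul_apply, hm], ?_, pp, hp⟩, fun i => ⟨_, rfl⟩⟩
  · refine (Ch.pd_of_sh1 _ (p := p) h1).trans ?_
    simp only [Crv.f, hfe, Polynomial.map_prod, Polynomial.map_sub, map_X, map_C]
  · refine (Ch.ev_low _ _ _ _ ?_).trans (ke _)
    rw [Alg.ext_d]
    exact hE.shζ.trans (Nat.le_mul_of_pos_right _ (z1 p).dpos)
  · refine fun h => r2 ?_
    rw [← hs, (Ch.ev_gen _ g1 g2 g4).symm.trans h, zero_pow m0.ne']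
  · rw [q1]
    exact fun h => k2 (Ch.ev_gen _ g1 g2 g4 ▸ h)
  · refine (k0 hE.mo hE.irr hz).ext_inj (k0_inj _ _ _) g1 g2 (n := qt q (f.length - 1))
      (by rw [smk_len]; rfl) (fun a => iterateFrobenius (Kb p) p ((E.1.length - 1) * a) s) ?_
      (fun a => g3 a) fun a => ?_
    · refine Function.Injective.of_lt_imp_ne fun a b hab h => ?_
      obtain ⟨c, hc⟩ := Nat.exists_eq_add_of_lt (Fin.lt_def.1 hab)
      refine k4 (c + 1) c.succ_pos (by omega) ((iterateFrobenius (Kb p) p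
        ((E.1.length - 1) * a)).injective (h.trans ?_).symm)
      rw [hc, add_assoc, mul_add, iterateFrobenius_add_apply, ← pow_mul]
      rfl
    · have := congrArg (iterateFrobenius (Kb p) p ((E.1.length - 1) * a))
        ((Ch.ev_ext _ g1 g2 g4 v).symm.trans hv)
      rw [map_zero, map_sum] at this
      rw [Ch.ev_ext, ← this]
      refine Finset.sum_congr rfl fun i _ => ?_
      rw [map_mul, map_pow, smk_fix (kp _)]
  · rw [Par.rounds, q1, vq_spec (N := (mkPar p q E f).n) hq (show f.length - 1 ≠ 0 by omega)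
      Nat.lt_two_pow_self, add_mul, one_mul]
    have := hq.two_le
    exact Nat.add_le_add_left (show 1 ≤ q - 1 by omega) _

theorem mf_spec {n : ℕ} (hn : 2 ≤ n) : (mf n).Prime ∧ mf n ∣ n := by
  have h1 := first_true (f := fun k => decide (2 ≤ k) && n % k == 0) n.lt_succ_self (by simp [hn])
  simp only [Bool.and_eq_true, decide_eq_true_eq, beq_iff_eq] at h1
  have h2 : mf n ∣ n := Nat.dvd_of_mod_eq_zero h1.2
  have h3 : mf n ≤ n.minFac := first_le_of (by
    simp [(Nat.minFac_prime (show n ≠ 1 by omega)).two_le, Nat.mod_eq_zero_of_dvd n.minFac_dvd])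
  exact ⟨le_antisymm h3 (Nat.minFac_le_of_dvd h1.1 h2) ▸ Nat.minFac_prime (by omega), h2⟩

theorem brute_spec {f : Pol} (hf : (z1 p).Mo f) (hs : (z1 p).pd f ∣ X ^ p - X)
    (h2 : 2 ≤ f.length - 1) (hp : p < 20 * (f.length - 1) ^ 5) : Proper p f (brute p f) := by
  obtain ⟨e, -, hfe⟩ := exists_roots hf.monic hs hf.natDegree
  have h1 := first_true (f := fun a => (A1 p).isZ ((A1 p).peval f [a]))
    (ZMod.val_lt (e ⟨0, by omega⟩)) (z1_inj p _ (by
      rw [Ch.ev_peval, Ch.ev_lit, ZMod.natCast_zmod_val, hfe, eval_prod]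
      exact Finset.prod_eq_zero (Finset.mem_univ ⟨0, by omega⟩) (by simp)))
  have h3 := (z1 p).ev_of_isZ h1
  rw [Ch.ev_peval, Ch.ev_lit] at h3
  refine ⟨⟨by simp [brute], by simp [brute]⟩, fun v hv => ?_, by simp [brute],
    by simp only [brute, List.length_cons, List.length_nil]; omega, ?_⟩
  · simp only [brute, List.mem_cons, List.not_mem_nil, or_false] at hv
    rcases hv with rfl | rfl
    · exact (Alg.length_neg _ _).le
    · rfl
  · refine (dvd_of_eq ?_).trans (dvd_iff_isRoot.2 h3)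
    simp [brute, min_eq_left hp.le, Ch.pd_cons, sub_eq_neg_add]

theorem split_spec {tab : List Ent} {f : Pol} (hf : (z1 p).Mo f) (h1 : Sh 1 f)
    (hs : (z1 p).pd f ∣ X ^ p - X) (h2 : 2 ≤ f.length - 1) (ht : TabOk p tab (f.length - 1)) :
    Proper p f (split p tab f) := by
  unfold split
  by_cases hp : p < 20 * (f.length - 1) ^ 5
  · rw [decide_eq_true hp, cond_true]
    exact brute_spec hf hs h2 hp
  · rw [decide_eq_false hp, cond_false]
    obtain ⟨m1, m2⟩ := mf_spec h2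
    have m3 := Nat.le_of_dvd (by omega) m2
    have m4 : f.length - 1 ≤ (f.length - 1) ^ 5 := Nat.le_self_pow (by norm_num) _
    obtain ⟨c, hc⟩ := exists_ctx m1 (ht _ m1 m3 (by omega)) hf h1 hs h2 m2 (not_lt.1 hp)
    exact c.core_spec (p := p) rfl h1 hc

end Vale.Agent.P319A
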