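import Vale.Agent.P319A.SMk

/-!
The reduction of Berlekamp. Work with the injective character `(z1 p).adj f` to `AdjoinRoot f`.
-/

open Polynomial Finset

namespace Vale.Agent.P319A

variable {p : ℕ} [Fact p.Prime] {f : Pol}

theorem so_frob {R : Type} [CommRing R] [Algebra (ZMod p) R] (x : R) (s : (ZMod p)[X]) (k : ℕ) :
    aeval (x ^ p ^ k) s = aeval x s ^ p ^ k := by
  induction k with
  | zero => simp
  | succ k ih =>
    rw [pow_succ, pow_mul, ← expand_aeval, ZMod.expand_card, map_pow, ih, pow_mul]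

theorem so_inj (hf : (z1 p).Mo f) (h2 : 2 ≤ f.length) : ((z1 p).adj f hf h2).Inj :=
  (z1 p).adj_inj hf h2 (z1_inj p)

theorem so_nd (hf : (z1 p).Mo f) (h2 : 2 ≤ f.length) : ¬(z1 p).pd f ∣ 1 := fun h => by
  have := natDegree_le_of_dvd h one_ne_zero
  rw [hf.natDegree, natDegree_one] at this
  omega

theorem so_one {g : Pol} (hg : (z1 p).Mo g) (h : ¬2 ≤ g.length) : (z1 p).pd g = 1 :=
  eq_one_of_monic_natDegree_zero hg.monic (by rw [hg.natDegree]; omega)

/-- Every element has a reduced representative. -/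
theorem so_red (hf : (z1 p).Mo f) {x : AdjoinRoot ((z1 p).pd f)} (hx : x ≠ 0) :
    ∃ s, AdjoinRoot.mk _ s = x ∧ s ≠ 0 ∧ s.natDegree < f.length - 1 := by
  obtain ⟨s, rfl⟩ := AdjoinRoot.mk_surjective x
  have h1 := AdjoinRoot.mk_leftInverse hf.monic (AdjoinRoot.mk _ s)
  rw [AdjoinRoot.modByMonicHom_mk] at h1
  have h3 : s %ₘ (z1 p).pd f ≠ 0 := fun h => hx (by rw [← h1, h, map_zero])
  exact ⟨_, h1, h3, hf.natDegree ▸ natDegree_lt_natDegree h3 (degree_modByMonic_lt s hf.monic)⟩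

/-- `s(θ ^ p ^ n) = s(θ) ^ p ^ n`, so `radi` is the least `s` with `f ∣ s ^ p ^ n`; it divides
`f`, is not constant, and divides `f / g` whenever `g ^ 2 ∣ f`. -/
theorem radi_spec (hf : (z1 p).Mo f) (h2 : 2 ≤ f.length) :
    ((radi p f).length < f.length → Proper p f (radi p f)) ∧
      (¬ (radi p f).length < f.length → Squarefree ((z1 p).pd f)) := by
  have h0 : 2 ≤ p ^ (f.length - 1) := Nat.one_lt_pow (by omega) (Fact.out : p.Prime).one_lt
  have h1 : ∀ s : (ZMod p)[X], aeval (((z1 p).adj f hf h2).ev (((A1 p).ext f).pow ((A1 p).gen f)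
      (p ^ (f.length - 1)))) s * ((z1 p).adj f hf h2).ev [1] = 0 ↔
      (z1 p).pd f ∣ s ^ p ^ (f.length - 1) := fun s => by
    rw [Ch.ev_pow, Ch.adj_gen, so_frob, Ch.ev_lit, Nat.cast_one, mul_one, AdjoinRoot.aeval_eq,
      ← map_pow, AdjoinRoot.mk_eq_zero]
  have h3 := (h1 _).2 (dvd_pow_self _ (by omega))
  obtain ⟨k1, k2, k3, k4⟩ :=
    Ch.annih_spec (p := p) _ rfl (so_inj hf h2) _ _ hf.monic hf.natDegree.le h3
  refine ⟨fun h => ⟨k1, k2, by_contra fun h4 => so_nd hf h2 ?_, h, k4 _ h3⟩, fun h x ⟨c, hc⟩ => ?_⟩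
  · rwa [h1, so_one k1 h4, one_pow] at k3
  · have h4 := hf.monic.ne_zero
    rw [hc, mul_assoc, mul_ne_zero_iff] at h4
    have h5 := natDegree_le_of_dvd (k4 (x * c) ((h1 _).2 (Dvd.dvd.trans ⟨c, by rw [hc]; ring⟩
      (pow_dvd_pow _ h0)))) h4.2
    have h6 := hf.natDegree
    rw [hc, mul_assoc, natDegree_mul h4.1 h4.2] at h6
    rw [k1.natDegree] at h5
    exact isUnit_iff_degree_eq_zero.2 (by
      rw [degree_eq_natDegree h4.1, show x.natDegree = 0 by unfold radi at h; omega]; rfl)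

/-- The rows of the Berlekamp matrix. -/
def bseq (p : ℕ) (f : Pol) : List Pol :=
  (List.range (f.length - 2)).map fun a => lift1 (((A1 p).ext f).sub
    (((A1 p).ext f).pow ((A1 p).gen f) ((a + 1) * p)) (((A1 p).ext f).pow ((A1 p).gen f) (a + 1)))

theorem so_dep (hf : (z1 p).Mo f) (h2 : 2 ≤ f.length) {s : (ZMod p)[X]} (hs : s.Monic) {δ : ℕ}
    (h : s.natDegree = δ + 1) (h' : δ < f.length - 2) :
    (z1 p).Dep ((A1 p).ext f).d [] (bseq p f) δ (fun a => s.coeff (a + 1)) ↔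
      AdjoinRoot.mk ((z1 p).pd f) s ^ p = AdjoinRoot.mk _ s := by
  have h1 := so_frob (AdjoinRoot.root ((z1 p).pd f)) s 1
  have h3 := hs.coeff_natDegree
  rw [h] at h3
  rw [pow_one, AdjoinRoot.aeval_eq] at h1
  rw [bseq, Ch.dep1_iff (p := p) _ rfl (so_inj hf h2) _ h', ← h1, ← AdjoinRoot.aeval_eq,
    ← sub_eq_zero (b := aeval _ s), aeval_eq_sum_range, aeval_eq_sum_range, ← Finset.sum_sub_distrib, h, Finset.sum_range_succ',
    Finset.sum_range_succ, h3]
  simp only [Ch.ev_sub, Ch.ev_pow, Ch.adj_gen, ← pow_mul, mul_comm p, smul_sub, one_smul, pow_zero,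
    sub_self, add_zero]

theorem so_spec : (berl p f).length - 1 ≤ f.length - 2 ∧ (z1 p).Mo (berl p f) ∧ Sh 1 (berl p f) ∧
    ((berl p f).length < f.length - 1 → (z1 p).Dep ((A1 p).ext f).d [] (bseq p f)
      ((berl p f).length - 1) fun a => (z1 p).ev ((berl p f).getD a [])) ∧
    ∀ δ < (berl p f).length - 1, ∀ s, ¬(z1 p).Dep ((A1 p).ext f).d [] (bseq p f) δ s := by
  obtain ⟨k1, k2, k3, k4⟩ := (z1 p).dep_shape p [] (bseq p f)
  obtain ⟨k5, k6⟩ := (z1 p).dep_spec (z1_fix p) (w := ((A1 p).ext f).d) (base := [])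
    (seq := bseq p f) (fun r hr => by
      obtain ⟨a, -, rfl⟩ := List.mem_map.1 hr
      simp [lift1]) ((z1_inj p).gd _)
  have k7 : (bseq p f).length = f.length - 2 := by simp [bseq]
  have k8 : (berl p f).length - 1 = (A1 p).depIdx p [] (bseq p f) := by
    rw [show (berl p f).length = _ from k1, Nat.add_sub_cancel]
  have k9 := k3.1
  rw [k8]
  exact ⟨k7 ▸ k2, k3, k4, fun h => k5 (by unfold berl at h k8; unfold bseq at *; omega), k6⟩

/-- If `f = f₁ f₂` with coprime nonconstant factors, the idempotent `a f₁` modulo `f` gives a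
relation (`dep_spec`, `dep1_iff`). -/
theorem berl_irr (hf : (z1 p).Mo f) (h2 : 2 ≤ f.length) (hs : Squarefree ((z1 p).pd f))
    (h : ¬ (berl p f).length < f.length - 1) : Irreducible ((z1 p).pd f) := by
  refine ⟨fun h => so_nd hf h2 h.dvd, fun a b hab => by_contra fun hn => ?_⟩
  obtain ⟨u, v, huv⟩ := (IsRelPrime.of_squarefree_mul (hab ▸ hs)).isCoprime
  have h1 : IsIdempotentElem (AdjoinRoot.mk ((z1 p).pd f) (u * a)) := by
    rw [IsIdempotentElem, ← map_mul, AdjoinRoot.mk_eq_mk, hab]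
    exact ⟨-(u * v), by linear_combination u * a * huv⟩
  have h3 : AdjoinRoot.mk ((z1 p).pd f) (u * a) ≠ 0 := fun h => hn (Or.inr (by
    rw [AdjoinRoot.mk_eq_zero, hab] at h
    exact isUnit_of_dvd_one (huv ▸ dvd_add ((dvd_mul_left b a).trans h) (dvd_mul_left _ _))))
  obtain ⟨s, s1, s2, s3⟩ := so_red hf h3
  have h4 : s.natDegree ≠ 0 := fun h => hn (Or.inl (by
    rw [eq_C_of_natDegree_eq_zero h] at s1 s2
    have c1 : s.coeff 0 ≠ 0 := fun h => s2 (by rw [h, C_0])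
    have c2 : IsUnit (AdjoinRoot.mk ((z1 p).pd f) (u * a)) := s1 ▸ (isUnit_C.2 c1.isUnit).map _
    have c3 := (IsIdempotentElem.iff_eq_one_of_isUnit c2).1 h1
    rw [← map_one (AdjoinRoot.mk ((z1 p).pd f)), AdjoinRoot.mk_eq_mk, hab] at c3
    exact isUnit_of_dvd_one ((dvd_sub_right (dvd_mul_left a u)).1 ((dvd_mul_right a b).trans c3))))
  have h5 := natDegree_mul_leadingCoeff_inv s s2
  refine (so_spec (p := p) (f := f)).2.2.2.2 (s.natDegree - 1) (by omega) _
    ((so_dep hf h2 (monic_mul_leadingCoeff_inv s2) (by omega) (by omega)).2 ?_)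
  rw [map_mul, s1, mul_pow, h1.pow_eq (Fact.out : p.Prime).ne_zero, ← map_pow, ← map_pow,
    ZMod.pow_card]

theorem so_peval (hf : (z1 p).Mo f) (h2 : 2 ≤ f.length) {P : Pol} (h : Sh 1 P) (x : Vec) :
    ((z1 p).adj f hf h2).ev (((A1 p).ext f).peval P x) =
      aeval (((z1 p).adj f hf h2).ev x) ((z1 p).pd P) := by
  rw [Ch.ev_peval, Ch.pd_of_sh1 _ (p := p) h, eval_map_algebraMap]

theorem belt_spec (hf : (z1 p).Mo f) (h2 : 2 ≤ f.length) (h : (berl p f).length < f.length - 1) :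
    ((z1 p).adj f hf h2).ev (belt p f) ^ p = ((z1 p).adj f hf h2).ev (belt p f) ∧
      ∀ a : ZMod p, ((z1 p).adj f hf h2).ev (belt p f) ≠ algebraMap _ _ a := by
  obtain ⟨k1, k2, k3, k4, -⟩ := so_spec (p := p) (f := f)
  have h0 := k2.1
  have h1 : (z1 p).Mo ([] :: berl p f) := ⟨by simp, by
    rw [← k2.2, List.length_cons, Nat.add_sub_cancel, ← Nat.sub_add_cancel h0,
      List.getD_cons_succ, Nat.add_sub_cancel]⟩
  have h3 := h1.natDegree
  rw [List.length_cons, Nat.add_sub_cancel] at h3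
  rw [belt, so_peval hf h2 (List.forall_mem_cons.2 ⟨Nat.zero_le _, k3⟩), Ch.adj_gen,
    AdjoinRoot.aeval_eq]
  refine ⟨(so_dep hf h2 h1.monic (δ := (berl p f).length - 1) (by omega) (by omega)).1 (by
    simpa only [Ch.coeff_pd, List.getD_cons_succ] using k4 h), fun a ha => ?_⟩
  rw [AdjoinRoot.algebraMap_eq, ← AdjoinRoot.mk_C, AdjoinRoot.mk_eq_mk] at ha
  have h4 := natDegree_sub_C (p := (z1 p).pd ([] :: berl p f)) (a := a)
  have h5 := natDegree_le_of_dvd ha fun h => by rw [h, natDegree_zero] at h4; omega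
  rw [hf.natDegree] at h5
  omega

/-- The minimal polynomial of an element of `AdjoinRoot f` has degree at most `deg f`. -/
theorem bmin_spec (hf : (z1 p).Mo f) (h2 : 2 ≤ f.length) (h : (berl p f).length < f.length - 1) :
    (z1 p).Mo (bmin p f) ∧ Sh 1 (bmin p f) ∧ (z1 p).pd (bmin p f) ∣ X ^ p - X ∧
      2 ≤ (bmin p f).length - 1 ∧ (bmin p f).length ≤ f.length ∧
      ∀ s, aeval (((z1 p).adj f hf h2).ev (belt p f)) s = 0 ↔ (z1 p).pd (bmin p f) ∣ s := by
  obtain ⟨b1, b2⟩ := belt_spec hf h2 h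
  have := (AdjoinRoot.powerBasis' hf.monic).finite
  have h1 := minpoly.natDegree_le (A := ZMod p) (((z1 p).adj f hf h2).ev (belt p f))
  rw [(AdjoinRoot.powerBasis' hf.monic).finrank, AdjoinRoot.powerBasis'_dim, hf.natDegree] at h1
  have h3 := minpoly.monic
    (Algebra.IsIntegral.isIntegral (R := ZMod p) (((z1 p).adj f hf h2).ev (belt p f)))
  obtain ⟨k1, k2, k3, k4⟩ := Ch.annih_spec (p := p) _ rfl (so_inj hf h2) (belt p f) [1] h3 h1
    (by rw [minpoly.aeval, zero_mul])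
  simp only [Ch.ev_lit, Nat.cast_one, mul_one] at k3 k4
  have h4 := natDegree_le_of_dvd (k4 _ (minpoly.aeval _ _)) h3.ne_zero
  have h5 := k1.natDegree
  refine ⟨k1, k2, k4 _ (by simp [b1]), by_contra fun h6 => ?_, by unfold bmin; omega,
    fun s => ⟨k4 s, fun ⟨c, hc⟩ => by rw [hc, map_mul, bmin, k3, zero_mul]⟩⟩
  unfold bmin at h6
  rw [← h5] at h6
  rcases Nat.le_one_iff_eq_zero_or_eq_one.1 (Nat.le_of_lt_succ (not_le.1 h6)) with h7 | h7
  · rw [eq_one_of_monic_natDegree_zero k1.monic h7, map_one,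
      ← map_one (AdjoinRoot.mk ((z1 p).pd f)), AdjoinRoot.mk_eq_zero] at k3
    exact so_nd hf h2 k3
  · rw [k1.monic.eq_X_add_C h7, map_add, aeval_X, aeval_C] at k3
    exact b2 _ ((eq_neg_of_add_eq_zero_left k3).trans (map_neg _ _).symm)

theorem findFac_spec {tab : List Ent} (hf : (z1 p).Mo f) (h2 : 2 ≤ f.length)
    (ht : TabOk p tab (f.length - 1)) :
    (findFac p tab f = [] ∧ Irreducible ((z1 p).pd f)) ∨ Proper p f (findFac p tab f) := by
  obtain ⟨r1, r2⟩ := radi_spec hf h2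
  unfold findFac
  by_cases h1 : (radi p f).length < f.length
  · rw [decide_eq_true h1, cond_true]
    exact Or.inr (r1 h1)
  rw [decide_eq_false h1, cond_false]
  by_cases h3 : (berl p f).length < f.length - 1
  swap
  · rw [decide_eq_false h3, cond_false]
    exact Or.inl ⟨rfl, berl_irr hf h2 (r2 h1) h3⟩
  rw [decide_eq_true h3, cond_true]
  obtain ⟨m1, m2, m3, m4, m5, m6⟩ := bmin_spec hf h2 h3
  obtain ⟨s1, s2, s3, s4, H, hH⟩ :=
    split_spec m1 m2 m3 m4 fun q hq h h' => ht q hq (by omega) h'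
  have h4 := so_peval hf h2 s2 (belt p f)
  have h5 : aeval (((z1 p).adj f hf h2).ev ((A1 p).gen f)) ((z1 p).pd f) *
      ((z1 p).adj f hf h2).ev (bzd p tab f) = 0 := by
    rw [Ch.adj_gen, AdjoinRoot.aeval_eq, AdjoinRoot.mk_self, zero_mul]
  obtain ⟨k1, k2, k3, k4⟩ :=
    Ch.annih_spec (p := p) _ rfl (so_inj hf h2) _ _ hf.monic hf.natDegree.le h5
  have d1 := m1.natDegree
  have d2 := s1.natDegree
  have d3 : H ≠ 0 := fun h => m1.monic.ne_zero (by rw [hH, h, mul_zero])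
  refine Or.inr ⟨k1, k2, by_contra fun h6 => ?_, ?_, k4 _ h5⟩
  · rw [so_one k1 h6, map_one, one_mul, bzd, h4, m6] at k3
    have := natDegree_le_of_dvd k3 s1.monic.ne_zero
    omega
  · obtain ⟨s, t1, t2, t3⟩ := so_red hf (x := aeval (((z1 p).adj f hf h2).ev (belt p f)) H)
      fun h => by
        have := natDegree_le_of_dvd ((m6 _).1 h) d3
        rw [hH, natDegree_mul s1.monic.ne_zero d3] at this
        omega
    have := natDegree_le_of_dvd (k4 s (by
      rw [Ch.adj_gen, AdjoinRoot.aeval_eq, t1, bzd, h4, ← map_mul, mul_comm, ← hH, m6])) t2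
    rw [k1.natDegree] at this
    omega

end Vale.Agent.P319A
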