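import Vale.Agent.P319A.SCtx
import Vale.Agent.P319A.SAmm

/-!
Truncated power series and Laurent series.
-/

open Polynomial Finset

namespace Vale.Agent.P319A

/-- Power series modulo `X ^ N`. -/
abbrev TS (K : Type) [Field K] (N : ℕ) : Type :=
  PowerSeries K ⧸ Ideal.span {(PowerSeries.X : PowerSeries K) ^ N}

/-- The class of a power series. -/
noncomputable def mkS {K : Type} [Field K] (N : ℕ) : PowerSeries K →+* TS K N :=
  Ideal.Quotient.mk _

theorem mkS_eq {K : Type} [Field K] {N : ℕ} {S S' : PowerSeries K} :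
    mkS N S = mkS N S' ↔ ∀ a < N, PowerSeries.coeff a S = PowerSeries.coeff a S' := by
  simp only [mkS, Ideal.Quotient.eq, Ideal.mem_span_singleton, PowerSeries.X_pow_dvd_iff, map_sub,
    sub_eq_zero]

theorem sser_X {K : Type} [Field K] {N m : ℕ} (h : N ≤ m) :
    mkS N (PowerSeries.X : PowerSeries K) ^ m = 0 := by
  rw [← map_pow]
  exact Ideal.Quotient.eq_zero_iff_mem.2 (Ideal.mem_span_singleton.2 (pow_dvd_pow _ h))

theorem sser_coeff {K : Type} [Field K] (F : ℕ → K) {M a : ℕ} (h : a < M) :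
    PowerSeries.coeff a (∑ b ∈ range M, PowerSeries.C (F b) * PowerSeries.X ^ b) = F a := by
  simp [PowerSeries.coeff_X_pow, h]

theorem sser_ps {K : Type} [Field K] (m : ℤ) (S : PowerSeries K) :
    Dg (HahnSeries.single (-m) 1 * HahnSeries.ofPowerSeries ℤ K S) m ∧ ∀ a : ℕ,
      (HahnSeries.single (-m) 1 * HahnSeries.ofPowerSeries ℤ K S).coeff (a - m) =
        PowerSeries.coeff a S :=
  ⟨by simpa using (Dg.single (-m) 1).mul (Dg.ofPowerSeries S), fun a => by
    rw [sub_eq_add_neg, HahnSeries.coeff_single_mul_add, one_mul,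
      HahnSeries.ofPowerSeries_apply_coeff]⟩

/-- In characteristic `p ≥ N` the `p`-th power is a constant modulo `X ^ N`. -/
theorem mkS_pow_char {K : Type} [Field K] {N p : ℕ} (hp : p.Prime) (hK : (p : K) = 0) (hN : N ≤ p)
    (S : PowerSeries K) :
    mkS N (S ^ p) = mkS N (PowerSeries.C (PowerSeries.constantCoeff S ^ p)) := by
  obtain ⟨r, hr⟩ := exists_add_pow_prime_eq hp
    (PowerSeries.X * PowerSeries.mk fun a => PowerSeries.coeff (a + 1) S)
    (PowerSeries.C (PowerSeries.constantCoeff S))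
  rw [← PowerSeries.eq_X_mul_shift_add_const, ← map_natCast PowerSeries.C, hK] at hr
  simp [hr, mul_pow, sser_X hN]

namespace Ctx

variable {X : Par} {K : Type} [Field K] (c : Ctx X K) (i : Fin c.D.n)

theorem root_t {N : ℕ} (hN : N ≤ X.P1) :
    (((c.π i).map ((mkS N).comp PowerSeries.C)).pd (xpow (X.P1 + 1) X.P1)).eval
      (mkS N PowerSeries.X) = 0 := by
  rw [Ch.pd_xpow _ (Nat.lt_succ_self _), eval_pow, eval_X, sser_X hN]

include c in
theorem two_le_xpow : 2 ≤ (xpow (X.P1 + 1) X.P1).length := by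
  have := Nat.pow_pos (n := 5) (zero_lt_two.trans_le c.two_le_n)
  simp only [xpow, List.length_map, List.length_range, Par.P1]
  omega

/-- The component of the algebra of truncated series. -/
noncomputable def πS {N : ℕ} (hN : N ≤ X.P1) : Ch X.AS (TS K N) :=
  ((c.π i).map ((mkS N).comp PowerSeries.C)).ext _ (mkS N PowerSeries.X) (Ch.mo_xpow _ _)
    c.two_le_xpow (c.root_t i hN)

theorem sser_len (X : Par) : (xpow (X.P1 + 1) X.P1).length - 1 = X.P1 := by simp [xpow]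

theorem ap_iff {N : ℕ} (hN : N ≤ X.P1) {v : Vec} {S : PowerSeries K} :
    c.Ap i N v S ↔ (c.πS i hN).ev v = mkS N S := by
  have h1 : (c.πS i hN).ev v = mkS N (∑ a ∈ range X.P1,
      PowerSeries.C ((c.π i).ev (X.AB.chunk a v)) * PowerSeries.X ^ a) := by
    refine (Ch.ev_ext _ _ _ _ v).trans ?_
    simp [sser_len, Ch.ev_map]
  rw [h1, mkS_eq]
  exact forall₂_congr fun a ha => by rw [sser_coeff _ (ha.trans_le hN)]

theorem πS_low {N : ℕ} (hN : N ≤ X.P1) {v : Vec} (h : v.length ≤ X.AB.d) :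
    (c.πS i hN).ev v = mkS N (PowerSeries.C ((c.π i).ev v)) := (Ch.ev_low _ _ _ _ h).trans (Ch.ev_map _ _ _)

theorem πS_t {N : ℕ} (hN : N ≤ X.P1) : (c.πS i hN).ev X.t = mkS N PowerSeries.X := Ch.ev_gen _ _ _ _

theorem πS_flat {N : ℕ} (hN : N ≤ X.P1) (P : Pol) :
    (c.πS i hN).ev (X.AB.flat X.P1 P) = mkS N ((c.π i).pd P : PowerSeries K) := by
  have h1 := Ch.ev_flat _ (Ch.mo_xpow _ _) c.two_le_xpow (c.root_t i hN) P
  rw [sser_len] at h1
  refine h1.trans (Eq.trans (b := mkS N (∑ a ∈ range X.P1,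
    PowerSeries.C ((c.π i).ev (P.getD a [])) * PowerSeries.X ^ a)) (by simp [Ch.ev_map]) ?_)
  exact mkS_eq.2 fun a ha => by rw [sser_coeff _ (ha.trans_le hN), coeff_coe, Ch.coeff_pd]

theorem sser_root {N : ℕ} (hN : N ≤ X.P1) {S : PowerSeries K}
    (hS : PowerSeries.constantCoeff S = 1) : mkS N (S ^ c.D.q) ^ cinv X.q X.p = mkS N S := by
  obtain ⟨k, hk⟩ := cinv_spec (c.hq ▸ c.D.q_pos) c.cop_q_p
  rw [← c.hq, map_pow, ← pow_mul, hk, pow_add, pow_one, mul_comm k, pow_mul, ← map_pow,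
    mkS_pow_char c.prime c.πK.hp (hN.trans c.big), hS]
  simp

/-- `η ^ (q q') = η * (η ^ p) ^ k` for `q q' = 1 + k p`. -/
theorem πS_η {N : ℕ} (hN : N ≤ X.P1) : (c.πS i hN).ev X.η = mkS N c.D.η := by
  have h1 : (c.π i).pd X.f.reverse = c.D.f.reverse := by
    ext a
    rw [coeff_reverse, c.D.f_natDegree, ← c.pd_f i, ← c.hn, Ch.coeff_pd, Ch.coeff_pd]
    have := c.len_f
    rcases le_or_gt a X.n with h | h
    · rw [revAt_le h, List.getD_reverse _ (by omega), this, Nat.add_sub_cancel]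
    · rw [revAt_eq_self_of_lt h, List.getD_eq_default _ _ (by simp; omega),
        List.getD_eq_default _ _ (by omega)]
  rw [Par.η, Ch.ev_pow, πS_flat, h1, ← c.D.η_pow, c.sser_root hN c.D.η_const]

include c in
theorem P_le : X.P ≤ X.P1 := Nat.mul_le_mul_right _ (by norm_num)

/-- The description of `LS` by power series. -/
theorem ls_iff {x : LE} {z : LaurentSeries K} : c.LS i x z ↔ ∃ S : PowerSeries K,
    PowerSeries.constantCoeff S ≠ 0 ∧
    z = HahnSeries.single (-x.1) 1 * HahnSeries.ofPowerSeries ℤ K S ∧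
    (c.πS i c.P_le).ev x.2 = mkS X.P S := by
  constructor
  · rintro ⟨h0, h1, h2⟩
    obtain ⟨S, h3, h4⟩ := (Dg_dg z).exists_ps
    rw [← h1] at h3 h4
    refine ⟨S, ?_, h3, (c.ap_iff i c.P_le).1 fun a ha => (h2 a ha).trans (h4 a).symm⟩
    rw [← PowerSeries.coeff_zero_eq_constantCoeff_apply, h4, h1]
    simpa using coeff_dg_ne h0
  · rintro ⟨S, h0, rfl, h2⟩
    obtain ⟨h3, h4⟩ := sser_ps x.1 S
    have h5 := h4 0
    rw [Nat.cast_zero, zero_sub, PowerSeries.coeff_zero_eq_constantCoeff_apply] at h5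
    exact ⟨fun h => h0 (by rw [← h5, h]; rfl), (h3.dg_eq (h5 ▸ h0)).symm,
      fun a ha => ((c.ap_iff i c.P_le).2 h2 a ha).trans (h4 a).symm⟩

theorem sser_c0 {v : Vec} {S : PowerSeries K} (h : (c.πS i c.P_le).ev v = mkS X.P S) :
    (c.π i).ev (X.AB.chunk 0 v) = PowerSeries.constantCoeff S :=
  ((c.ap_iff i c.P_le).2 h 0 (Nat.mul_pos (by norm_num)
    (Nat.pow_pos (zero_lt_two.trans_le c.two_le_n)))).trans
      (PowerSeries.coeff_zero_eq_constantCoeff_apply S)

variable {c i} {x y : LE} {z w : LaurentSeries K}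

theorem LS.sser_congr (hx : c.LS i x z) (h1 : y.1 = x.1)
    (h2 : (c.πS i c.P_le).ev y.2 = (c.πS i c.P_le).ev x.2) : c.LS i y z := by
  rw [ls_iff] at hx ⊢
  rwa [h1, h2]

theorem LS.mul (hx : c.LS i x z) (hy : c.LS i y w) : c.LS i (X.lmul x y) (z * w) := by
  obtain ⟨S, h0, rfl, h2⟩ := (c.ls_iff i).1 hx
  obtain ⟨T, h3, rfl, h4⟩ := (c.ls_iff i).1 hy
  refine (c.ls_iff i).2 ⟨S * T, by simp [h0, h3], ?_, by simp [Par.lmul, h2, h4]⟩
  rw [mul_mul_mul_comm, HahnSeries.single_mul_single, map_mul (HahnSeries.ofPowerSeries ℤ K),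
    one_mul, ← neg_add]
  rfl

theorem LS.inv (hx : c.LS i x z) : c.LS i (X.linv x) z⁻¹ := by
  obtain ⟨S, h0, rfl, h2⟩ := (c.ls_iff i).1 hx
  have h3 := S.mul_inv_cancel h0
  refine (c.ls_iff i).2 ⟨S⁻¹, by simpa using h0, inv_eq_of_mul_eq_one_right ?_, ?_⟩
  · rw [mul_mul_mul_comm, HahnSeries.single_mul_single, ← map_mul, h3]
    simp [Par.linv]
  · have h4 := c.sser_c0 i h2
    have h5 : 1 ≤ X.p * (X.Q - 1) := Nat.mul_pos c.prime.pos (by have := c.Q2; omega)
    have h6 : mkS X.P S ^ (X.p * (X.Q - 1) - 1) * mkS X.P S = 1 := by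
      rw [← pow_succ, Nat.sub_add_cancel h5, pow_mul, ← map_pow,
        mkS_pow_char c.prime c.πK.hp (c.P_le.trans c.big), ← map_pow, ← map_pow, pow_right_comm,
        ← h4, (c.fix i).pow_pred (h4 ▸ h0)]
      simp
    rw [Par.linv, Ch.ev_pow, h2, ← mul_one (_ ^ _), ← map_one (mkS X.P), ← h3, map_mul, ← mul_assoc,
      h6, one_mul]

theorem LS.prod (N : ℕ) {F : ℕ → LE} {Z : ℕ → LaurentSeries K} (h : ∀ a < N, c.LS i (F a) (Z a)) :
    c.LS i (X.lprod ((List.range N).map F)) (∏ a ∈ range N, Z a) := by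
  induction N with
  | zero => exact (c.ls_iff i).2 ⟨1, by simp, by simp [Par.lprod], by simp [Par.lprod, Alg.prod]⟩
  | succ N ih =>
    rw [Finset.prod_range_succ]
    refine ((ih fun a ha => h a (by omega)).mul (h N (Nat.lt_succ_self N))).sser_congr ?_ ?_ <;>
      simp [Par.lprod, Par.lmul, List.range_succ, Ch.ev_prod]

theorem LS.root (hx : c.LS i x z) {a : K} (h : w ^ c.D.q = HahnSeries.C a * z) (ha : a ≠ 0)
    (hw : w.coeff (-dg w) = 1) : c.LS i (X.lroot x) w := by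
  have w0 : w ≠ 0 := fun e => by simp [e] at hw
  have h1 : x.1 = c.D.q * dg w := by
    rw [← dg_pow, h, dg_mul ((_root_.map_ne_zero _).2 ha) hx.1, dg_C, zero_add, hx.2.1]
  obtain ⟨S, h0, rfl, h2⟩ := (c.ls_iff i).1 hx
  obtain ⟨T, h3, h4⟩ := (Dg_dg w).exists_ps
  have h5 : PowerSeries.constantCoeff T = 1 := by
    rw [← PowerSeries.coeff_zero_eq_constantCoeff_apply, h4, ← hw]
    simp
  have h6 : T ^ c.D.q = PowerSeries.C a * S := by
    rw [h3, mul_pow, HahnSeries.single_pow, one_pow, mul_left_comm, h1, smul_neg, nsmul_eq_mul,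
      ← HahnSeries.ofPowerSeries_C, ← map_mul, ← map_pow] at h
    exact HahnSeries.ofPowerSeries_injective
      (mul_left_cancel₀ (HahnSeries.single_ne_zero one_ne_zero) h)
  have h7 := congrArg PowerSeries.constantCoeff h6
  rw [map_pow, h5, one_pow, map_mul, PowerSeries.constantCoeff_C] at h7
  have h8 := c.sser_c0 i h2
  refine (c.ls_iff i).2 ⟨T, by simp [h5], ?_, ?_⟩
  · rwa [Par.lroot, h1, c.hq, Int.mul_ediv_cancel_left _ (by exact_mod_cast c.D.hq.ne_zero)]
  · rw [Par.lroot, Ch.ev_pow, Ch.ev_mul, h2, c.πS_low i _ (Alg.length_nv _ _).le, Ch.ev_nv,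
      (c.π i).ev_inv (c.fix i) (h8 ▸ h0), h8, ← eq_inv_of_mul_eq_one_left h7.symm, ← map_mul,
      mul_comm S, ← h6, c.sser_root c.P_le h5]

theorem LS.const {v : Vec} (hv : (c.π i).ev v ≠ 0) :
    c.LS i (X.lconst v) (HahnSeries.C ((c.π i).ev v)) := (c.ls_iff i).2 ⟨PowerSeries.C ((c.π i).ev v),
      by simpa using hv, by simp [Par.lconst], by
        rw [Par.lconst, c.πS_low i _ (Alg.length_nv _ _).le, Ch.ev_nv]⟩

theorem LS.fix (hx : c.LS i x z) (h : |dg z| ≤ 3 * (c.D.n : ℤ) ^ 5) : c.LS i (X.lfix x) z := hx.sser_congr (iclamp_eq (by rw [hx.2.1, c.hn]; exact_mod_cast h)) (Ch.ev_nv _ _)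

end Ctx

end Vale.Agent.P319A
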