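import Vale.Agent.P319A.SCtx
import Vale.Agent.P319A.SLin

/-!
Linear systems for tuples of elements of the coordinate ring.
-/

open Polynomial Finset

namespace Vale.Agent.P319A.Ctx

variable {X : Par} {K : Type} [Field K] (c : Ctx X K) (i : Fin c.D.n)

/-- Tuples of small degree. -/
def Sm (b : ℕ → c.D.O) : Prop := ∀ j, c.D.CoLe (b j) X.D

/-- `F` evaluates a list of linear functionals whose common kernel is described by `P`. -/
def Lin (F : List OE → Pol) (P : (ℕ → c.D.O) → Prop) : Prop :=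
  ∃ ℓ : List ((ℕ → c.D.O) →ₗ[K] K),
    (∀ b, c.Sm (c.td i b) → (F b).map (c.π i).ev = ℓ.map fun g => g (c.td i b)) ∧
    ∀ b, c.Sm b → ((∀ g ∈ ℓ, g b = 0) ↔ P b)

variable {c i}

theorem Lin.congr {F : List OE → Pol} {P P' : (ℕ → c.D.O) → Prop} (h : c.Lin i F P)
    (h' : ∀ b, c.Sm b → (P b ↔ P' b)) : c.Lin i F P' := by
  obtain ⟨ℓ, h1, h2⟩ := h
  exact ⟨ℓ, h1, fun b hb => (h2 b hb).trans (h' b hb)⟩

theorem Lin.append {F G : List OE → Pol} {P P' : (ℕ → c.D.O) → Prop} (h : c.Lin i F P)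
    (h' : c.Lin i G P') : c.Lin i (fun b => F b ++ G b) fun b => P b ∧ P' b := by
  obtain ⟨ℓ, h1, h2⟩ := h
  obtain ⟨ℓ', h3, h4⟩ := h'
  refine ⟨ℓ ++ ℓ', fun b hb => ?_, fun b hb => ?_⟩
  · rw [List.map_append, List.map_append, h1 b hb, h3 b hb]
  · rw [List.forall_mem_append, h2 b hb, h4 b hb]

theorem Lin.flatMap {β : Type} (l : List β) {F : β → List OE → Pol}
    {P : β → (ℕ → c.D.O) → Prop} (h : ∀ x ∈ l, c.Lin i (F x) (P x)) :
    c.Lin i (fun b => l.flatMap fun x => F x b) fun b => ∀ x ∈ l, P x b := by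
  induction l with
  | nil => exact ⟨[], fun _ _ => rfl, fun _ _ => by simp⟩
  | cons x l ih =>
    simp only [List.flatMap_cons, List.forall_mem_cons]
    exact (h x List.mem_cons_self).append (ih fun y hy => h y (List.mem_cons_of_mem _ hy))

/-- The coefficient of `x ^ a y ^ l`. -/
noncomputable def syC (c : Ctx X K) (l a : ℕ) : c.D.O →ₗ[K] K :=
  (lcoeff K a).comp ((c.D.co l).restrictScalars K)

theorem syC_apply (l a : ℕ) (b : c.D.O) : c.syC l a b = (c.D.co l b).coeff a := rfl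

/-- Divisibility of a linear expression by a monic polynomial. -/
theorem lin_dvd {u : Pol} (hu : (c.π i).Mo u) {E : List OE → OE} (e : (ℕ → c.D.O) →ₗ[K] c.D.O)
    (h : ∀ b, c.od i (E b) = e (c.td i b)) :
    c.Lin i (fun b => X.ocs (u.length - 1) (X.omod u (E b)))
      fun b => c.D.of ((c.π i).pd u) ∣ e b := by
  refine ⟨(List.range (c.D.q * (u.length - 1))).map fun k =>
    (lcoeff K (k % (u.length - 1))).comp ((modByMonicHom ((c.π i).pd u)).comp
      (((c.D.co (k / (u.length - 1))).restrictScalars K).comp e)), fun b _ => ?_, fun b _ => ?_⟩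
  · rw [c.map_ocs, List.map_map]
    refine List.map_congr_left fun k _ => ?_
    rw [c.co_omod i hu, h]
    rfl
  · simp only [List.forall_mem_map, List.mem_range, c.D.of_dvd_iff]
    change (∀ k < c.D.q * (u.length - 1), (c.D.co (k / (u.length - 1)) (e b) %ₘ
      (c.π i).pd u).coeff (k % (u.length - 1)) = 0) ↔ _
    refine ⟨fun H l hl => (modByMonic_eq_zero_iff_dvd hu.monic).1 ?_, fun H k hk => ?_⟩
    · ext a
      rcases lt_or_ge a (u.length - 1) with ha | ha
      · simpa [sp_div l ha, sp_mod l ha] using H _ (sp_lt hl ha)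
      · refine (degree_lt_iff_coeff_zero _ _).1 ?_ a ha
        rw [← (c.π i).sp_deg hu]
        exact degree_modByMonic_lt _ hu.monic
    · rw [(modByMonic_eq_zero_iff_dvd hu.monic).2
        (H _ (Nat.div_lt_of_lt_mul (mul_comm _ (u.length - 1) ▸ hk))), coeff_zero]

/-- Vanishing of a linear expression of bounded degree. -/
theorem lin_zero {N m : ℕ} (hm : m < N) {E : List OE → OE} (e : (ℕ → c.D.O) →ₗ[K] c.D.O)
    (h : ∀ b, c.od i (E b) = e (c.td i b)) (hb : ∀ b, c.Sm b → c.D.CoLe (e b) m) :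
    c.Lin i (fun b => X.ocs N (E b)) fun b => e b = 0 := by
  refine ⟨(List.range (c.D.q * N)).map fun k => (c.syC (k / N) (k % N)).comp e,
    fun b _ => ?_, fun b hs => ?_⟩
  · rw [c.map_ocs, List.map_map]
    refine List.map_congr_left fun k _ => ?_
    rw [h]
    rfl
  · simp only [List.forall_mem_map, List.mem_range, LinearMap.comp_apply, syC_apply]
    refine ⟨c.eq_zero_of_coeffs fun l => ?_, fun H k _ => by rw [H, map_zero, coeff_zero]⟩
    exact degree_le_natDegree.trans_lt (by exact_mod_cast (hb b hs l).trans_lt hm)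

variable (c i)

theorem sy_coLe {b : OE} {m : ℕ} (h : ∀ l, (b.getD l []).length ≤ m + 1) :
    c.D.CoLe (c.od i b) m := fun l => by
  rcases lt_or_ge l c.D.q with hl | hl
  · rw [c.co_od i _ hl]
    exact ((c.π i).natDegree_pd_le _).trans (by have := h l; omega)
  · rw [c.D.co_ge hl, natDegree_zero]
    exact Nat.zero_le _

theorem sm_tup (v : Pol) : c.Sm (c.td i (X.tup v)) := fun j => c.sy_coLe i fun l => by
  rw [Par.tup, sa_getD]
  split_ifs
  · rw [sa_getD]
    split_ifs <;> simp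
  · simp

theorem sm_mon (J : ℕ) : c.Sm (c.td i (X.mon J)) := fun j => c.sy_coLe i fun l => by
  rw [Par.mon, sa_getD]
  split_ifs
  · cases (j == J / (X.q * (X.D + 1)))
    · simp
    · rw [cond_true, Par.omono, sa_getD]
      split_ifs
      · cases (l == J / (X.D + 1) % X.q) <;> simp [xpow]
      · simp
  · simp

theorem sy_idx {q N J j l a : ℕ} (hl : l < q) (hN : 0 < N) :
    (j = J / (q * N) ∧ l = J / N % q ∧ a = J % N) ↔ (J = (j * q + l) * N + a ∧ a < N) := by
  rw [mul_comm q N, ← Nat.div_div_eq_div_mul]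
  constructor
  · rintro ⟨rfl, rfl, rfl⟩
    exact ⟨by rw [Nat.div_add_mod', Nat.div_add_mod'], Nat.mod_lt _ hN⟩
  · rintro ⟨rfl, ha⟩
    rw [sp_div _ ha, sp_mod _ ha, sp_div _ hl, sp_mod _ hl]
    exact ⟨rfl, rfl, rfl⟩

theorem sy_mon (J j a : ℕ) {l : ℕ} (hl : l < c.D.q) :
    (c.D.co l (c.td i (X.mon J) j)).coeff a =
      if j < X.q ∧ J = (j * X.q + l) * (X.D + 1) + a ∧ a < X.D + 1 then 1 else 0 := by
  have hl' : l < X.q := c.hq ▸ hl
  simp only [← sy_idx hl' (Nat.succ_pos X.D)]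
  rw [td, Par.mon, sa_getD]
  by_cases hj : j < X.q
  · by_cases h1 : j = J / (X.q * (X.D + 1))
    · rw [if_pos hj, beq_iff_eq.2 h1, cond_true, c.od_omono i
        (c.hq ▸ Nat.mod_lt _ (by omega)) (Nat.mod_lt _ (Nat.succ_pos _)), c.D.co_of_mul,
        c.D.co_y_pow l (c.hq ▸ Nat.mod_lt _ (by omega))]
      by_cases h2 : l = J / (X.D + 1) % X.q
      · rw [if_pos h2, mul_one, coeff_X_pow]
        exact if_congr ⟨fun h => ⟨hj, h1, h2, h⟩, fun h => h.2.2.2⟩ rfl rfl
      · rw [if_neg h2, if_neg fun h => h2 h.2.2.1, mul_zero, coeff_zero]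
    · rw [if_pos hj, beq_eq_false_iff_ne.2 h1, cond_false, if_neg fun h => h1 h.2.1]
      simp
  · rw [if_neg hj, if_neg fun h => hj h.1]
    simp

theorem sy_comb (x : ℕ → K) (j a : ℕ) {l : ℕ} (hl : l < c.D.q) :
    (c.D.co l ((∑ J ∈ range (X.q * X.q * (X.D + 1)), x J • c.td i (X.mon J)) j)).coeff a =
      if j < X.q ∧ a < X.D + 1 then x ((j * X.q + l) * (X.D + 1) + a) else 0 := by
  rw [← syC_apply, Finset.sum_apply, map_sum]
  simp only [Pi.smul_apply, map_smul, syC_apply, c.sy_mon i _ _ _ hl, smul_eq_mul, mul_ite, mul_one,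
    mul_zero]
  split_ifs with h
  · rw [Finset.sum_eq_single_of_mem ((j * X.q + l) * (X.D + 1) + a)
      (mem_range.2 (sp_lt (sp_lt h.1 (c.hq ▸ hl)) h.2)) fun J _ hJ => if_neg fun k => hJ k.2.1,
      if_pos ⟨h.1, rfl, h.2⟩]
  · exact Finset.sum_eq_zero fun J _ => if_neg fun k => h ⟨k.1, k.2.2⟩

theorem td_tup (v : Pol) : c.td i (X.tup v) =
    ∑ J ∈ range (X.q * X.q * (X.D + 1)), (c.π i).ev (v.getD J []) • c.td i (X.mon J) := by
  funext j
  refine c.D.co_ext fun l hl => Polynomial.ext fun a => ?_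
  rw [c.sy_comb i _ _ _ hl, td, Par.tup, sa_getD]
  by_cases hj : j < X.q
  · rw [if_pos hj, c.sctx_co i _ hl, Ch.coeff_pd, sa_getD]
    by_cases ha : a < X.D + 1
    · rw [if_pos ha, if_pos ⟨hj, ha⟩]
    · rw [if_neg ha, if_neg fun h => ha h.2, Ch.ev_nil]
  · rw [if_neg hj, if_neg fun h => hj h.1]
    simp

theorem exists_comb {b : ℕ → c.D.O} (hb : c.Sm b) (h0 : ∀ j, c.D.q ≤ j → b j = 0) :
    ∃ x : ℕ → K, b = ∑ J ∈ range (X.q * X.q * (X.D + 1)), x J • c.td i (X.mon J) := by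
  refine ⟨fun J => (c.D.co (J / (X.D + 1) % X.q) (b (J / (X.q * (X.D + 1))))).coeff
    (J % (X.D + 1)), funext fun j => c.D.co_ext fun l hl => Polynomial.ext fun a => ?_⟩
  rw [c.sy_comb i _ _ _ hl]
  split_ifs with h
  · obtain ⟨h1, h2, h3⟩ := (sy_idx (c.hq ▸ hl : l < X.q) (Nat.succ_pos X.D)).2 ⟨rfl, h.2⟩
    rw [← h1, ← h2, ← h3]
  · by_cases hj : j < X.q
    · exact coeff_eq_zero_of_natDegree_lt ((hb j l).trans_lt (by have := mt (And.intro hj) h; omega))
    · rw [h0 j (c.hq ▸ not_lt.1 hj), map_zero, coeff_zero]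

theorem sy_getD {β : Type} {R : Pol} {ℓ : List β} {g : β → K} (d : β) (hd : g d = 0)
    (h : R.map (c.π i).ev = ℓ.map g) (k : ℕ) : (c.π i).ev (R.getD k []) = g (ℓ.getD k d) := by
  have h1 := List.getD_map (l := R) (d := []) (n := k) (c.π i).ev
  have h2 := List.getD_map (l := ℓ) (d := d) (n := k) g
  rw [Ch.ev_nil] at h1
  rw [hd] at h2
  rw [← h1, h, h2]

/-- If the system has a solution over `K`, the computed tuple is a solution. -/
theorem solve_lin {F₀ : List OE → Vec} {F : List OE → Pol} {P : (ℕ → c.D.O) → Prop}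
    (g₀ : (ℕ → c.D.O) →ₗ[K] K) (h₀ : ∀ b, c.Sm (c.td i b) → (c.π i).ev (F₀ b) = g₀ (c.td i b))
    (h : c.Lin i F P) {rows : List Pol} {t : Pol}
    (hr : rows = (List.range (X.q * X.q * (X.D + 1))).map fun J => F₀ (X.mon J) :: F (X.mon J))
    (ht : t = Par.tgt (F₀ [] :: F [])) (hG : (c.π i).Gd (X.AB.slog X.Q rows t))
    {b : ℕ → c.D.O} (hb : c.Sm b) (h0 : ∀ j, c.D.q ≤ j → b j = 0) (h1 : g₀ b = 1) (hP : P b) :
    g₀ (c.td i (X.tup (X.AB.solve X.Q rows t))) = 1 ∧ P (c.td i (X.tup (X.AB.solve X.Q rows t))) := by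
  obtain ⟨ℓ, h2, h3⟩ := h
  have hn : c.Sm (c.td i []) := fun j => by simpa [td] using Crv.CoLe.zero _
  have hl : t.length = ℓ.length + 1 := by
    have := congrArg List.length (h2 [] hn)
    simpa [ht, Par.tgt] using this
  have hN : rows.length = X.q * X.q * (X.D + 1) := by simp [hr]
  have key : ∀ x : ℕ → K, (c.π i).Comb t.length rows x t ↔
      g₀ (∑ J ∈ range (X.q * X.q * (X.D + 1)), x J • c.td i (X.mon J)) = 1 ∧
      ∀ g ∈ ℓ, g (∑ J ∈ range (X.q * X.q * (X.D + 1)), x J • c.td i (X.mon J)) = 0 := by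
    intro x
    have e1 : ∀ k, ∑ J ∈ range rows.length, x J * (c.π i).ev ((rows.getD J []).getD k []) =
        (g₀ :: ℓ).getD k 0 (∑ J ∈ range (X.q * X.q * (X.D + 1)), x J • c.td i (X.mon J)) := by
      intro k
      rw [hN, map_sum]
      refine Finset.sum_congr rfl fun J hJ => ?_
      rw [map_smul, smul_eq_mul, hr, sa_getD, if_pos (mem_range.1 hJ),
        c.sy_getD i (ℓ := g₀ :: ℓ) (g := fun g => g (c.td i (X.mon J))) 0 rfl]
      rw [List.map_cons, List.map_cons, h₀ _ (c.sm_mon i J), h2 _ (c.sm_mon i J)]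
    have e2 : ∀ k, (c.π i).ev (t.getD (k + 1) []) = 0 := fun k => by
      rw [ht, Par.tgt, List.getD_cons_succ, sa_map_getD _ _ _ []]
      split_ifs <;> exact Ch.ev_nil _
    have e3 : (c.π i).ev (t.getD 0 []) = 1 := by
      rw [ht, Par.tgt, List.getD_cons_zero, Ch.ev_lit, Nat.cast_one]
    simp only [Ch.Comb, e1, hl, Nat.forall_lt_succ_left, e2, e3, List.getD_cons_zero,
      List.getD_cons_succ]
    refine and_congr_right fun _ => ⟨fun H g hg => ?_, fun H k hk => ?_⟩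
    · obtain ⟨k, hk, rfl⟩ := List.getElem_of_mem hg
      rw [← List.getD_eq_getElem _ 0 hk]
      exact H k hk
    · rw [List.getD_eq_getElem _ _ hk]
      exact H _ (List.getElem_mem hk)
  obtain ⟨s1, s2⟩ := (c.π i).solve_spec (c.fix i) hG
  obtain ⟨x, hx⟩ := c.exists_comb i hb h0
  have h4 := (key _).1 (s2 (s1.2 ⟨x, (key x).2 (hx ▸ ⟨h1, (h3 b hb).2 hP⟩)⟩))
  rw [← c.td_tup i] at h4
  exact ⟨h4.1, (h3 _ (c.sm_tup i _)).1 h4.2⟩

end Vale.Agent.P319A.Ctx
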