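import Vale.Agent.P319A.SSysA
import Vale.Agent.P319A.SIdl
import Vale.Agent.P319A.SExp
import Vale.Agent.P319A.NSB

/-!
The two linear systems of a round.
-/

open Polynomial Finset

namespace Vale.Agent.P319A.Ctx

variable {X : Par} {K : Type} [Field K] (c : Ctx X K) (i : Fin c.D.n)

/-- The state describes, in the component `i`, the data of a division step. -/
structure Pre (st : St) (I : Ideal c.D.O) : Prop where
  mo : (c.π i).Mo st.1
  len : st.1.length - 1 ≤ c.D.q * c.D.n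
  idl : c.Idl i st.1 st.2.1 = I
  hy : c.D.Hy I ((c.π i).pd st.1) ((c.π i).pd (X.rr st.1)) ((c.π i).ev (X.cc st.1)) (X.tau st)
  bd : ∀ j, |X.tau st j| ≤ 4 * (c.D.n : ℤ) ^ 4

variable {c i} {st : St} {I : Ideal c.D.O}

theorem lin_c1 (h : c.Pre i st I) (hG : (c.π i).Gd (X.ipows st.1 st.2.1).2) :
    c.Lin i (X.c1 st) fun b => ∀ j < c.D.q, ∀ γ ∈ c.D.Ii I j, c.D.of ((c.π i).pd st.1) ∣ b j * γ := by
  refine (Lin.flatMap (List.range X.q) fun j _ =>
    Lin.flatMap ((X.ipows st.1 st.2.1).1.getD j []) fun γ _ =>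
      lin_dvd h.mo (E := fun b => X.omul (b.getD j []) γ)
        ((LinearMap.mulRight K (c.od i γ)).comp (LinearMap.proj j))
        fun b => c.od_omul i _ _).congr fun b _ => ?_
  simp only [List.mem_range, c.hq]
  refine forall₂_congr fun j hj => ?_
  rw [← c.ipows_spec i h.mo h.idl (h.hy.nm.mem le_rfl) hG hj.le]
  refine ⟨fun H γ hγ => ?_, fun H γ hγ => H _ (Ideal.mem_sup_left (Ideal.subset_span ⟨γ, hγ, rfl⟩))⟩
  have : c.Idl i st.1 ((X.ipows st.1 st.2.1).1.getD j []) ≤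
      Submodule.comap (LinearMap.mulLeft c.D.O (b j)) (Ideal.span {c.D.of ((c.π i).pd st.1)}) := by
    refine sup_le (Ideal.span_le.2 ?_) (Ideal.span_le.2 ?_)
    · rintro _ ⟨δ, hδ, rfl⟩
      exact Ideal.mem_span_singleton.2 (H δ hδ)
    · rintro _ rfl
      exact Ideal.mem_span_singleton.2 (dvd_mul_left _ _)
  exact Ideal.mem_span_singleton.1 (this hγ)

theorem lin_c2 : c.Lin i (X.c2 st) fun b => ∀ j < c.D.q, c.D.of c.D.f ∣ c.D.y ^ j *
    ∑ l ∈ range c.D.q, b l * c.D.of ((c.π i).pd (X.rr st.1) ^ l * C (c.D.ζ ^ (l * j))) := by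
  refine (Lin.flatMap (List.range X.q) fun j hj =>
    lin_dvd (c.mo_f i) (E := fun b => X.omul (X.omono 1 j 0)
      (X.osum ((List.range X.q).map fun l => X.opm (X.AB.psm (X.AB.pow X.ζ (l * j))
        (X.AB.ppowm X.f (X.rr st.1) (min l X.q))) (b.getD l []))))
      ((LinearMap.mulLeft K (c.D.y ^ j)).comp (∑ l ∈ range X.q, (LinearMap.mulLeft K
        (c.D.of (C (c.D.ζ ^ (l * j)) * ((c.π i).pd (X.rr st.1) ^ l %ₘ c.D.f)))).comp
          (LinearMap.proj l))) fun b => ?_).congr fun b _ => ?_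
  · rw [od_omul, c.od_omono i (c.hq ▸ List.mem_range.1 hj) Nat.one_pos, od_osum, pow_zero, map_one,
      one_mul, LinearMap.comp_apply, LinearMap.sum_apply, LinearMap.mulLeft_apply]
    refine congrArg _ (Finset.sum_congr rfl fun l hl => ?_)
    rw [od_opm, Ch.pd_psm, Ch.ev_pow, c.ev_ζ, (c.π i).pd_ppowm (c.mo_f i), c.pd_f,
      min_eq_left (mem_range.1 hl).le]
    rfl
  simp only [List.mem_range, c.hq, c.pd_f, LinearMap.comp_apply, LinearMap.sum_apply,
    LinearMap.mulLeft_apply, LinearMap.proj_apply]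
  refine forall₂_congr fun j _ => dvd_iff_dvd_of_dvd_sub ?_
  rw [← mul_sub, ← Finset.sum_sub_distrib]
  refine (Finset.dvd_sum fun l _ => ?_).mul_left _
  rw [mul_comm (b l), ← sub_mul, ← map_sub, mul_comm _ (C _), ← mul_sub,
    modByMonic_eq_sub_mul_div, sub_sub_cancel_left]
  exact (_root_.map_dvd _ ((dvd_mul_right _ _).neg_right.mul_left _)).mul_right _

theorem Pre.deg (h : c.Pre i st I) : ((c.π i).pd st.1).natDegree ≤ c.D.n * c.D.n :=
  h.mo.natDegree.le.trans (h.len.trans (Nat.mul_le_mul_right _ c.D.q_le_n))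

theorem sy_num (c : Ctx X K) : 2 * c.D.n ≤ c.D.n * c.D.n ∧ 8 * (c.D.n * c.D.n) ≤ c.D.n ^ 5 ∧
    X.D = 5 * c.D.n ^ 5 ∧ X.M = 6 * c.D.n ^ 5 ∧ X.P1 = 20 * c.D.n ^ 5 ∧ 2 ≤ c.D.n := by
  have h2 : 2 ≤ c.D.n := c.hn ▸ c.two_le_n
  refine ⟨Nat.mul_le_mul_right _ h2, ?_, by rw [Par.D, c.hn], by rw [Par.M, c.hn],
    by rw [Par.P1, c.hn], h2⟩
  calc 8 * (c.D.n * c.D.n) = 2 ^ 3 * (c.D.n * c.D.n) := by norm_num
    _ ≤ c.D.n ^ 3 * (c.D.n * c.D.n) := by gcongr
    _ = _ := by ring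

theorem sy_zz (h : c.Pre i st I) {l : ℕ} (hl : l < c.D.q) (j : ℕ) :
    X.zz st l j = ((X.M : ℤ) - (c.D.n + ((c.π i).pd st.1).natDegree - ts (X.tau st) j l -
      if j = 0 then 0 else 1)).toNat := by
  rw [Par.zz, sa_sum, h.mo.natDegree, c.hn, c.hq, ts]
  congr 4
  · rw [← Finset.sum_subset (range_subset_range.2 hl.le) fun k _ hk => by
      simp only [mem_range] at hk; simp [hk]]
    exact Finset.sum_congr rfl fun k hk => by simp [mem_range.1 hk]
  · cases j <;> rfl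

theorem sy_ts (h : c.Pre i st I) {l : ℕ} (hl : l < c.D.q) (j : ℕ) :
    ts (X.tau st) j l ≤ 4 * (c.D.n : ℤ) ^ 5 := by
  have h1 : (l : ℤ) ≤ c.D.n := by exact_mod_cast hl.le.trans c.D.q_le_n
  calc ts (X.tau st) j l ≤ ∑ _k ∈ range l, 4 * (c.D.n : ℤ) ^ 4 :=
        Finset.sum_le_sum fun k _ => (le_abs_self _).trans (h.bd _)
    _ = l * (4 * (c.D.n : ℤ) ^ 4) := by simp
    _ ≤ c.D.n * (4 * (c.D.n : ℤ) ^ 4) := by gcongr
    _ = _ := by ring

theorem lin_ser {l j z : ℕ} {m : ℤ} (hz : z = ((X.M : ℤ) - m).toNat) (hP : z ≤ X.P1) :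
    c.Lin i (fun b => (X.sers j (b.getD l [])).take z) fun b => Dg (c.D.ι j (b l)) m := by
  refine ⟨(List.range z).map fun a : ℕ => (c.D.cf j (a - X.M)).comp (LinearMap.proj l),
    fun b hb => ?_, fun b hb => ?_⟩
  · refine List.ext_getElem (by simp [length_sers, hP]) fun a h1 h2 => ?_
    have ha : a < z := by simpa using h2
    have h3 := (c.sers_spec i j (hb l)).2 a (ha.trans_le hP)
    rw [List.getD_eq_getElem _ _ (by rw [length_sers]; omega)] at h3
    simp only [List.getElem_map, List.getElem_take, List.getElem_range]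
    exact h3
  · obtain ⟨n1, n2, n3, n4, -⟩ := c.sy_num
    have h1 : Dg (c.D.ι j (b l)) X.M := (c.D.Dg_of_coLe (hb l) j).mono (by omega)
    simp only [List.forall_mem_map, List.mem_range, LinearMap.comp_apply, LinearMap.proj_apply,
      Crv.cf_apply]
    refine ⟨fun H k hk => ?_, fun H a ha => H _ (by omega)⟩
    rcases lt_or_ge k (-X.M) with h2 | h2
    · exact h1 k h2
    · have := H (k + X.M).toNat (by omega)
      rwa [show ((k + X.M).toNat : ℤ) - X.M = k by omega] at this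

theorem lin_c3 (h : c.Pre i st I) : c.Lin i (X.c3 st) fun b => ∀ l < c.D.q, ∀ j < c.D.q,
    Dg (c.D.ι j (b l)) (c.D.n + ((c.π i).pd st.1).natDegree - ts (X.tau st) j l -
      if j = 0 then 0 else 1) := by
  refine (Lin.flatMap (List.range X.q) fun l hl => Lin.flatMap (List.range X.q) fun j _ =>
    lin_ser (sy_zz h (c.hq ▸ List.mem_range.1 hl) j) ?_).congr fun b _ => by
      simp only [List.mem_range, c.hq]
  have hl' : l < c.D.q := c.hq ▸ List.mem_range.1 hl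
  obtain ⟨n1, n2, -, n4, n5, n6⟩ := c.sy_num
  have h1 := sy_ts h hl' j
  rw [← Nat.cast_pow] at h1
  rw [sy_zz h hl' j]
  split_ifs <;> omega

/-- The automorphisms are linear over the constants. -/
noncomputable def sK (c : Ctx X K) (j : ℕ) : c.D.O →ₗ[K] c.D.O where
  toFun := c.D.s j
  map_add' := map_add _
  map_smul' a b := by rw [c.D.smul_eq, map_mul, c.D.s_of, RingHom.id_apply, c.D.smul_eq]

/-- The product in the cyclic algebra as a linear map. -/
noncomputable def cvK (c : Ctx X K) (w : K[X]) (d : ℕ → c.D.O) (k : ℕ) :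
    (ℕ → c.D.O) →ₗ[K] c.D.O :=
  ∑ l ∈ range c.D.q, if l ≤ k then
    (LinearMap.mulLeft K (d l)).comp ((c.sK l).comp (LinearMap.proj (k - l)))
  else (LinearMap.mulLeft K (c.D.of w)).comp ((LinearMap.mulLeft K (d l)).comp
    ((c.sK l).comp (LinearMap.proj (k + c.D.q - l))))

theorem cvK_apply (w : K[X]) (d : ℕ → c.D.O) (k : ℕ) (b : ℕ → c.D.O) :
    c.cvK w d k b = c.D.cv w d b k := by
  rw [cvK, LinearMap.sum_apply, Crv.cv]
  refine Finset.sum_congr rfl fun l _ => ?_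
  split_ifs <;> rfl

theorem od_ocv (w : Pol) (d b : List OE) (k : ℕ) :
    c.od i (X.ocv w d b k) = c.D.cv ((c.π i).pd w) (c.td i d) (c.td i b) k := by
  rw [Par.ocv, od_osum, Crv.cv, c.hq]
  refine Finset.sum_congr rfl fun l _ => ?_
  by_cases hl : l ≤ k <;> simp [hl, td]

theorem lin_c4 (h : c.Pre i st I) {d : List OE} (hd : c.Sm (c.td i d)) :
    c.Lin i (X.c4 st d) (c.D.Fixd ((c.π i).ev (X.cc st.1)) ((c.π i).pd st.1) (c.td i d)) := by
  obtain ⟨n1, n2, n3, -, -, n6⟩ := c.sy_num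
  have h1 := h.deg
  refine (Lin.flatMap (List.range X.q) fun k _ =>
    lin_zero (N := 12 * X.n ^ 5) (m := 11 * c.D.n ^ 5) (by rw [c.hn]; omega)
      (E := fun b => X.osub (X.ocv (X.AB.psm (X.cc st.1) st.1) d b k)
        (X.opm (X.AB.pmul X.f st.1) (b.getD k [])))
      (c.cvK (C ((c.π i).ev (X.cc st.1)) * (c.π i).pd st.1) (c.td i d) k -
        (LinearMap.mulLeft K (c.D.of (c.D.f * (c.π i).pd st.1))).comp (LinearMap.proj k))
      (fun b => ?_) fun b hb => ?_).congr fun b _ => ?_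
  · rw [od_osub, od_ocv, od_opm, Ch.pd_psm, Ch.pd_pmul, c.pd_f, LinearMap.sub_apply, cvK_apply]
    rfl
  · rw [LinearMap.sub_apply, cvK_apply]
    refine (Crv.CoLe.sum fun l _ => ?_).sub (((hb k).of_mul _).mono ?_)
    · split_ifs
      · exact ((hd l).mul ((hb _).s l)).mono (by omega)
      · refine (((hd l).mul ((hb _).s l)).of_mul _).mono ?_
        have := natDegree_C_mul_le ((c.π i).ev (X.cc st.1)) ((c.π i).pd st.1)
        omega
    · have := natDegree_mul_le (p := c.D.f) (q := (c.π i).pd st.1)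
      rw [c.D.f_natDegree] at this
      omega
  · simp only [List.mem_range, c.hq, LinearMap.sub_apply, cvK_apply, sub_eq_zero]
    rfl

/-- Truncation of a tuple. -/
noncomputable def syT (c : Ctx X K) (b : ℕ → c.D.O) (j : ℕ) : c.D.O := if j < c.D.q then b j else 0

theorem syT_lt (b : ℕ → c.D.O) {j : ℕ} (hj : j < c.D.q) : c.syT b j = b j := if_pos hj

theorem syT_lam {u r : K[X]} {b : ℕ → c.D.O} (h : c.D.Lam I u r b) : c.D.Lam I u r (c.syT b) :=
  ⟨fun j hj => syT_lt b hj ▸ h.1 j hj, fun j hj => by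
    rw [Finset.sum_congr rfl fun l hl => by rw [syT_lt b (mem_range.1 hl)]]
    exact h.2 j hj⟩

theorem syT_om {u : K[X]} {τ : ℕ → ℤ} {b : ℕ → c.D.O} (h : c.D.Om u τ b) :
    c.D.Om u τ (c.syT b) :=
  ⟨fun l hl => syT_lt b hl ▸ h.1 l hl, syT_lt b c.D.q_pos ▸ h.2⟩

theorem syT_fixd {a : K} {u : K[X]} {d b : ℕ → c.D.O} (h : c.D.Fixd a u d b) :
    c.D.Fixd a u d (c.syT b) := fun k hk => by
  rw [syT_lt b hk, ← h k hk]
  refine Finset.sum_congr rfl fun l hl => ?_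
  have := mem_range.1 hl
  split_ifs
  · rw [syT_lt b (by omega)]
  · rw [syT_lt b (by omega)]

theorem syT_sm (h : c.Pre i st I) {b : ℕ → c.D.O}
    (hb : c.D.Om ((c.π i).pd st.1) (X.tau st) b) : c.Sm (c.syT b) := fun j => by
  obtain ⟨n1, n2, n3, -⟩ := c.sy_num
  have h1 := h.deg
  unfold syT
  split_ifs with hj
  · refine (hb.coLe (B := 4 * c.D.n ^ 4) (fun j => by exact_mod_cast h.bd j) hj).mono ?_
    have : c.D.q * (4 * c.D.n ^ 4) ≤ 4 * c.D.n ^ 5 :=
      (Nat.mul_le_mul_right _ c.D.q_le_n).trans (le_of_eq (by ring))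
    omega
  · exact Crv.CoLe.zero _

theorem sy_head (h : c.Pre i st I) (b : List OE) (hb : c.Sm (c.td i b)) :
    (c.π i).ev ((X.sers 0 (b.getD 0 [])).getD (X.M - (X.n + (st.1.length - 1))) []) =
      ((c.D.cf 0 (-(c.D.n + ((c.π i).pd st.1).natDegree : ℤ))).comp (LinearMap.proj 0) :
        (ℕ → c.D.O) →ₗ[K] K) (c.td i b) := by
  obtain ⟨n1, n2, -, n4, n5, n6⟩ := c.sy_num
  have h1 := h.deg
  rw [← h.mo.natDegree, c.hn, (c.sers_spec i 0 (hb 0)).2 _ (by omega),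
    show ((X.M - (c.D.n + ((c.π i).pd st.1).natDegree) : ℕ) : ℤ) - X.M =
      -(c.D.n + ((c.π i).pd st.1).natDegree : ℤ) by omega]
  rfl

/-- Truncate the solutions of `ns1`, `ns2` to indices below `q`; they are small by `Om.coLe`. -/
theorem sol_spec [IsAlgClosed K] (h : c.Pre i st I) (hG : (c.π i).Gd (X.solL st)) :
    c.D.Lam I ((c.π i).pd st.1) ((c.π i).pd (X.rr st.1)) (c.td i (X.sol1 st)) ∧
    c.D.Om ((c.π i).pd st.1) (X.tau st) (c.td i (X.sol1 st)) ∧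
    c.D.Lam I ((c.π i).pd st.1) ((c.π i).pd (X.rr st.1)) (c.td i (X.sol2 st)) ∧
    c.D.Om ((c.π i).pd st.1) (X.tau st) (c.td i (X.sol2 st)) ∧
    c.D.Fixd ((c.π i).ev (X.cc st.1)) ((c.π i).pd st.1) (c.td i (X.sol1 st))
      (c.td i (X.sol2 st)) := by
  rw [Par.solL, Ch.gd_append, Ch.gd_append] at hG
  have L1 := ((lin_c1 h hG.1.1).append (lin_c2 (st := st))).append (lin_c3 h)
  have z : ∀ b : ℕ → c.D.O, ∀ j, c.D.q ≤ j → c.syT b j = 0 := fun b j hj => if_neg (by omega)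
  obtain ⟨b, b1, b2⟩ := Crv.ns1 h.hy
  obtain ⟨s1, s2, s3⟩ := c.solve_lin i _ (sy_head h) L1 (rows := X.rows1 st) rfl rfl hG.1.2
    (syT_sm h b2) (z b) (syT_om b2).2 ⟨syT_lam b1, (syT_om b2).1⟩
  obtain ⟨e, e1, e2, e3⟩ := Crv.ns2 h.hy (d := c.td i (X.sol1 st)) s2 ⟨s3, s1⟩
  obtain ⟨t1, ⟨t2, t3⟩, t4⟩ := c.solve_lin i _ (sy_head h)
    (L1.append (lin_c4 h (d := X.sol1 st) (c.sm_tup i _))) (rows := X.rows2 st) rfl rfl hG.2
    (syT_sm h e2) (z e) (syT_om e2).2 ⟨⟨syT_lam e1, (syT_om e2).1⟩, syT_fixd e3⟩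
  exact ⟨s2, ⟨s3, s1⟩, t2, ⟨t3, t1⟩, t4⟩

end Vale.Agent.P319A.Ctx
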