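import Vale.Agent.P319A.COut
import Vale.Agent.P319A.SCtx
import Vale.Agent.P319A.SAmm

/-!
The tower of fields of constants.
-/

open Polynomial Finset

namespace Vale.Agent.P319A

/-- The value at `z` of a vector of coefficients. -/
def evz {K : Type} [Field K] (d : ℕ) (v : Vec) (z : K) : K :=
  ∑ a ∈ range d, ((v.getD a 0 : ℕ) : K) * z ^ a

/-- The algebraic closure of the prime field. -/
abbrev Kb (p : ℕ) [Fact p.Prime] : Type := AlgebraicClosure (ZMod p)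

/-- A correct entry of the table. -/
structure GoodEnt (p : ℕ) [Fact p.Prime] (q : ℕ) (E : Ent) : Prop where
  mo : (z1 p).Mo E.1
  sh : Sh 1 E.1
  irr : Irreducible ((z1 p).pd E.1)
  len : E.1.length ≤ q + 1
  shζ : E.2.1.length ≤ E.1.length - 1
  shν : E.2.2.length ≤ E.1.length - 1
  dvd : q ∣ p ^ (E.1.length - 1) - 1
  four : q = 2 → 4 ∣ p ^ (E.1.length - 1) - 1
  root : ∀ z : Kb p, aeval z ((z1 p).pd E.1) = 0 →
    IsPrimitiveRoot (evz (E.1.length - 1) E.2.1 z) q ∧ evz (E.1.length - 1) E.2.2 z ≠ 0 ∧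
      evz (E.1.length - 1) E.2.2 z ^ ((p ^ (E.1.length - 1) - 1) / q) ≠ 1

/-- The table is correct for the primes up to `N`. -/
def TabOk (p : ℕ) [Fact p.Prime] (tab : List Ent) (N : ℕ) : Prop :=
  ∀ q, q.Prime → q ≤ N → q < p → GoodEnt p q (tab.getD q ([], [], []))

variable {p : ℕ} [Fact p.Prime]

/-- The character of the prime field with values in the closure. -/
noncomputable def k1 (p : ℕ) [Fact p.Prime] : Ch (A1 p) (Kb p) := (z1 p).map (algebraMap _ _)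

theorem two_le_of_irr {g : Pol} (hg : (z1 p).Mo g) (hi : Irreducible ((z1 p).pd g)) :
    2 ≤ g.length := by
  have h := hi.natDegree_pos
  rw [hg.natDegree] at h
  omega

theorem k1_root {g : Pol} {z : Kb p} (hz : aeval z ((z1 p).pd g) = 0) :
    ((k1 p).pd g).eval z = 0 := by
  rw [k1, Ch.pd_map, eval_map_algebraMap, hz]

/-- The character of `F_p[z] / g` at a root. -/
noncomputable def k0 {g : Pol} (hg : (z1 p).Mo g) (hi : Irreducible ((z1 p).pd g)) {z : Kb p}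
    (hz : aeval z ((z1 p).pd g) = 0) : Ch ((A1 p).ext g) (Kb p) :=
  (k1 p).ext g z (hg.map _) (two_le_of_irr hg hi) (k1_root hz)

section
variable {g : Pol} (hg : (z1 p).Mo g) (hi : Irreducible ((z1 p).pd g)) {z : Kb p}
  (hz : aeval z ((z1 p).pd g) = 0)

theorem ev_k0 (v : Vec) : (k0 hg hi hz).ev v = evz (g.length - 1) v z := by
  refine ((k1 p).ev_ext _ _ _ v).trans (Finset.sum_congr rfl fun a _ => ?_)
  simp [Alg.chunk]

/-- The minimal polynomial of `z` is `g`. -/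
theorem k0_inj : (k0 hg hi hz).Inj := fun v hv => by
  replace hv := ((k1 p).ev_ext' _ _ _ v).symm.trans hv
  rw [k1, Ch.pd_map, eval_map_algebraMap] at hv
  have h1 := minpoly.dvd _ _ hv
  rw [← minpoly.eq_of_irreducible_of_monic hi hz hg.monic] at h1
  refine (z1 p).sp_isZ (z1_inj p) (by_contra fun h => hg.monic.not_dvd_of_degree_lt h ?_ h1)
  rw [(z1 p).sp_deg hg]
  simpa only [Ch.sp_len] using (z1 p).degree_pd_lt ((A1 p).chunks (g.length - 1) v)

include hg hi hz in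
/-- `AdjoinRoot g` is a field with `p ^ deg g` elements. -/
theorem root_pow : z ^ p ^ (g.length - 1) = z := by
  obtain ⟨c, hc⟩ := hi.natDegree_dvd_iff_dvd_X_pow_card_pow_sub_X.1 dvd_rfl
  have h := congrArg (aeval z) hc
  rw [map_mul, hz, zero_mul, hg.natDegree, Nat.card_zmod] at h
  simpa [sub_eq_zero] using h

theorem k0_pow (v : Vec) : (k0 hg hi hz).ev v ^ p ^ (g.length - 1) = (k0 hg hi hz).ev v := by
  rw [ev_k0, evz, ← iterateFrobenius_def, map_sum]
  refine Finset.sum_congr rfl fun a _ => ?_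
  rw [map_mul, map_natCast, map_pow, iterateFrobenius_def, root_pow hg hi hz]

end

/-- Lifting the exponent. -/
theorem lte {q P m : ℕ} (hq : q.Prime) (hP : 1 < P) (h : q ∣ P - 1) (h4 : q = 2 → 4 ∣ P - 1)
    (hm : 0 < m) : ∃ k, P ^ m - 1 = (P - 1) * q ^ padicValNat q m * k ∧ ¬ q ∣ k := by
  have := Fact.mk hq
  have h1 : ¬q ∣ P := fun h1 => hq.one_lt.ne' (Nat.dvd_one.1 (by
    have h2 := Nat.dvd_sub h1 h
    rwa [Nat.sub_sub_self hP.le] at h2))
  have h2 : emultiplicity q (P ^ m - 1 ^ m) = emultiplicity q (P - 1) + emultiplicity q m := by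
    rcases hq.eq_two_or_odd' with rfl | h2
    · simp only [← Int.natCast_emultiplicity]
      rw [Nat.cast_sub (Nat.pow_le_pow_left hP.le m), Nat.cast_sub hP.le, Nat.cast_pow,
        Nat.cast_pow]
      refine Int.two_pow_sub_pow' m ?_ (by exact_mod_cast h1)
      rw [← Nat.cast_sub hP.le]
      exact_mod_cast h4 rfl
    · exact Nat.emultiplicity_pow_sub_pow hq h2 h h1 m
  obtain ⟨S, hS⟩ := Nat.sub_one_dvd_pow_sub_one P m
  have h3 : P ^ m - 1 ≠ 0 := Nat.sub_ne_zero_of_lt (Nat.one_lt_pow hm.ne' hP)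
  have h5 : P - 1 ≠ 0 := by omega
  have h6 : S ≠ 0 := fun h6 => h3 (by rw [hS, h6, mul_zero])
  rw [one_pow, ← padicValNat_eq_emultiplicity h3, ← padicValNat_eq_emultiplicity h5,
    ← padicValNat_eq_emultiplicity hm.ne', ← Nat.cast_add, Nat.cast_inj, hS,
    padicValNat.mul h5 h6, add_right_inj] at h2
  obtain ⟨k, hk⟩ := pow_padicValNat_dvd (p := q) (n := S)
  refine ⟨k, by rw [hS, mul_assoc, ← h2, ← hk],
    fun h7 => pow_succ_padicValNat_not_dvd (p := q) h6 ?_⟩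
  conv_rhs => rw [hk]
  rw [pow_succ]
  exact mul_dvd_mul_left _ h7

/-- A root `s` of `X ^ (q ^ t) - ν` has `q ^ t` distinct conjugates and is a nonresidue. -/
theorem kummer {K : Type} [Field K] {q P t : ℕ} (hq : q.Prime) (hP : 1 < P) (h : q ∣ P - 1)
    (h4 : q = 2 → 4 ∣ P - 1) {ν s : K} (h0 : ν ≠ 0) (h1 : ν ^ P = ν)
    (h2 : ν ^ ((P - 1) / q) ≠ 1) (hs : s ^ q ^ t = ν) :
    s ^ P ^ q ^ t = s ∧ s ^ ((P ^ q ^ t - 1) / q) ≠ 1 ∧ q ∣ P ^ q ^ t - 1 ∧
      ∀ m, 0 < m → m < q ^ t → s ^ P ^ m ≠ s := by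
  have := Fact.mk hq
  obtain ⟨a, ha⟩ := id h
  rw [ha, Nat.mul_div_cancel_left _ hq.pos] at h2
  have k1 : ν ^ (P - 1) = 1 := mul_right_cancel₀ h0 (by
    rw [← pow_succ, Nat.sub_add_cancel hP.le, h1, one_mul])
  have k2 : ∀ k, ¬q ∣ k → (ν ^ a) ^ k ≠ 1 := fun k hk h3 => hk (by
    rw [← orderOf_eq_prime (x := ν ^ a) (p := q) (by rw [← pow_mul, mul_comm, ← ha, k1]) h2]
    exact orderOf_dvd_of_pow_eq_one h3)
  have k3 : s ≠ 0 := fun h3 => h0 (by rw [← hs, h3, zero_pow (pow_ne_zero _ hq.ne_zero)])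
  have k4 : ∀ m, s ^ P ^ m = s ↔ s ^ (P ^ m - 1) = 1 := fun m => by
    conv_lhs => rw [← Nat.sub_add_cancel (Nat.one_le_pow m P (by omega)), pow_succ]
    exact mul_eq_right₀ k3
  obtain ⟨k, hk, hk'⟩ := lte hq hP h h4 (pow_pos hq.pos t)
  rw [padicValNat.prime_pow] at hk
  refine ⟨(k4 _).2 ?_, ?_, hk ▸ (h.mul_right _).mul_right _, fun m hm hm' h3 => ?_⟩
  · rw [hk, mul_comm (P - 1), pow_mul, pow_mul, hs, k1, one_pow]
  · rw [hk, ha, mul_assoc, mul_assoc, Nat.mul_div_cancel_left _ hq.pos, mul_left_comm, pow_mul, hs,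
      pow_mul]
    exact k2 k hk'
  · obtain ⟨l, hl, hl'⟩ := lte hq hP h h4 hm
    have h5 : padicValNat q m < t := (Nat.pow_lt_pow_iff_right hq.one_lt).1
      ((Nat.le_of_dvd hm pow_padicValNat_dvd).trans_lt hm')
    obtain ⟨b, hb⟩ := Nat.exists_eq_add_of_lt h5
    refine k2 l hl' ?_
    rw [← hs, ← pow_mul, ← pow_mul, ← one_pow (q ^ b), ← (k4 m).1 h3, ← pow_mul, hl, ha, hb]
    congr 1
    ring

theorem qt_eq {q n : ℕ} (hq : q.Prime) (hn : 0 < n) (h : q ∣ n) :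
    qt q n = q ^ (padicValNat q n + 1) := by
  rw [qt, vq_spec hq hn.ne' Nat.lt_two_pow_self, min_eq_left]
  rw [pow_succ]
  exact Nat.mul_le_mul (Nat.le_of_dvd hn pow_padicValNat_dvd) (Nat.le_of_dvd hn h)

end Vale.Agent.P319A
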